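import Vale.Agent.P106.R.E8.Defs
import Vale.Agent.P106.R.H518.E12

/-!
# P106 / R / E8 : [CAP] the excess is at most the capacity of the width (helper113)

The planks of level `c` in a box of width `2^-k` and a fixed time block: at most `C 2^(4 (c n - k)) max(1, 2^(-2k) / H)`.
-/

set_option autoImplicit false

namespace Vale.Agent.P106.R.E8

open Filter Topology Finset Vale.Agent.P127 Vale.Agent.P127.Stk Vale.Agent.P127.U Vale.Agent.P127.U.Sys Vale.Agent.P106.R.C2
  Vale.Agent.P106.R.E Vale.Agent.P106.R.H518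
open Vale.Agent.P106.W (Cbx)

namespace Cap

/-- an integer in a window, counted from its lower end -/
theorem win {x : ℤ} {q : ℝ} {m : ℕ} (h : |(x : ℝ) - q| ≤ m) : x - ⌈q - m⌉ ∈ Finset.Icc (0 : ℤ) (2 * m) := by
  have h1 := abs_le.1 h
  have h2 : ⌈q - m⌉ ≤ x := Int.ceil_le.2 (by linarith [h1.1])
  have h3 : q - m ≤ (⌈q - m⌉ : ℝ) := Int.le_ceil _
  rw [Finset.mem_Icc]
  constructor
  · linarith
  · have h4 : (x : ℝ) - (⌈q - m⌉ : ℝ) ≤ 2 * m := by linarith [h1.2]
    exact_mod_cast h4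

/-- number of planks of level `c` in a box -/
theorem card_box {s : Sl} {n c : ℕ} {B : Cbx} {k t : ℕ} (hs : s.f = W.s0 n) (hk : k ≤ c * n) (hu : B.u2 ≤ (1 / 2 : ℝ) ^ k)
    (ht : max (B.u2 ^ 2) (W.hh n s.h c) ≤ W.hh n s.h c * 2 ^ t) (T : ℤ) (U : Finset Nd)
    (hU : ∀ S ∈ U, S.T = T ∧ InP s n c B S) :
    (U.card : ℝ) ≤ 3 ^ 5 * 2 ^ (4 * (c * n - k) + t) := by
  classical
  set A : ℕ := 2 ^ (c * n - k) with hA
  have hN : (0 : ℝ) < 2 ^ (c * n) := by positivity
  have hAN : (2 : ℝ) ^ (c * n) * (1 / 2 : ℝ) ^ k = A := by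
    rw [hA]
    push_cast
    have e : c * n = (c * n - k) + k := by omega
    conv_lhs => rw [e, pow_add]
    rw [mul_assoc, ← mul_pow]
    norm_num
  have hHp : (0 : ℝ) < W.hh n s.h c := by unfold W.hh; positivity
  set q : Nd → ℝ := fun S => ((S.T : ℝ) * (∑ k, s c S.τ k ^ 2) / 2 - ∑ k, py n c S k * (s c S.τ k - B.v k) + B.ω) /
    W.hh n s.h c with hq
  let g : Nd → (Fin 2 → ℤ) × (Fin 2 → ℤ) × ℤ := fun S =>
    (fun j => S.o j - ⌈2 ^ (c * n) * B.p j - A⌉, fun j => S.τ j - ⌈2 ^ (c * n) * B.v j - A⌉,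
      S.w - ⌈q S - (2 ^ t : ℕ)⌉)
  have hinj : Set.InjOn g U := by
    intro S hS S' hS' e
    have e1 := congrArg Prod.fst e
    have e2 := congrArg (fun z => z.2.1) e
    have e3 := congrArg (fun z => z.2.2) e
    have ho : S.o = S'.o := by
      funext j
      have := congrFun e1 j
      simp only [g] at this
      linarith
    have hτ : S.τ = S'.τ := by
      funext j
      have := congrFun e2 j
      simp only [g] at this
      linarith
    have hT : S.T = S'.T := (hU S hS).1.trans (hU S' hS').1.symm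
    have hqq : q S = q S' := by
      simp only [hq, py, ho, hτ, hT]
    have hw : S.w = S'.w := by
      simp only [g, hqq] at e3
      linarith
    exact Nd.ext hτ ho hT hw
  have himg : ∀ S ∈ U, g S ∈ (Fintype.piFinset fun _ : Fin 2 => Finset.Icc (0 : ℤ) (2 * A)) ×ˢ
      ((Fintype.piFinset fun _ : Fin 2 => Finset.Icc (0 : ℤ) (2 * A)) ×ˢ Finset.Icc (0 : ℤ) (2 * (2 ^ t : ℕ))) := by
    intro S hS
    obtain ⟨-, h1, h2, h3, -⟩ := hU S hS
    rw [Finset.mem_product, Finset.mem_product, Fintype.mem_piFinset, Fintype.mem_piFinset]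
    refine ⟨fun j => win ?_, fun j => win ?_, win ?_⟩
    · have h4 := (h1 j).trans hu
      have e : (S.o j : ℝ) - 2 ^ (c * n) * B.p j = 2 ^ (c * n) * (py n c S j - B.p j) := by
        unfold py
        field_simp
      rw [e, abs_mul, abs_of_pos hN, ← hAN]
      exact mul_le_mul_of_nonneg_left h4 hN.le
    · have h4 := (h2 j).trans hu
      have e : (S.τ j : ℝ) - 2 ^ (c * n) * B.v j = 2 ^ (c * n) * (s c S.τ j - B.v j) := by
        rw [hs]
        unfold W.s0
        field_simp
      rw [e, abs_mul, abs_of_pos hN, ← hAN]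
      exact mul_le_mul_of_nonneg_left h4 hN.le
    · have h4 := h3.trans ht
      have e : (S.w : ℝ) - q S = (pz s n c S + ∑ k, py n c S k * (s c S.τ k - B.v k) - B.ω) / W.hh n s.h c := by
        have e1 : pz s n c S = (S.w : ℝ) * W.hh n s.h c - (S.T : ℝ) * (∑ k, s c S.τ k ^ 2) / 2 := by
          unfold pz W.hh
          ring
        rw [hq, e1]
        field_simp
        ring
      rw [e, abs_div, abs_of_pos hHp, div_le_iff₀ hHp, mul_comm]
      push_cast
      exact h4
  have hcard := Finset.card_le_card_of_injOn g himg hinj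
  have h5 : ((Fintype.piFinset fun _ : Fin 2 => Finset.Icc (0 : ℤ) (2 * A)) ×ˢ
      ((Fintype.piFinset fun _ : Fin 2 => Finset.Icc (0 : ℤ) (2 * A)) ×ˢ Finset.Icc (0 : ℤ) (2 * (2 ^ t : ℕ)))).card =
      (2 * A + 1) ^ 4 * (2 * 2 ^ t + 1) := by
    rw [Finset.card_product, Finset.card_product, Fintype.card_piFinset]
    have h6 : ∀ m : ℕ, (Finset.Icc (0 : ℤ) (2 * m)).card = 2 * m + 1 := by
      intro m
      rw [Int.card_Icc]
      omega
    simp only [h6, Fin.prod_univ_two]
    ring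
  rw [h5] at hcard
  have h7 : ((U.card : ℕ) : ℝ) ≤ (2 * (A : ℝ) + 1) ^ 4 * (2 * 2 ^ t + 1) := by exact_mod_cast hcard
  have hA1 : (1 : ℝ) ≤ A := by
    rw [hA]
    push_cast
    exact one_le_pow₀ (by norm_num)
  have ht1 : (1 : ℝ) ≤ 2 ^ t := one_le_pow₀ (by norm_num)
  refine h7.trans ?_
  calc (2 * (A : ℝ) + 1) ^ 4 * (2 * 2 ^ t + 1) ≤ (3 * (A : ℝ)) ^ 4 * (3 * 2 ^ t) := by
        refine mul_le_mul (pow_le_pow_left₀ (by positivity) (by linarith) 4) (by linarith) (by positivity) (by positivity)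
    _ = 3 ^ 5 * ((A : ℝ) ^ 4 * 2 ^ t) := by ring
    _ = 3 ^ 5 * 2 ^ (4 * (c * n - k) + t) := by
        rw [pow_add, hA]
        push_cast
        rw [← pow_mul, mul_comm (c * n - k) 4]

end Cap

/-- **[CAP]** -/
theorem stCAP {A : ℝ} (hA : 3 ≤ A) : StCAP A := by
  intro K F J θ H e Wb kk jj hK hR c hc
  classical
  have hKR : (0 : ℝ) < K := by exact_mod_cast hK
  -- the sequences
  set t : ℕ → ℕ := fun i => 2 * c * F.n i - (F.h * F.n i + 2 * kk c i) with ht
  have hWok := hR.Wok c hc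
  have hpos : ∀ᶠ i in (uf : Filter ℕ), 0 < F.n i := by
    filter_upwards [F.S.L_pos] with i hi
    rw [F.L_eq] at hi
    exact Nat.pos_of_mul_pos_left hi |> fun h => by
      rcases Nat.eq_zero_or_pos (F.n i) with h0 | h0
      · rw [h0, mul_zero] at hi; exact absurd hi (lt_irrefl _)
      · exact h0
  have hkn : ∀ᶠ i in (uf : Filter ℕ), kk c i ≤ jj c i ∧ jj c i ≤ c * F.n i := by
    filter_upwards [hWok] with i hi
    obtain ⟨ω, hω⟩ := law_pos (F.S.P i)
    obtain ⟨-, -, -, -, h1, h2⟩ := hi ω hω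
    exact ⟨h1, h2⟩
  have hcn : ∀ i, c * F.n i ≤ F.S.L i := by
    intro i
    rw [F.L_eq]
    exact Nat.mul_le_mul_right _ hc
  -- boundedness
  have hUB : ∀ (f : ℕ → ℕ) (C : ℕ), (∀ᶠ i in (uf : Filter ℕ), f i ≤ C * F.S.L i) → UB fun i => (f i : ℝ) / F.S.L i := by
    intro f C hf
    refine UB.of_le (C := C) (Eventually.of_forall fun i => by positivity) ?_
    filter_upwards [hf, F.S.L_pos] with i h1 h2
    have h3 : (0 : ℝ) < F.S.L i := by exact_mod_cast h2
    rw [div_le_iff₀ h3]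
    exact_mod_cast h1
  have hk1 : UB fun i => (kk c i : ℝ) / F.S.L i := hUB _ 1 (by
    filter_upwards [hkn] with i hi
    have := hcn i
    omega)
  have ht1 : UB fun i => (t i : ℝ) / F.S.L i := hUB _ 2 (Eventually.of_forall fun i => by
    have h1 := hcn i
    have h2 : 2 * c * F.n i = 2 * (c * F.n i) := by ring
    simp only [ht]
    omega)
  have hv1 : UB fun i => (vx F.h (F.n i) c (kk c i) (jj c i) : ℝ) / F.S.L i := hUB _ 4 (Eventually.of_forall fun i => by
    have h1 := hcn i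
    have h2 : 2 * c * F.n i = 2 * (c * F.n i) := by ring
    unfold vx
    omega)
  -- `c / K` as a limit
  have hcK : ∀ᶠ i in (uf : Filter ℕ), ((c * F.n i : ℕ) : ℝ) / F.S.L i = (c : ℝ) / K := by
    filter_upwards [hpos] with i hi
    have h1 : (0 : ℝ) < F.n i := by exact_mod_cast hi
    rw [F.L_eq]
    push_cast
    field_simp
  have hkK : F.S.nu (kk c) ≤ (c : ℝ) / K := by
    refine ulim_le_const hk1 ?_
    filter_upwards [hcK, hkn] with i h1 h2
    rw [← h1]
    refine div_le_div_of_nonneg_right ?_ (Nat.cast_nonneg _)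
    exact_mod_cast h2.1.trans h2.2
  -- entropies
  have hXt : Tame (F.N c) := cnt_tame (hR.N1 c hc)
  have hYt : Tame (Sys.pr (Wb c) (F.ball c)) := cnt_tame (hR.W1 c hc)
  have hX : F.S.h (F.N c) = H c := unf_cnt_h (hR.Nu c hc) (hR.N1 c hc)
  have hY := cnt_hc_le (hR.W1 c hc)
  have hXY := hc_le_add hXt hYt (one (S := F.S))
  -- the count
  have hcount : F.S.hc (F.N c) (Sys.pr (Sys.pr (Wb c) (F.ball c)) (one (S := F.S))) ≤
      4 * ((c : ℝ) / K - F.S.nu (kk c)) + F.S.nu t := by
    have hfin : ∀ᶠ i in (uf : Filter ℕ),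
        Stk.hc (F.S.P i) (F.N c i) (Sys.pr (Sys.pr (Wb c) (F.ball c)) (one (S := F.S)) i) ≤
          Real.log (3 ^ 5 * 2 ^ (4 * (c * F.n i - kk c i) + t i)) := by
      filter_upwards [hWok] with i hi
      refine fin_hc_le (F.S.P i) _ _ _ fun ω hω => ?_
      obtain ⟨h1, h2, h3, h4, h5, h6⟩ := hi ω hω
      refine ⟨(Finset.univ.filter fun ω' => 0 < (F.S.P i).w ω' ∧
        (Wb c i ω', F.T c i ω') = (Wb c i ω, F.T c i ω)).image (F.N c i), ?_, ?_⟩
      · refine Cap.card_box (s := F.s i) (B := Wb c i ω) (T := F.T c i ω) ?_ (h5.trans h6) h3.2 ?_ _ ?_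
        · have := (F.slp i).cone
          rw [this]
          rfl
        · rw [F.hs i]
          have hHp : (0 : ℝ) < W.hh (F.n i) F.h c := by unfold W.hh; positivity
          have h2t : (1 : ℝ) ≤ 2 ^ t i := one_le_pow₀ (by norm_num)
          refine max_le ?_ ?_
          · have hu0 : 0 ≤ (Wb c i ω).u2 := by
              have := h3.1
              refine le_trans ?_ this
              positivity
            have g1 : (Wb c i ω).u2 ^ 2 ≤ (1 / 2 : ℝ) ^ (2 * kk c i) := by
              rw [mul_comm, pow_mul]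
              exact pow_le_pow_left₀ hu0 h3.2 2
            refine g1.trans ?_
            unfold W.hh
            rw [div_mul_eq_mul_div, le_div_iff₀ (by positivity), ← pow_add]
            have e1 : (1 / 2 : ℝ) ^ (2 * kk c i) * 2 ^ (2 * c * F.n i) = 2 ^ (2 * c * F.n i) / 2 ^ (2 * kk c i) := by
              rw [one_div, inv_pow]
              field_simp
            rw [e1, div_le_iff₀ (by positivity), ← pow_add]
            refine pow_le_pow_right₀ (by norm_num) ?_
            simp only [ht]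
            omega
          · exact le_mul_of_one_le_right hHp.le h2t
        · intro S hS
          obtain ⟨ω', g1, rfl⟩ := Finset.mem_image.1 hS
          obtain ⟨-, g2, g3⟩ := Finset.mem_filter.1 g1
          have g4 : Wb c i ω' = Wb c i ω := congrArg Prod.fst g3
          refine ⟨congrArg Prod.snd g3, ?_⟩
          have := (hi ω' g2).1
          rw [g4] at this
          exact this
      · intro ω' hω' e
        refine Finset.mem_image.2 ⟨ω', Finset.mem_filter.2 ⟨Finset.mem_univ _, hω', ?_⟩, rfl⟩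
        exact congrArg Prod.fst e
    have hlim : F.S.hc (F.N c) (Sys.pr (Sys.pr (Wb c) (F.ball c)) (one (S := F.S))) ≤
        ulim (fun i => 4 * ((c : ℝ) / K - (kk c i : ℝ) / F.S.L i) + (t i : ℝ) / F.S.L i) := by
      refine ulim_le_of_sub (UB.hc hXt _) ?_ (F.S.const_div_nm (Real.log (3 ^ 5))) ?_
      · exact (((UB.const _).sub hk1).const_mul 4).add ht1
      · filter_upwards [hfin, F.S.nm_pos, F.S.L_pos, hcK, hkn] with i h1 h2 h3 h4 h5
        have hL : (0 : ℝ) < F.S.L i := by exact_mod_cast h3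
        have hlog : (0 : ℝ) < Real.log 2 := Real.log_pos (by norm_num)
        rw [Real.log_mul (by positivity) (by positivity), Real.log_pow 2] at h1
        rw [← h4, div_le_iff₀ h2]
        refine h1.trans (le_of_eq ?_)
        have e1 : ((c * F.n i - kk c i : ℕ) : ℝ) = ((c * F.n i : ℕ) : ℝ) - kk c i := by
          rw [Nat.cast_sub (h5.1.trans h5.2)]
        have e2 : ((4 * (c * F.n i - kk c i) + t i : ℕ) : ℝ) = 4 * (((c * F.n i : ℕ) : ℝ) - kk c i) + t i := by
          rw [← e1]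
          push_cast
          ring
        rw [e2]
        unfold Sys.nm
        field_simp
        ring
    refine hlim.trans (le_of_eq ?_)
    rw [ulim_add (((UB.const _).sub hk1).const_mul 4) ht1, ulim_const_mul 4 ((UB.const _).sub hk1),
      ulim_sub (UB.const _) hk1, ulim_const]
    rfl
  have hvt : F.S.nu t + ((c : ℝ) / K - F.S.nu (kk c)) ≤ F.S.nu (fun i => vx F.h (F.n i) c (kk c i) (jj c i)) := by
    have e1 : F.S.nu t + ((c : ℝ) / K - F.S.nu (kk c)) =
        ulim (fun i => (t i : ℝ) / F.S.L i + ((c : ℝ) / K - (kk c i : ℝ) / F.S.L i)) := by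
      rw [ulim_add ht1 ((UB.const _).sub hk1), ulim_sub (UB.const _) hk1, ulim_const]
      rfl
    rw [e1]
    refine ulim_le (ht1.add ((UB.const _).sub hk1)) hv1 ?_
    filter_upwards [hcK, hkn] with i h1 h2
    rw [← h1, ← sub_div, ← add_div]
    refine div_le_div_of_nonneg_right ?_ (Nat.cast_nonneg _)
    have h3 : t i + c * F.n i ≤ vx F.h (F.n i) c (kk c i) (jj c i) + kk c i := by
      unfold vx
      simp only [ht]
      have : 2 * c * F.n i = 2 * (c * F.n i) := by ring
      omega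
    have h4 : (t i : ℝ) + ((c * F.n i : ℕ) : ℝ) ≤ (vx F.h (F.n i) c (kk c i) (jj c i) : ℝ) + kk c i := by
      exact_mod_cast h3
    linarith
  have hX' : F.S.hc (F.N c) (one (S := F.S)) = H c := hX
  have h1K : (0 : ℝ) < 1 / K := by positivity
  have hfin : e c ≤ 3 * ((c : ℝ) / K - F.S.nu (kk c)) + 1 / K := by
    have hY' : F.S.hc (Sys.pr (Wb c) (F.ball c)) (one (S := F.S)) ≤
      H c - e c - F.S.nu (fun i => vx F.h (F.n i) c (kk c i) (jj c i)) + 1 / K := hY
    linarith
  refine hfin.trans ?_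
  have h8 : 0 ≤ (c : ℝ) / K - F.S.nu (kk c) := by linarith
  have h9 : 3 * ((c : ℝ) / K - F.S.nu (kk c)) ≤ A * ((c : ℝ) / K - F.S.nu (kk c)) := mul_le_mul_of_nonneg_right hA h8
  have h10 : 1 / (K : ℝ) ≤ A / K := div_le_div_of_nonneg_right (by linarith) hKR.le
  linarith

end Vale.Agent.P106.R.E8
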