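import Mathlib

/-! # P106 / R / E8 : two conformal slabs through a pair of rays, real inequalities (helper912)

`(a, b)` the unit normal of the second slab at the first ray, `e (b, -a)` the normal of the difference, `k2, a2`, `kD, aD` the
curvatures, `x, y` differences of position and slope, `c` adapted coordinate. `p` width, `ε` thickness. -/

set_option autoImplicit false

namespace Vale.Agent.P106.R.E8.H912

/-- hypotheses on a pair of rays -/
structure Pr (a b e k2 a2 kD aD x0 x1 y0 y1 c ε p M : ℝ) : Prop where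
  unit : a ^ 2 + b ^ 2 = 1
  e1 : |e| ≤ 1
  p0 : 0 < p
  ε0 : 0 < ε
  εp : ε ≤ p
  k2p : |k2| * p ≤ 1 / 2000
  a2p : |a2| * p ≤ 1 / 2000
  M0 : 0 ≤ M
  Mp : M * p ≤ 1 / 1000
  hkD : |kD| ≤ M
  haD : |aD| ≤ M
  hx0 : |x0| ≤ p
  hx1 : |x1| ≤ p
  hy0 : |y0| ≤ p
  hy1 : |y1| ≤ p
  A2 : |a * x0 + b * x1 + k2 * c - a2 * (x0 ^ 2 + x1 ^ 2)| ≤ ε
  B2 : |a * y0 + b * y1 + k2 * (y0 ^ 2 + y1 ^ 2) / 2 + 2 * a2 * (c - (x0 * y0 + x1 * y1))| ≤ ε
  AD : |e * b * x0 - e * a * x1 + kD * c - aD * (x0 ^ 2 + x1 ^ 2)| ≤ 2 * ε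
  BD : |e * b * y0 - e * a * y1 + kD * (y0 ^ 2 + y1 ^ 2) / 2 + 2 * aD * (c - (x0 * y0 + x1 * y1))| ≤ 2 * ε

variable {a b e k2 a2 kD aD x0 x1 y0 y1 c ε p M : ℝ}

theorem sq_sum_le {x y p : ℝ} (hx : |x| ≤ p) (hy : |y| ≤ p) : x ^ 2 + y ^ 2 ≤ p * (|x| + |y|) := by
  have h1 : x ^ 2 ≤ p * |x| := by
    rw [← sq_abs, sq]
    exact mul_le_mul_of_nonneg_right hx (abs_nonneg _)
  have h2 : y ^ 2 ≤ p * |y| := by
    rw [← sq_abs, sq]
    exact mul_le_mul_of_nonneg_right hy (abs_nonneg _)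
  linarith

theorem prod_le {x0 x1 y0 y1 p : ℝ} (hx : |x0| ≤ p) (hy : |x1| ≤ p) : |x0 * y0 + x1 * y1| ≤ p * (|y0| + |y1|) := by
  refine (abs_add_le _ _).trans ?_
  rw [abs_mul, abs_mul]
  have h1 := mul_le_mul_of_nonneg_right hx (abs_nonneg y0)
  have h2 := mul_le_mul_of_nonneg_right hy (abs_nonneg y1)
  linarith

/-- abstract form of the rotation lemma: `D` the new normal of the difference, `(a', b')` the new normal of the slab -/
theorem rot_abs {a' b' D0 D1 e s1 s3 sD m : ℝ} (hm : 0 ≤ m) (e1 : |e| ≤ 1) (i3 : a' ^ 2 + b' ^ 2 = 1 + s3)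
    (iD : D0 ^ 2 + D1 ^ 2 = e ^ 2 + sD) (i1 : D0 * a' + D1 * b' = s1) (h3 : |s3| ≤ 1 / 16) (bD : |sD| ≤ 12 * m)
    (be3 : |e * s3| ≤ m / 10) (b1 : |e * s1| ≤ 3.1 * m) (hs : 0 ≤ e * (D0 * b' - D1 * a')) :
    |e| * |D0 - e * b'| ≤ 15 * m ∧ |e| * |D1 + e * a'| ≤ 15 * m := by
  set R0 := D0 - e * b' with r0
  set R1 := D1 + e * a' with r1
  have bδ : |sD - e ^ 2 * s3| ≤ 12.1 * m := by
    have h1 : |e ^ 2 * s3| ≤ m / 10 := by
      have e2 : e ^ 2 * s3 = e * (e * s3) := by ring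
      rw [e2, abs_mul]
      calc |e| * |e * s3| ≤ 1 * (m / 10) := mul_le_mul e1 be3 (abs_nonneg _) (by norm_num)
        _ = _ := by ring
    have h2 := abs_sub sD (e ^ 2 * s3)
    linarith
  have key : (R0 ^ 2 + R1 ^ 2) * ((D0 ^ 2 + D1 ^ 2) + e ^ 2 * (a' ^ 2 + b' ^ 2) + 2 * (e * (D0 * b' - D1 * a'))) =
      (sD - e ^ 2 * s3) ^ 2 + 4 * (e * s1) ^ 2 := by
    have k1 : sD - e ^ 2 * s3 = (D0 ^ 2 + D1 ^ 2) - e ^ 2 * (a' ^ 2 + b' ^ 2) := by
      rw [i3, iD]; ring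
    rw [k1, ← i1, r0, r1]
    ring
  have hN : (15 / 16 : ℝ) ≤ a' ^ 2 + b' ^ 2 := by
    rw [i3]
    have := (abs_le.1 h3).1
    linarith
  have hlow : (R0 ^ 2 + R1 ^ 2) * e ^ 2 * (15 / 16) ≤ (sD - e ^ 2 * s3) ^ 2 + 4 * (e * s1) ^ 2 := by
    rw [← key, mul_assoc]
    refine mul_le_mul_of_nonneg_left ?_ (by positivity)
    have h1 := mul_le_mul_of_nonneg_left hN (sq_nonneg e)
    have h2 := sq_nonneg D0
    have h3 := sq_nonneg D1
    linarith
  have hδ2 : (sD - e ^ 2 * s3) ^ 2 ≤ (12.1 * m) ^ 2 := sq_le_sq' (abs_le.1 bδ).1 (abs_le.1 bδ).2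
  have hs2 : (e * s1) ^ 2 ≤ (3.1 * m) ^ 2 := sq_le_sq' (abs_le.1 b1).1 (abs_le.1 b1).2
  have hM2 : 0 ≤ m ^ 2 := sq_nonneg m
  have up : (R0 ^ 2 + R1 ^ 2) * e ^ 2 ≤ 225 * m ^ 2 := by
    have q1 : (12.1 * m) ^ 2 = 146.41 * m ^ 2 := by ring
    have q2 : (3.1 * m) ^ 2 = 9.61 * m ^ 2 := by ring
    rw [q1] at hδ2
    rw [q2] at hs2
    linarith
  have fin : ∀ R : ℝ, R ^ 2 ≤ R0 ^ 2 + R1 ^ 2 → |e| * |R| ≤ 15 * m := by
    intro R hR
    rw [← abs_mul]
    refine abs_le_of_sq_le_sq ?_ (by positivity)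
    have h1 : (e * R) ^ 2 = R ^ 2 * e ^ 2 := by ring
    have h3 : (15 * m) ^ 2 = 225 * m ^ 2 := by ring
    rw [h1, h3]
    have h2 := mul_le_mul_of_nonneg_right hR (sq_nonneg e)
    linarith
  exact ⟨fin R0 (by linarith [sq_nonneg R1]), fin R1 (by linarith [sq_nonneg R0])⟩

/-- bounds of the invariants -/
theorem inv_bd {e k2 a2 kD aD A2 B2 AD BD ε p M : ℝ} (e1 : |e| ≤ 1) (ε0 : 0 < ε) (εp : ε ≤ p)
    (k2p : |k2| * p ≤ 1 / 2000) (a2p : |a2| * p ≤ 1 / 2000) (M0 : 0 ≤ M) (hkD : |kD| ≤ M) (haD : |aD| ≤ M)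
    (hA2 : |A2| ≤ ε) (hB2 : |B2| ≤ ε) (hAD : |AD| ≤ 2 * ε) (hBD : |BD| ≤ 2 * ε) (he : |e| ≤ 32 * (M * p)) :
    |2 * (k2 * B2 - 2 * a2 * A2)| ≤ 1 / 16 ∧ |2 * (kD * BD - 2 * aD * AD)| ≤ 12 * (M * ε) ∧
      |e * (2 * (k2 * B2 - 2 * a2 * A2))| ≤ M * ε / 10 ∧
      |e * (kD * B2 + k2 * BD - 2 * aD * A2 - 2 * a2 * AD)| ≤ 3.1 * (M * ε) := by
  have hMε : 0 ≤ M * ε := by positivity
  have ek : |e| * |k2| ≤ M * (32 / 2000) := by
    calc |e| * |k2| ≤ 32 * (M * p) * |k2| := mul_le_mul_of_nonneg_right he (abs_nonneg _)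
      _ = 32 * M * (|k2| * p) := by ring
      _ ≤ 32 * M * (1 / 2000) := mul_le_mul_of_nonneg_left k2p (by positivity)
      _ = _ := by ring
  have ea : |e| * |a2| ≤ M * (32 / 2000) := by
    calc |e| * |a2| ≤ 32 * (M * p) * |a2| := mul_le_mul_of_nonneg_right he (abs_nonneg _)
      _ = 32 * M * (|a2| * p) := by ring
      _ ≤ 32 * M * (1 / 2000) := mul_le_mul_of_nonneg_left a2p (by positivity)
      _ = _ := by ring
  have k2ε : |k2| * ε ≤ 1 / 2000 := (mul_le_mul_of_nonneg_left εp (abs_nonneg _)).trans k2p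
  have a2ε : |a2| * ε ≤ 1 / 2000 := (mul_le_mul_of_nonneg_left εp (abs_nonneg _)).trans a2p
  have hkB : |k2 * B2| ≤ |k2| * ε := by rw [abs_mul]; exact mul_le_mul_of_nonneg_left hB2 (abs_nonneg _)
  have haA : |a2 * A2| ≤ |a2| * ε := by rw [abs_mul]; exact mul_le_mul_of_nonneg_left hA2 (abs_nonneg _)
  have b3 : |2 * (k2 * B2 - 2 * a2 * A2)| ≤ 2 * (|k2| * ε) + 4 * (|a2| * ε) := by
    rw [abs_le]
    rw [abs_le] at hkB haA
    constructor <;> linarith [hkB.1, hkB.2, haA.1, haA.2]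
  have hkBD : |kD * BD| ≤ M * (2 * ε) := by
    rw [abs_mul]; exact mul_le_mul hkD hBD (abs_nonneg _) M0
  have haAD : |aD * AD| ≤ M * (2 * ε) := by
    rw [abs_mul]; exact mul_le_mul haD hAD (abs_nonneg _) M0
  refine ⟨by linarith, ?_, ?_, ?_⟩
  · rw [abs_le]
    rw [abs_le] at hkBD haAD
    constructor <;> linarith [hkBD.1, hkBD.2, haAD.1, haAD.2]
  · rw [abs_mul]
    calc |e| * |2 * (k2 * B2 - 2 * a2 * A2)| ≤ |e| * (2 * (|k2| * ε) + 4 * (|a2| * ε)) :=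
        mul_le_mul_of_nonneg_left b3 (abs_nonneg _)
      _ = 2 * (|e| * |k2| * ε) + 4 * (|e| * |a2| * ε) := by ring
      _ ≤ 2 * (M * (32 / 2000) * ε) + 4 * (M * (32 / 2000) * ε) := by
          have h1 := mul_le_mul_of_nonneg_right ek ε0.le
          have h2 := mul_le_mul_of_nonneg_right ea ε0.le
          linarith
      _ ≤ _ := by linarith
  · have t1 : |e * (kD * B2)| ≤ M * ε := by
      rw [abs_mul, abs_mul]
      calc |e| * (|kD| * |B2|) ≤ 1 * (M * ε) :=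
          mul_le_mul e1 (mul_le_mul hkD hB2 (abs_nonneg _) M0) (by positivity) (by norm_num)
        _ = _ := by ring
    have t2 : |e * (aD * A2)| ≤ M * ε := by
      rw [abs_mul, abs_mul]
      calc |e| * (|aD| * |A2|) ≤ 1 * (M * ε) :=
          mul_le_mul e1 (mul_le_mul haD hA2 (abs_nonneg _) M0) (by positivity) (by norm_num)
        _ = _ := by ring
    have t3 : |e * (k2 * BD)| ≤ M * (32 / 2000) * (2 * ε) := by
      rw [abs_mul, abs_mul, ← mul_assoc]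
      exact mul_le_mul ek hBD (abs_nonneg _) (by positivity)
    have t4 : |e * (a2 * AD)| ≤ M * (32 / 2000) * (2 * ε) := by
      rw [abs_mul, abs_mul, ← mul_assoc]
      exact mul_le_mul ea hAD (abs_nonneg _) (by positivity)
    have e2 : e * (kD * B2 + k2 * BD - 2 * aD * A2 - 2 * a2 * AD) =
        e * (kD * B2) + e * (k2 * BD) - 2 * (e * (aD * A2)) - 2 * (e * (a2 * AD)) := by ring
    rw [e2, abs_le]
    rw [abs_le] at t1 t2 t3 t4
    constructor <;> linarith [t1.1, t1.2, t2.1, t2.2, t3.1, t3.2, t4.1, t4.2]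

/-- the normal of the difference rotates with the normal of the second slab -/
theorem Pr.rot (h : Pr a b e k2 a2 kD aD x0 x1 y0 y1 c ε p M) (he : |e| ≤ 32 * (M * p))
    (hs : 0 ≤ e * ((e * b + kD * y0 - 2 * aD * x0) * (b + k2 * y1 - 2 * a2 * x1) -
      (-(e * a) + kD * y1 - 2 * aD * x1) * (a + k2 * y0 - 2 * a2 * x0))) :
    |e| * |kD * y0 - 2 * aD * x0 - e * (k2 * y1 - 2 * a2 * x1)| ≤ 15 * (M * ε) ∧
      |e| * |kD * y1 - 2 * aD * x1 + e * (k2 * y0 - 2 * a2 * x0)| ≤ 15 * (M * ε) := by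
  obtain ⟨c1, c2, c3, c4⟩ := inv_bd h.e1 h.ε0 h.εp h.k2p h.a2p h.M0 h.hkD h.haD h.A2 h.B2 h.AD h.BD he
  have hm : 0 ≤ M * ε := mul_nonneg h.M0 h.ε0.le
  obtain ⟨f0, f1⟩ := rot_abs hm h.e1 (by linear_combination h.unit) (by linear_combination e ^ 2 * h.unit) (by ring)
    c1 c2 c3 c4 hs
  constructor
  · have e0 : kD * y0 - 2 * aD * x0 - e * (k2 * y1 - 2 * a2 * x1) =
        e * b + kD * y0 - 2 * aD * x0 - e * (b + k2 * y1 - 2 * a2 * x1) := by ring
    rw [e0]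
    exact f0
  · have e0 : kD * y1 - 2 * aD * x1 + e * (k2 * y0 - 2 * a2 * x0) =
        -(e * a) + kD * y1 - 2 * aD * x1 + e * (a + k2 * y0 - 2 * a2 * x0) := by ring
    rw [e0]
    exact f1

/-- component along the second coordinate -/
theorem comp_le {a b y0 y1 ν : ℝ} (hab : a ^ 2 + b ^ 2 = 1) (hν : |a * y0 + b * y1| ≤ ν) :
    (|a| ≤ |b| → |y0| + |y1| ≤ 3 * |y0| + 2 * ν) ∧ (|b| ≤ |a| → |y0| + |y1| ≤ 3 * |y1| + 2 * ν) := by
  have hν0 : 0 ≤ ν := (abs_nonneg _).trans hν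
  have key : ∀ {a b y0 y1 : ℝ}, a ^ 2 + b ^ 2 = 1 → |a * y0 + b * y1| ≤ ν → |a| ≤ |b| →
      |y0| + |y1| ≤ 3 * |y0| + 2 * ν := by
    intro a b y0 y1 hab hν h
    have h1 : (1 / 2 : ℝ) ≤ |b| := by
      by_contra hcon
      push Not at hcon
      have h2 := sq_abs a
      have h3 := sq_abs b
      nlinarith [abs_nonneg a, abs_nonneg b]
    have h2 : |b| * |y1| ≤ ν + |a| * |y0| := by
      rw [← abs_mul, ← abs_mul]
      have e : b * y1 = (a * y0 + b * y1) - a * y0 := by ring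
      rw [e]
      exact (abs_sub _ _).trans (by linarith)
    have h3 : |b| * |y1| ≤ ν + |b| * |y0| := h2.trans (by
      have := mul_le_mul_of_nonneg_right h (abs_nonneg y0)
      linarith)
    have h4 : |y1| ≤ 2 * ν + |y0| := by
      by_contra hcon
      push Not at hcon
      have h5 : |b| * (2 * ν + |y0|) < |b| * |y1| := mul_lt_mul_of_pos_left hcon (by linarith)
      nlinarith
    linarith [abs_nonneg y0]
  refine ⟨key hab hν, fun h => ?_⟩
  have := key (a := b) (b := a) (y0 := y1) (y1 := y0) (by linarith) (by rwa [add_comm]) h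
  linarith

/-- tangential component -/
theorem tan_le {a b x0 x1 : ℝ} (hab : a ^ 2 + b ^ 2 = 1) :
    |x0| + |x1| ≤ 1.5 * (|b * x0 - a * x1| + |a * x0 + b * x1|) ∧ |b * x0 - a * x1| ≤ |x0| + |x1| := by
  have ha : |a| ≤ 1 := abs_le_of_sq_le_sq (by nlinarith [sq_nonneg b]) (by norm_num)
  have hb : |b| ≤ 1 := abs_le_of_sq_le_sq (by nlinarith [sq_nonneg a]) (by norm_num)
  have hs : |a| + |b| ≤ 1.5 := by
    have h2 := sq_abs a
    have h3 := sq_abs b
    nlinarith [sq_nonneg (|a| - |b|), abs_nonneg a, abs_nonneg b]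
  constructor
  · have e0 : x0 = b * (b * x0 - a * x1) + a * (a * x0 + b * x1) := by linear_combination (-x0) * hab
    have e1 : x1 = -a * (b * x0 - a * x1) + b * (a * x0 + b * x1) := by linear_combination (-x1) * hab
    have h0 : |x0| ≤ |b| * |b * x0 - a * x1| + |a| * |a * x0 + b * x1| := by
      conv_lhs => rw [e0]
      refine (abs_add_le _ _).trans ?_
      rw [abs_mul, abs_mul]
    have h1 : |x1| ≤ |a| * |b * x0 - a * x1| + |b| * |a * x0 + b * x1| := by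
      conv_lhs => rw [e1]
      refine (abs_add_le _ _).trans ?_
      rw [abs_mul, abs_mul, abs_neg]
    have t0 := abs_nonneg (b * x0 - a * x1)
    have t1 := abs_nonneg (a * x0 + b * x1)
    calc |x0| + |x1| ≤ (|a| + |b|) * (|b * x0 - a * x1| + |a * x0 + b * x1|) := by linarith
      _ ≤ _ := mul_le_mul_of_nonneg_right hs (by positivity)
  · refine (abs_sub _ _).trans ?_
    rw [abs_mul, abs_mul]
    have h1 := mul_le_mul_of_nonneg_right hb (abs_nonneg x0)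
    have h2 := mul_le_mul_of_nonneg_right ha (abs_nonneg x1)
    linarith

/-- the coordinate along the wide direction is known up to `ε` -/
def Dig (a b y0 y1 ε : ℝ) : Prop := (|a| ≤ |b| ∧ |y0| ≤ ε) ∨ (|b| ≤ |a| ∧ |y1| ≤ ε)

theorem dig_le {a b y0 y1 ε ν : ℝ} (hab : a ^ 2 + b ^ 2 = 1) (hd : Dig a b y0 y1 ε) (hν : |a * y0 + b * y1| ≤ ν) :
    |y0| + |y1| ≤ 3 * ε + 2 * ν := by
  obtain ⟨c1, c2⟩ := comp_le hab hν
  rcases hd with ⟨h1, h2⟩ | ⟨h1, h2⟩
  · linarith [c1 h1]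
  · linarith [c2 h1]

section basic

variable (h : Pr a b e k2 a2 kD aD x0 x1 y0 y1 c ε p M)

include h

theorem Pr.ax : |a2| * (x0 ^ 2 + x1 ^ 2) ≤ (|x0| + |x1|) / 2000 := by
  have h1 := mul_le_mul_of_nonneg_left (sq_sum_le h.hx0 h.hx1) (abs_nonneg a2)
  have h2 := mul_le_mul_of_nonneg_right h.a2p (by positivity : 0 ≤ |x0| + |x1|)
  linarith

theorem Pr.ky : |k2| * (y0 ^ 2 + y1 ^ 2) ≤ (|y0| + |y1|) / 2000 := by
  have h1 := mul_le_mul_of_nonneg_left (sq_sum_le h.hy0 h.hy1) (abs_nonneg k2)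
  have h2 := mul_le_mul_of_nonneg_right h.k2p (by positivity : 0 ≤ |y0| + |y1|)
  linarith

theorem Pr.axy : |a2| * |x0 * y0 + x1 * y1| ≤ (|y0| + |y1|) / 2000 := by
  have h1 := mul_le_mul_of_nonneg_left (prod_le (y0 := y0) (y1 := y1) h.hx0 h.hx1) (abs_nonneg a2)
  have h2 := mul_le_mul_of_nonneg_right h.a2p (by positivity : 0 ≤ |y0| + |y1|)
  linarith

/-- normal component of the position -/
theorem Pr.nx : |a * x0 + b * x1| ≤ ε + |k2| * |c| + (|x0| + |x1|) / 2000 := by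
  have e0 : a * x0 + b * x1 = (a * x0 + b * x1 + k2 * c - a2 * (x0 ^ 2 + x1 ^ 2)) - k2 * c + a2 * (x0 ^ 2 + x1 ^ 2) := by ring
  rw [e0]
  refine (abs_add_le _ _).trans ?_
  have h1 := abs_sub (a * x0 + b * x1 + k2 * c - a2 * (x0 ^ 2 + x1 ^ 2)) (k2 * c)
  rw [abs_mul k2 c] at h1
  rw [abs_mul a2, abs_of_nonneg (by positivity : 0 ≤ x0 ^ 2 + x1 ^ 2)]
  linarith [h.A2, h.ax]

/-- normal component of the slope -/
theorem Pr.ny : |a * y0 + b * y1| ≤ ε + 2 * (|a2| * |c|) + (|y0| + |y1|) / 800 := by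
  have e0 : a * y0 + b * y1 = (a * y0 + b * y1 + k2 * (y0 ^ 2 + y1 ^ 2) / 2 + 2 * a2 * (c - (x0 * y0 + x1 * y1))) -
      (k2 * (y0 ^ 2 + y1 ^ 2) / 2 + 2 * (a2 * c)) + 2 * (a2 * (x0 * y0 + x1 * y1)) := by ring
  rw [e0]
  refine (abs_add_le _ _).trans ?_
  have h1 := abs_sub (a * y0 + b * y1 + k2 * (y0 ^ 2 + y1 ^ 2) / 2 + 2 * a2 * (c - (x0 * y0 + x1 * y1)))
    (k2 * (y0 ^ 2 + y1 ^ 2) / 2 + 2 * (a2 * c))
  have h2 := abs_add_le (k2 * (y0 ^ 2 + y1 ^ 2) / 2) (2 * (a2 * c))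
  have e1 : |k2 * (y0 ^ 2 + y1 ^ 2) / 2| = |k2| * (y0 ^ 2 + y1 ^ 2) / 2 := by
    rw [abs_div, abs_mul, abs_of_nonneg (by positivity : 0 ≤ y0 ^ 2 + y1 ^ 2), abs_two]
  have e2 : |2 * (a2 * c)| = 2 * (|a2| * |c|) := by rw [abs_mul, abs_mul, abs_two]
  have e3 : |2 * (a2 * (x0 * y0 + x1 * y1))| = 2 * (|a2| * |x0 * y0 + x1 * y1|) := by rw [abs_mul, abs_mul, abs_two]
  rw [e3]
  rw [e1, e2] at h2
  linarith [h.B2, h.ky, h.axy, abs_nonneg y0, abs_nonneg y1]

/-- adapted coordinate from the curvature `kD` -/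
theorem Pr.ck : |kD| * |c| ≤ 2 * ε + |e| * (|x0| + |x1|) + M * p * (|x0| + |x1|) := by
  have e0 : kD * c = (e * b * x0 - e * a * x1 + kD * c - aD * (x0 ^ 2 + x1 ^ 2)) - e * (b * x0 - a * x1) +
      aD * (x0 ^ 2 + x1 ^ 2) := by ring
  rw [← abs_mul, e0]
  refine (abs_add_le _ _).trans ?_
  have h1 := abs_sub (e * b * x0 - e * a * x1 + kD * c - aD * (x0 ^ 2 + x1 ^ 2)) (e * (b * x0 - a * x1))
  have h2 : |e * (b * x0 - a * x1)| ≤ |e| * (|x0| + |x1|) := by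
    rw [abs_mul]
    exact mul_le_mul_of_nonneg_left (tan_le h.unit).2 (abs_nonneg _)
  have h3 : |aD * (x0 ^ 2 + x1 ^ 2)| ≤ M * p * (|x0| + |x1|) := by
    rw [abs_mul, abs_of_nonneg (by positivity : 0 ≤ x0 ^ 2 + x1 ^ 2), mul_assoc]
    exact mul_le_mul h.haD (sq_sum_le h.hx0 h.hx1) (by positivity) h.M0
  linarith [h.AD]

/-- adapted coordinate from the curvature `aD` -/
theorem Pr.ca : 2 * (|aD| * |c|) ≤ 2 * ε + |e| * (|y0| + |y1|) + 2.5 * (M * p * (|y0| + |y1|)) := by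
  have e0 : 2 * (aD * c) = (e * b * y0 - e * a * y1 + kD * (y0 ^ 2 + y1 ^ 2) / 2 + 2 * aD * (c - (x0 * y0 + x1 * y1))) -
      (e * (b * y0 - a * y1) + kD * (y0 ^ 2 + y1 ^ 2) / 2) + 2 * (aD * (x0 * y0 + x1 * y1)) := by ring
  have e1 : 2 * (|aD| * |c|) = |2 * (aD * c)| := by rw [abs_mul, abs_mul, abs_two]
  rw [e1, e0]
  refine (abs_add_le _ _).trans ?_
  have h1 := abs_sub (e * b * y0 - e * a * y1 + kD * (y0 ^ 2 + y1 ^ 2) / 2 + 2 * aD * (c - (x0 * y0 + x1 * y1)))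
    (e * (b * y0 - a * y1) + kD * (y0 ^ 2 + y1 ^ 2) / 2)
  have h2 : |e * (b * y0 - a * y1)| ≤ |e| * (|y0| + |y1|) := by
    rw [abs_mul]
    exact mul_le_mul_of_nonneg_left (tan_le h.unit).2 (abs_nonneg _)
  have h3 : |kD * (y0 ^ 2 + y1 ^ 2) / 2| ≤ M * p * (|y0| + |y1|) / 2 := by
    rw [abs_div, abs_mul, abs_of_nonneg (by positivity : 0 ≤ y0 ^ 2 + y1 ^ 2), abs_two, mul_assoc M]
    have := mul_le_mul h.hkD (sq_sum_le h.hy0 h.hy1) (by positivity) h.M0
    linarith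
  have h4 : |2 * (aD * (x0 * y0 + x1 * y1))| ≤ 2 * (M * p * (|y0| + |y1|)) := by
    rw [abs_mul, abs_mul, abs_two, mul_assoc M]
    have := mul_le_mul h.haD (prod_le (y0 := y0) (y1 := y1) h.hx0 h.hx1) (abs_nonneg _) h.M0
    linarith
  have h5 := abs_add_le (e * (b * y0 - a * y1)) (kD * (y0 ^ 2 + y1 ^ 2) / 2)
  linarith [h.BD]

end basic

theorem ek_le {e k p M : ℝ} (M0 : 0 ≤ M) (he : |e| ≤ 32 * (M * p)) (hk : |k| * p ≤ 1 / 2000) : |e| * |k| ≤ M * (2 / 125) := by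
  calc |e| * |k| ≤ 32 * (M * p) * |k| := mul_le_mul_of_nonneg_right he (abs_nonneg _)
    _ = 32 * M * (|k| * p) := by ring
    _ ≤ 32 * M * (1 / 2000) := mul_le_mul_of_nonneg_left hk (by positivity)
    _ = _ := by ring

/-- stage 1, `aD` dominant: given the digit of the slope, the position is known up to `ε / |e|` -/
theorem Pr.s1a (h : Pr a b e k2 a2 kD aD x0 x1 y0 y1 c ε p M) (he : |e| ≤ 32 * (M * p))
    (hs : 0 ≤ e * ((e * b + kD * y0 - 2 * aD * x0) * (b + k2 * y1 - 2 * a2 * x1) -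
      (-(e * a) + kD * y1 - 2 * aD * x1) * (a + k2 * y0 - 2 * a2 * x0)))
    (hM : 0 < M) (hα : M ≤ |aD|) (hd : Dig a b y0 y1 ε) :
    |e| * (|x0| + |x1|) ≤ 22 * ε ∧ |e| * (|y0| + |y1|) ≤ 6 * ε := by
  obtain ⟨r0, r1⟩ := h.rot he hs
  have ε0 := h.ε0
  have e1 := h.e1
  set E := |e| with hE
  have E0 : 0 ≤ E := abs_nonneg _
  have ek := ek_le h.M0 he h.k2p
  have ea := ek_le h.M0 he h.a2p
  set X := |x0| + |x1| with hX
  set Y := |y0| + |y1| with hY
  have X0 : 0 ≤ X := by positivity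
  have Y0 : 0 ≤ Y := by positivity
  -- `E |a2| |c|`
  have c1 : E * (|a2| * |c|) ≤ (2 / 125) * ε + (1 / 125) * (E * Y) + (1 / 1600) * (E * Y) := by
    have q1 := h.ca
    have q2 : 2 * (M * |c|) ≤ 2 * (|aD| * |c|) := by
      have := mul_le_mul_of_nonneg_right hα (abs_nonneg c)
      linarith
    have q3 : M * |c| ≤ ε + E * Y / 2 + 1.25 * (M * p * Y) := by linarith
    have q4 : E * |a2| * (M * |c|) ≤ E * |a2| * (ε + E * Y / 2 + 1.25 * (M * p * Y)) :=
      mul_le_mul_of_nonneg_left q3 (by positivity)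
    have q5 : E * |a2| * (ε + E * Y / 2) ≤ M * (2 / 125) * (ε + E * Y / 2) :=
      mul_le_mul_of_nonneg_right ea (by positivity)
    have q6 : E * |a2| * (1.25 * (M * p * Y)) ≤ M * (1 / 1600 * (E * Y)) := by
      have := mul_le_mul_of_nonneg_right h.a2p (by positivity : 0 ≤ 1.25 * (M * (E * Y)))
      linarith
    refine le_of_mul_le_mul_left (a := M) ?_ hM
    linarith
  have y1' := dig_le h.unit hd h.ny
  have y2 : E * Y ≤ E * (3 * ε + 2 * (ε + 2 * (|a2| * |c|) + Y / 800)) := mul_le_mul_of_nonneg_left y1' E0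
  have y3 : E * ε ≤ ε := by
    have := mul_le_mul_of_nonneg_right e1 ε0.le
    linarith
  have y4 : E * Y ≤ 5.3 * ε := by linarith
  refine ⟨?_, by linarith⟩
  -- position
  have p0 : 2 * (E * |x0|) ≤ E * |y0| + (2 / 125) * (E * |y1|) + (4 / 125) * (E * |x1|) + 15 * ε := by
    have w : 2 * (aD * x0) = kD * y0 - e * (k2 * y1) + 2 * (e * (a2 * x1)) -
        (kD * y0 - 2 * aD * x0 - e * (k2 * y1 - 2 * a2 * x1)) := by ring
    have w1 : 2 * (|aD| * |x0|) ≤ |kD| * |y0| + E * (|k2| * |y1|) + 2 * (E * (|a2| * |x1|)) +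
        |kD * y0 - 2 * aD * x0 - e * (k2 * y1 - 2 * a2 * x1)| := by
      have w2 : 2 * (|aD| * |x0|) = |2 * (aD * x0)| := by rw [abs_mul, abs_mul, abs_two]
      rw [w2, w]
      refine (abs_sub _ _).trans ?_
      have w3 := abs_add_le (kD * y0 - e * (k2 * y1)) (2 * (e * (a2 * x1)))
      have w4 := abs_sub (kD * y0) (e * (k2 * y1))
      rw [abs_mul, abs_mul e, abs_mul k2] at w4
      rw [abs_mul, abs_two, abs_mul e, abs_mul a2] at w3
      linarith
    have w5 := mul_le_mul_of_nonneg_left w1 E0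
    have w6 : E * (|kD| * |y0|) ≤ M * (E * |y0|) := by
      have := mul_le_mul_of_nonneg_right h.hkD (by positivity : 0 ≤ E * |y0|)
      linarith
    have w7 : E * (E * (|k2| * |y1|)) ≤ M * ((2 / 125) * (E * |y1|)) := by
      have := mul_le_mul_of_nonneg_right ek (by positivity : 0 ≤ E * |y1|)
      linarith
    have w8 : E * (E * (|a2| * |x1|)) ≤ M * ((2 / 125) * (E * |x1|)) := by
      have := mul_le_mul_of_nonneg_right ea (by positivity : 0 ≤ E * |x1|)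
      linarith
    have w9 : M * (2 * (E * |x0|)) ≤ E * (2 * (|aD| * |x0|)) := by
      have := mul_le_mul_of_nonneg_right hα (by positivity : 0 ≤ 2 * (E * |x0|))
      linarith
    refine le_of_mul_le_mul_left (a := M) ?_ hM
    linarith
  have p1 : 2 * (E * |x1|) ≤ E * |y1| + (2 / 125) * (E * |y0|) + (4 / 125) * (E * |x0|) + 15 * ε := by
    have w : 2 * (aD * x1) = kD * y1 + e * (k2 * y0) - 2 * (e * (a2 * x0)) -
        (kD * y1 - 2 * aD * x1 + e * (k2 * y0 - 2 * a2 * x0)) := by ring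
    have w1 : 2 * (|aD| * |x1|) ≤ |kD| * |y1| + E * (|k2| * |y0|) + 2 * (E * (|a2| * |x0|)) +
        |kD * y1 - 2 * aD * x1 + e * (k2 * y0 - 2 * a2 * x0)| := by
      have w2 : 2 * (|aD| * |x1|) = |2 * (aD * x1)| := by rw [abs_mul, abs_mul, abs_two]
      rw [w2, w]
      refine (abs_sub _ _).trans ?_
      have w3 := abs_sub (kD * y1 + e * (k2 * y0)) (2 * (e * (a2 * x0)))
      have w4 := abs_add_le (kD * y1) (e * (k2 * y0))
      rw [abs_mul kD, abs_mul e, abs_mul k2] at w4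
      rw [abs_mul 2, abs_two, abs_mul e, abs_mul a2] at w3
      linarith
    have w5 := mul_le_mul_of_nonneg_left w1 E0
    have w6 : E * (|kD| * |y1|) ≤ M * (E * |y1|) := by
      have := mul_le_mul_of_nonneg_right h.hkD (by positivity : 0 ≤ E * |y1|)
      linarith
    have w7 : E * (E * (|k2| * |y0|)) ≤ M * ((2 / 125) * (E * |y0|)) := by
      have := mul_le_mul_of_nonneg_right ek (by positivity : 0 ≤ E * |y0|)
      linarith
    have w8 : E * (E * (|a2| * |x0|)) ≤ M * ((2 / 125) * (E * |x0|)) := by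
      have := mul_le_mul_of_nonneg_right ea (by positivity : 0 ≤ E * |x0|)
      linarith
    have w9 : M * (2 * (E * |x1|)) ≤ E * (2 * (|aD| * |x1|)) := by
      have := mul_le_mul_of_nonneg_right hα (by positivity : 0 ≤ 2 * (E * |x1|))
      linarith
    refine le_of_mul_le_mul_left (a := M) ?_ hM
    linarith
  have sX : E * X = E * |x0| + E * |x1| := by rw [hX]; ring
  have sY : E * Y = E * |y0| + E * |y1| := by rw [hY]; ring
  linarith

/-- stage 1, `kD` dominant: given the digit of the position, the slope is known up to `ε / |e|` -/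
theorem Pr.s1k (h : Pr a b e k2 a2 kD aD x0 x1 y0 y1 c ε p M) (he : |e| ≤ 32 * (M * p))
    (hs : 0 ≤ e * ((e * b + kD * y0 - 2 * aD * x0) * (b + k2 * y1 - 2 * a2 * x1) -
      (-(e * a) + kD * y1 - 2 * aD * x1) * (a + k2 * y0 - 2 * a2 * x0)))
    (hM : 0 < M) (hα : M ≤ |kD|) (hd : Dig a b x0 x1 ε) :
    |e| * (|x0| + |x1|) ≤ 6 * ε ∧ |e| * (|y0| + |y1|) ≤ 43 * ε := by
  obtain ⟨r0, r1⟩ := h.rot he hs
  have ε0 := h.ε0
  have e1 := h.e1
  set E := |e| with hE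
  have E0 : 0 ≤ E := abs_nonneg _
  have ek := ek_le h.M0 he h.k2p
  have ea := ek_le h.M0 he h.a2p
  set X := |x0| + |x1| with hX
  set Y := |y0| + |y1| with hY
  have X0 : 0 ≤ X := by positivity
  have Y0 : 0 ≤ Y := by positivity
  have c1 : E * (|k2| * |c|) ≤ (4 / 125) * ε + (2 / 125) * (E * X) + (1 / 2000) * (E * X) := by
    have q1 := h.ck
    have q2 : M * |c| ≤ |kD| * |c| := mul_le_mul_of_nonneg_right hα (abs_nonneg c)
    have q3 : M * |c| ≤ 2 * ε + E * X + M * p * X := by linarith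
    have q4 : E * |k2| * (M * |c|) ≤ E * |k2| * (2 * ε + E * X + M * p * X) :=
      mul_le_mul_of_nonneg_left q3 (by positivity)
    have q5 : E * |k2| * (2 * ε + E * X) ≤ M * (2 / 125) * (2 * ε + E * X) :=
      mul_le_mul_of_nonneg_right ek (by positivity)
    have q6 : E * |k2| * (M * p * X) ≤ M * (1 / 2000 * (E * X)) := by
      have := mul_le_mul_of_nonneg_right h.k2p (by positivity : 0 ≤ M * (E * X))
      linarith
    refine le_of_mul_le_mul_left (a := M) ?_ hM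
    linarith
  have y1' := dig_le h.unit hd h.nx
  have y2 : E * X ≤ E * (3 * ε + 2 * (ε + |k2| * |c| + X / 2000)) := mul_le_mul_of_nonneg_left y1' E0
  have y3 : E * ε ≤ ε := by
    have := mul_le_mul_of_nonneg_right e1 ε0.le
    linarith
  have y4 : E * X ≤ 5.3 * ε := by linarith
  refine ⟨by linarith, ?_⟩
  have p0 : E * |y0| ≤ 2 * (E * |x0|) + (2 / 125) * (E * |y1|) + (4 / 125) * (E * |x1|) + 15 * ε := by
    have w : kD * y0 = 2 * (aD * x0) + e * (k2 * y1) - 2 * (e * (a2 * x1)) +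
        (kD * y0 - 2 * aD * x0 - e * (k2 * y1 - 2 * a2 * x1)) := by ring
    have w1 : |kD| * |y0| ≤ 2 * (|aD| * |x0|) + E * (|k2| * |y1|) + 2 * (E * (|a2| * |x1|)) +
        |kD * y0 - 2 * aD * x0 - e * (k2 * y1 - 2 * a2 * x1)| := by
      rw [← abs_mul kD]
      conv_lhs => rw [w]
      refine (abs_add_le _ _).trans ?_
      have w3 := abs_sub (2 * (aD * x0) + e * (k2 * y1)) (2 * (e * (a2 * x1)))
      have w4 := abs_add_le (2 * (aD * x0)) (e * (k2 * y1))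
      rw [abs_mul 2, abs_two, abs_mul aD, abs_mul e, abs_mul k2] at w4
      rw [abs_mul 2, abs_two, abs_mul e, abs_mul a2] at w3
      linarith
    have w5 := mul_le_mul_of_nonneg_left w1 E0
    have w6 : E * (|aD| * |x0|) ≤ M * (E * |x0|) := by
      have := mul_le_mul_of_nonneg_right h.haD (by positivity : 0 ≤ E * |x0|)
      linarith
    have w7 : E * (E * (|k2| * |y1|)) ≤ M * ((2 / 125) * (E * |y1|)) := by
      have := mul_le_mul_of_nonneg_right ek (by positivity : 0 ≤ E * |y1|)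
      linarith
    have w8 : E * (E * (|a2| * |x1|)) ≤ M * ((2 / 125) * (E * |x1|)) := by
      have := mul_le_mul_of_nonneg_right ea (by positivity : 0 ≤ E * |x1|)
      linarith
    have w9 : M * (E * |y0|) ≤ E * (|kD| * |y0|) := by
      have := mul_le_mul_of_nonneg_right hα (by positivity : 0 ≤ E * |y0|)
      linarith
    refine le_of_mul_le_mul_left (a := M) ?_ hM
    linarith
  have p1 : E * |y1| ≤ 2 * (E * |x1|) + (2 / 125) * (E * |y0|) + (4 / 125) * (E * |x0|) + 15 * ε := by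
    have w : kD * y1 = 2 * (aD * x1) - e * (k2 * y0) + 2 * (e * (a2 * x0)) +
        (kD * y1 - 2 * aD * x1 + e * (k2 * y0 - 2 * a2 * x0)) := by ring
    have w1 : |kD| * |y1| ≤ 2 * (|aD| * |x1|) + E * (|k2| * |y0|) + 2 * (E * (|a2| * |x0|)) +
        |kD * y1 - 2 * aD * x1 + e * (k2 * y0 - 2 * a2 * x0)| := by
      rw [← abs_mul kD]
      conv_lhs => rw [w]
      refine (abs_add_le _ _).trans ?_
      have w3 := abs_add_le (2 * (aD * x1) - e * (k2 * y0)) (2 * (e * (a2 * x0)))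
      have w4 := abs_sub (2 * (aD * x1)) (e * (k2 * y0))
      rw [abs_mul 2, abs_two, abs_mul aD, abs_mul e, abs_mul k2] at w4
      rw [abs_mul 2, abs_two, abs_mul e, abs_mul a2] at w3
      linarith
    have w5 := mul_le_mul_of_nonneg_left w1 E0
    have w6 : E * (|aD| * |x1|) ≤ M * (E * |x1|) := by
      have := mul_le_mul_of_nonneg_right h.haD (by positivity : 0 ≤ E * |x1|)
      linarith
    have w7 : E * (E * (|k2| * |y0|)) ≤ M * ((2 / 125) * (E * |y0|)) := by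
      have := mul_le_mul_of_nonneg_right ek (by positivity : 0 ≤ E * |y0|)
      linarith
    have w8 : E * (E * (|a2| * |x0|)) ≤ M * ((2 / 125) * (E * |x0|)) := by
      have := mul_le_mul_of_nonneg_right ea (by positivity : 0 ≤ E * |x0|)
      linarith
    have w9 : M * (E * |y1|) ≤ E * (|kD| * |y1|) := by
      have := mul_le_mul_of_nonneg_right hα (by positivity : 0 ≤ E * |y1|)
      linarith
    refine le_of_mul_le_mul_left (a := M) ?_ hM
    linarith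
  have sX : E * X = E * |x0| + E * |x1| := by rw [hX]; ring
  have sY : E * Y = E * |y0| + E * |y1| := by rw [hY]; ring
  linarith

/-- stage 2, `aD` dominant: the adapted coordinate is known up to `ε / M` -/
theorem Pr.s2a (h : Pr a b e k2 a2 kD aD x0 x1 y0 y1 c ε p M) (he : |e| ≤ 32 * (M * p)) (hα : M ≤ |aD|)
    (hdx : Dig a b x0 x1 ε) (hd : Dig a b y0 y1 ε) : M * (|c| + p * (|x0| + |x1|)) ≤ 4 * ε := by
  have ε0 := h.ε0
  set X := |x0| + |x1| with hX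
  set Y := |y0| + |y1| with hY
  have X0 : 0 ≤ X := by positivity
  have Y0 : 0 ≤ Y := by positivity
  have C0 : 0 ≤ |c| := abs_nonneg _
  have q1 := h.ca
  have q2 : M * |c| ≤ |aD| * |c| := mul_le_mul_of_nonneg_right hα C0
  have q3 : |e| * Y ≤ 32 * (M * p) * Y := mul_le_mul_of_nonneg_right he Y0
  have q4 : M * |c| ≤ ε + 17.25 * (M * p * Y) := by linarith
  have y1' := dig_le h.unit hd h.ny
  have y2 : Y ≤ 5.1 * ε + 4.1 * (|a2| * |c|) := by
    have : 0 ≤ |a2| * |c| := by positivity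
    linarith
  have y3 : M * p * Y ≤ M * p * (5.1 * ε + 4.1 * (|a2| * |c|)) :=
    mul_le_mul_of_nonneg_left y2 (mul_nonneg h.M0 h.p0.le)
  have y4 : M * p * ε ≤ 1 / 1000 * ε := mul_le_mul_of_nonneg_right h.Mp ε0.le
  have y5 : M * p * (|a2| * |c|) ≤ 1 / 2000 * (M * |c|) := by
    have := mul_le_mul_of_nonneg_right h.a2p (mul_nonneg h.M0 C0)
    linarith
  have c3 : M * |c| ≤ 1.5 * ε := by linarith
  have x1' := dig_le h.unit hdx h.nx
  have x2 : X ≤ 5.1 * ε + 2.1 * (|k2| * |c|) := by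
    have : 0 ≤ |k2| * |c| := by positivity
    linarith
  have x3 : M * p * X ≤ M * p * (5.1 * ε + 2.1 * (|k2| * |c|)) :=
    mul_le_mul_of_nonneg_left x2 (mul_nonneg h.M0 h.p0.le)
  have x5 : M * p * (|k2| * |c|) ≤ 1 / 2000 * (M * |c|) := by
    have := mul_le_mul_of_nonneg_right h.k2p (mul_nonneg h.M0 C0)
    linarith
  have e0 : M * (|c| + p * X) = M * |c| + M * p * X := by ring
  rw [e0]
  linarith

/-- stage 2, `kD` dominant -/
theorem Pr.s2k (h : Pr a b e k2 a2 kD aD x0 x1 y0 y1 c ε p M) (he : |e| ≤ 32 * (M * p)) (hα : M ≤ |kD|)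
    (hdx : Dig a b x0 x1 ε) : M * (|c| + p * (|x0| + |x1|)) ≤ 4 * ε := by
  have ε0 := h.ε0
  set X := |x0| + |x1| with hX
  have X0 : 0 ≤ X := by positivity
  have C0 : 0 ≤ |c| := abs_nonneg _
  have q1 := h.ck
  have q2 : M * |c| ≤ |kD| * |c| := mul_le_mul_of_nonneg_right hα C0
  have q3 : |e| * X ≤ 32 * (M * p) * X := mul_le_mul_of_nonneg_right he X0
  have q4 : M * |c| ≤ 2 * ε + 33 * (M * p * X) := by linarith
  have x1' := dig_le h.unit hdx h.nx
  have x2 : X ≤ 5.1 * ε + 2.1 * (|k2| * |c|) := by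
    have : 0 ≤ |k2| * |c| := by positivity
    linarith
  have x3 : M * p * X ≤ M * p * (5.1 * ε + 2.1 * (|k2| * |c|)) :=
    mul_le_mul_of_nonneg_left x2 (mul_nonneg h.M0 h.p0.le)
  have y4 : M * p * ε ≤ 1 / 1000 * ε := mul_le_mul_of_nonneg_right h.Mp ε0.le
  have x5 : M * p * (|k2| * |c|) ≤ 1 / 2000 * (M * |c|) := by
    have := mul_le_mul_of_nonneg_right h.k2p (mul_nonneg h.M0 C0)
    linarith
  have e0 : M * (|c| + p * X) = M * |c| + M * p * X := by ring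
  rw [e0]
  linarith

/-- last stage: both digits and the adapted coordinate known up to `H` -/
theorem Pr.s3 (h : Pr a b e k2 a2 kD aD x0 x1 y0 y1 c ε p M) {H : ℝ} (hk : |k2| * H ≤ ε) (ha : |a2| * H ≤ ε)
    (hdx : Dig a b x0 x1 ε) (hd : Dig a b y0 y1 ε) (hc : |c| ≤ H + p * (|x0| + |x1|)) :
    |x0| + |x1| ≤ 8 * ε ∧ |y0| + |y1| ≤ 10 * ε := by
  have ε0 := h.ε0
  set X := |x0| + |x1| with hX
  set Y := |y0| + |y1| with hY
  have X0 : 0 ≤ X := by positivity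
  have Y0 : 0 ≤ Y := by positivity
  have k1 : |k2| * |c| ≤ ε + X / 2000 := by
    have h1 := mul_le_mul_of_nonneg_left hc (abs_nonneg k2)
    have h2 := mul_le_mul_of_nonneg_right h.k2p X0
    linarith
  have a1 : |a2| * |c| ≤ ε + X / 2000 := by
    have h1 := mul_le_mul_of_nonneg_left hc (abs_nonneg a2)
    have h2 := mul_le_mul_of_nonneg_right h.a2p X0
    linarith
  have x1' := dig_le h.unit hdx h.nx
  have y1' := dig_le h.unit hd h.ny
  constructor <;> linarith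

/-- linear case: given the adapted coordinate up to `H`, position and slope are known up to `ε / |e|` -/
theorem Pr.s4 (h : Pr a b e k2 a2 kD aD x0 x1 y0 y1 c ε p M) (he : 32 * (M * p) ≤ |e|) {H : ℝ} (hk : |k2| * H ≤ ε)
    (ha : |a2| * H ≤ ε) (hkD' : |kD| * H ≤ 2 * ε) (haD' : |aD| * H ≤ 2 * ε) (hc : |c| ≤ H + p * (|x0| + |x1|)) :
    |e| * (|x0| + |x1|) ≤ 11 * ε ∧ |e| * (|y0| + |y1|) ≤ 18 * ε := by
  have ε0 := h.ε0
  have e1 := h.e1
  set E := |e| with hE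
  have E0 : 0 ≤ E := abs_nonneg _
  set X := |x0| + |x1| with hX
  set Y := |y0| + |y1| with hY
  have X0 : 0 ≤ X := by positivity
  have Y0 : 0 ≤ Y := by positivity
  have Mp0 : 0 ≤ M * p := mul_nonneg h.M0 h.p0.le
  have Eε : E * ε ≤ ε := by
    have := mul_le_mul_of_nonneg_right e1 ε0.le
    linarith
  have MX : M * p * X ≤ E * X / 32 := by
    have := mul_le_mul_of_nonneg_right he X0
    linarith
  have MY : M * p * Y ≤ E * Y / 32 := by
    have := mul_le_mul_of_nonneg_right he Y0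
    linarith
  have k1 : |k2| * |c| ≤ ε + X / 2000 := by
    have h1 := mul_le_mul_of_nonneg_left hc (abs_nonneg k2)
    have h2 := mul_le_mul_of_nonneg_right h.k2p X0
    linarith
  have a1 : |a2| * |c| ≤ ε + X / 2000 := by
    have h1 := mul_le_mul_of_nonneg_left hc (abs_nonneg a2)
    have h2 := mul_le_mul_of_nonneg_right h.a2p X0
    linarith
  have kD1 : |kD| * |c| ≤ 2 * ε + M * p * X := by
    have h1 := mul_le_mul_of_nonneg_left hc (abs_nonneg kD)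
    have h2 := mul_le_mul_of_nonneg_right h.hkD (mul_nonneg h.p0.le X0)
    linarith
  have aD1 : |aD| * |c| ≤ 2 * ε + M * p * X := by
    have h1 := mul_le_mul_of_nonneg_left hc (abs_nonneg aD)
    have h2 := mul_le_mul_of_nonneg_right h.haD (mul_nonneg h.p0.le X0)
    linarith
  -- tangential components
  have tx : E * |b * x0 - a * x1| ≤ 4 * ε + 2 * (M * p * X) := by
    have e0 : e * (b * x0 - a * x1) = (e * b * x0 - e * a * x1 + kD * c - aD * (x0 ^ 2 + x1 ^ 2)) - kD * c +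
      aD * (x0 ^ 2 + x1 ^ 2) := by ring
    rw [hE, ← abs_mul, e0]
    refine (abs_add_le _ _).trans ?_
    have h1 := abs_sub (e * b * x0 - e * a * x1 + kD * c - aD * (x0 ^ 2 + x1 ^ 2)) (kD * c)
    rw [abs_mul kD] at h1
    have h3 : |aD * (x0 ^ 2 + x1 ^ 2)| ≤ M * p * X := by
      rw [abs_mul, abs_of_nonneg (by positivity : 0 ≤ x0 ^ 2 + x1 ^ 2), mul_assoc M]
      exact mul_le_mul h.haD (sq_sum_le h.hx0 h.hx1) (by positivity) h.M0
    linarith [h.AD]
  have ty : E * |b * y0 - a * y1| ≤ 6 * ε + 2 * (M * p * X) + 2.5 * (M * p * Y) := by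
    have e0 : e * (b * y0 - a * y1) = (e * b * y0 - e * a * y1 + kD * (y0 ^ 2 + y1 ^ 2) / 2 +
      2 * aD * (c - (x0 * y0 + x1 * y1))) - (kD * (y0 ^ 2 + y1 ^ 2) / 2 + 2 * (aD * c)) +
        2 * (aD * (x0 * y0 + x1 * y1)) := by ring
    rw [hE, ← abs_mul, e0]
    refine (abs_add_le _ _).trans ?_
    have h1 := abs_sub (e * b * y0 - e * a * y1 + kD * (y0 ^ 2 + y1 ^ 2) / 2 +
      2 * aD * (c - (x0 * y0 + x1 * y1))) (kD * (y0 ^ 2 + y1 ^ 2) / 2 + 2 * (aD * c))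
    have h2 := abs_add_le (kD * (y0 ^ 2 + y1 ^ 2) / 2) (2 * (aD * c))
    rw [abs_mul 2, abs_two, abs_mul aD] at h2
    have h3 : |kD * (y0 ^ 2 + y1 ^ 2) / 2| ≤ M * p * Y / 2 := by
      rw [abs_div, abs_mul, abs_of_nonneg (by positivity : 0 ≤ y0 ^ 2 + y1 ^ 2), abs_two, mul_assoc M]
      have := mul_le_mul h.hkD (sq_sum_le h.hy0 h.hy1) (by positivity) h.M0
      linarith
    have h4 : |2 * (aD * (x0 * y0 + x1 * y1))| ≤ 2 * (M * p * Y) := by
      rw [abs_mul, abs_mul, abs_two, mul_assoc M]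
      have := mul_le_mul h.haD (prod_le (y0 := y0) (y1 := y1) h.hx0 h.hx1) (abs_nonneg _) h.M0
      linarith
    linarith [h.BD]
  have nx := h.nx
  have ny := h.ny
  have gx := (tan_le (x0 := x0) (x1 := x1) h.unit).1
  have gy := (tan_le (x0 := y0) (x1 := y1) h.unit).1
  have gx' : E * X ≤ E * (1.5 * (|b * x0 - a * x1| + (2 * ε + X / 1000))) := by
    refine mul_le_mul_of_nonneg_left (gx.trans ?_) E0
    linarith
  have fx : E * X ≤ 11 * ε := by linarith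
  refine ⟨fx, ?_⟩
  have X2 : X / 1000 ≤ X / 1000 := le_rfl
  have gy' : E * Y ≤ E * (1.5 * (|b * y0 - a * y1| + (3 * ε + X / 1000 + Y / 800))) := by
    refine mul_le_mul_of_nonneg_left (gy.trans ?_) E0
    linarith
  linarith

end Vale.Agent.P106.R.E8.H912
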