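import Vale.Agent.P106.R.E.Defs
import Vale.Agent.P106.W.Rec
import Vale.Agent.P127.U.C1

/-!
# P106 / R / E8 : rays, frames, pairwise boxes, statements of the blocks of E8 (helper912)

A conformal slab is `G ≤ u1`; along a ray `G = GA + t GB`.  Everything is written for PAIRS of rays with the frame `(n, κ, α)`
transported to the first ray; `n` is not normalised.

* `Ry` ray (position `y`, slope `s`, value `U` of `z0` at the time `0`), `Fr` frame at a ray, `Fr.tr` transport.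
* `PB C H r l Z f u1 u2` : the values of the random variable `Z` are boxes of widths `u1 ≤ u2` around the rays `l`, frames `f`,
  up to the constant `C`: all pairs with the same value of `Z` are close.
-/

set_option autoImplicit false

namespace Vale.Agent.P106.R.E8

open Filter Topology Finset Vale.Agent.P127 Vale.Agent.P127.Stk Vale.Agent.P127.U Vale.Agent.P127.U.Sys Vale.Agent.P106.R.C2
  Vale.Agent.P106.R.E
open Vale.Agent.P106.W (Cbx)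

/-- light ray: position and slope at the time `0`, value of `z0` at the time `0` -/
structure Ry where
  y : Fin 2 → ℝ
  s : Fin 2 → ℝ
  U : ℝ

/-- frame of a conformal slab at a ray -/
structure Fr where
  n : Fin 2 → ℝ
  κ : ℝ
  α : ℝ

/-- adapted coordinate of `l'` at `l` -/
def dc (l l' : Ry) : ℝ := l'.U - l.U - ∑ k, l.s k * (l'.y k - l.y k)

/-- value of `G` at the time `0` -/
noncomputable def GA (f : Fr) (l l' : Ry) : ℝ :=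
  ∑ k, f.n k * (l'.y k - l.y k) + f.κ * dc l l' - f.α * ∑ k, (l'.y k - l.y k) ^ 2

/-- increment of `G` -/
noncomputable def GB (f : Fr) (l l' : Ry) : ℝ :=
  ∑ k, f.n k * (l'.s k - l.s k) + f.κ * (∑ k, (l'.s k - l.s k) ^ 2) / 2 +
    2 * f.α * (dc l l' - ∑ k, (l'.y k - l.y k) * (l'.s k - l.s k))

/-- transport of the frame from `l` to `l'` -/
noncomputable def Fr.tr (f : Fr) (l l' : Ry) : Fr :=
  ⟨fun k => f.n k + f.κ * (l'.s k - l.s k) - 2 * f.α * (l'.y k - l.y k), f.κ, f.α⟩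

/-- cross product of the normals -/
def crs (a b : Fin 2 → ℝ) : ℝ := a 0 * b 1 - a 1 * b 0

/-- `l'` is in the box of widths `u1, u2` around `l`, up to the constant `C` -/
def Near (C : ℝ) (f : Fr) (u1 u2 H : ℝ) (l l' : Ry) : Prop :=
  (∀ k, |l'.y k - l.y k| ≤ C * u2) ∧ (∀ k, |l'.s k - l.s k| ≤ C * u2) ∧ |dc l l'| ≤ C * max (u2 ^ 2) H ∧
    |GA f l l'| ≤ C * u1 ∧ |GB f l l'| ≤ C * u1

/-- admissible frame and widths, up to the constant `C` -/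
def OkF (C : ℝ) (f : Fr) (u1 u2 r H : ℝ) : Prop :=
  1 ≤ C * (f.n 0 ^ 2 + f.n 1 ^ 2) ∧ f.n 0 ^ 2 + f.n 1 ^ 2 ≤ C ∧ |f.κ| * u2 ≤ C ∧ |f.α| * u2 ≤ C ∧
    |f.κ| * H ≤ C * u1 ∧ |f.α| * H ≤ C * u1 ∧ r ≤ u1 ∧ u1 ≤ u2 ∧ u2 ≤ 1

/-- the values of `Z` are boxes of widths `u1, u2` with frame `f` around the rays `l` -/
structure PB {S : Sys} {T : Type} (C : ℝ) (H r : ℕ → ℝ) (l : S.RV Ry) (Z : S.RV T) (f : S.RV Fr) (u1 u2 : S.RV ℝ) : Prop where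
  near : ∀ᶠ i in (uf : Filter ℕ), ∀ ω ω', 0 < (S.P i).w ω → 0 < (S.P i).w ω' → Z i ω = Z i ω' →
    u1 i ω = u1 i ω' ∧ u2 i ω = u2 i ω' ∧ f i ω' = (f i ω).tr (l i ω) (l i ω') ∧
      Near C (f i ω) (u1 i ω) (u2 i ω) (H i) (l i ω) (l i ω')
  ok : ∀ᶠ i in (uf : Filter ℕ), ∀ ω, 0 < (S.P i).w ω → OkF C (f i ω) (u1 i ω) (u2 i ω) (r i) (H i)

/-- `log2` of the relative volume of a box of widths `u1, u2` at the level `c` -/
noncomputable def lvol (n c : ℕ) (H u1 u2 : ℝ) : ℝ :=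
  Real.logb 2 (u1 * u2 / ((1 / 2 : ℝ) ^ (c * n)) ^ 2 * max 1 (u2 ^ 2 / H))

/-- the ray of integer data `x` (radius `2^(-m)`, thickness `H`) -/
noncomputable def ray (m : ℕ) (H : ℝ) (x : Nd) : Ry :=
  ⟨fun k => (x.o k : ℝ) / 2 ^ m, fun k => (x.τ k : ℝ) / 2 ^ m,
    (x.w : ℝ) * H - (x.T : ℝ) * (∑ k, ((x.τ k : ℝ) / 2 ^ m) ^ 2) / 2 + ∑ k, (x.o k : ℝ) / 2 ^ m * ((x.τ k : ℝ) / 2 ^ m)⟩

/-- exponent of the radius of the piece `sig c d` in the coordinates of the level `c` -/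
def mm {K : ℕ} (F : Flg K) (c d i : ℕ) : ℕ := (2 * c - d) * F.n i

/-- thickness of the planks in the coordinates of the level `c` -/
noncomputable def Hc {K : ℕ} (F : Flg K) (c i : ℕ) : ℝ := W.hh (F.n i) F.h c

/-- the ray of the piece `sig c d` -/
noncomputable def pray {K : ℕ} (F : Flg K) (c d : ℕ) : F.S.RV Ry := fun i ω =>
  ray (mm F c d i) (Hc F c i) (F.sig c d i ω)

/-! ### statements of the blocks -/

/-- **[REP]** a pairwise box around the pieces is realised by random real boxes: bound by the excess -/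
def StREP : Prop := ∀ {K : ℕ} (F : Flg K) (c d : ℕ), 1 ≤ K → 1 ≤ c → c ≤ d → d ≤ 2 * c → d ≤ K → 2 * (d - c) ≤ F.h →
  ∀ (S' : Sys) (ex : Ext S' F.S) (T : Type) (V : S'.RV T) (f : S'.RV Fr) (u1 u2 : S'.RV ℝ) (C : ℝ),
    PB C (Hc F c) (fun i => (1 / 2 : ℝ) ^ mm F c d i) (ex.pull (pray F c d)) V f u1 u2 →
    S'.hc (ex.pull (F.sig c d)) (Sys.pr V (ex.pull (F.ball c))) ≤
      F.exc c + S'.av (fun i ω => lvol (F.n i) c (Hc F c i) (u1 i ω) (u2 i ω))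

/-- level of the angle between two frames, at most `q` -/
noncomputable def lvG (q : ℕ) (f1 f2 : Fr) : ℕ := C1.lev q |crs f1.n f2.n|

/-- `f1 - lam f2`, `lam` such that the normal is orthogonal to `f2.n` -/
noncomputable def lamD (f1 f2 : Fr) : ℝ := (f1.n 0 * f2.n 0 + f1.n 1 * f2.n 1) / (f2.n 0 ^ 2 + f2.n 1 ^ 2)

/-- size of the curvatures of the difference -/
noncomputable def MD (f1 f2 : Fr) : ℝ := max |f1.κ - lamD f1 f2 * f2.κ| |f1.α - lamD f1 f2 * f2.α|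

/-- size of the difference of two slabs on a box of width `p` and thickness `H`, divided by `p` -/
noncomputable def sD (f1 f2 : Fr) (p H : ℝ) : ℝ := max |crs f1.n f2.n| (MD f1 f2 * max (p ^ 2) H / p)

/-- level of the difference of two slabs, at most `q` -/
noncomputable def lvG' (q : ℕ) (f1 f2 : Fr) (p H : ℝ) : ℕ := C1.lev q (sD f1 f2 p H)

/-- **[MEET]** number of pieces in the intersection of two boxes of thickness `2^-m'` and widths `2^-k₁ ≥ 2^-k₂` -/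
def StMEET : Prop := ∀ (S : Sys) (X : S.RV Nd) (H : ℕ → ℝ) (m m' k₁ k₂ : ℕ → ℕ) (T₁ T₂ T₃ : Type) (Z₁ : S.RV T₁) (Z₂ : S.RV T₂)
  (Z₃ : S.RV T₃) (f₁ f₂ : S.RV Fr) (C : ℝ), S.Bd m → (∀ i, 0 < H i) → (UB fun i => Real.logb 2 (max 1 (1 / H i)) / S.L i) →
  (∀ᶠ i in (uf : Filter ℕ), k₁ i ≤ k₂ i ∧ k₂ i ≤ m' i ∧ m' i ≤ m i ∧ (1 / 2 : ℝ) ^ (2 * m i) ≤ C * H i) → Tame X →
  Sys.Fn (fun i ω => (X i ω).T) Z₂ →
  PB C H (fun i => (1 / 2 : ℝ) ^ m i) (fun i ω => ray (m i) (H i) (X i ω)) Z₁ f₁ (fun i _ => (1 / 2 : ℝ) ^ m' i)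
    (fun i _ => (1 / 2 : ℝ) ^ k₁ i) →
  PB C H (fun i => (1 / 2 : ℝ) ^ m i) (fun i ω => ray (m i) (H i) (X i ω)) Z₂ f₂ (fun i _ => (1 / 2 : ℝ) ^ m' i)
    (fun i _ => (1 / 2 : ℝ) ^ k₂ i) →
  S.hc X (Sys.pr Z₁ (Sys.pr Z₂ Z₃)) ≤
    S.av (fun i ω => (lvG (m' i - k₂ i) (f₁ i ω) (f₂ i ω) : ℝ)) +
    S.av (fun i ω => (lvG' (m' i - k₂ i) (f₁ i ω) (f₂ i ω) ((1 / 2 : ℝ) ^ k₂ i) (H i) : ℝ)) +
    ulim (fun i => Real.logb 2 (max 1 (((1 / 2 : ℝ) ^ k₂ i) ^ 2 / H i)) / S.L i) + 4 * (S.nu m - S.nu m')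

/-- angle of the wide direction of a frame: `n = |n| (- sin φ, cos φ)` -/
noncomputable def ang (n : Fin 2 → ℝ) : ℝ := Complex.arg ⟨n 1, -(n 0)⟩

/-- value of the box variable `Z` (widths `2^-m', 2^-k`) at the level `c`, pieces `sig c d` -/
noncomputable def pval {K : ℕ} (F : Flg K) (c d : ℕ) {T : Type} (Z : F.S.RV T) (m' k : ℕ → ℕ) : ℝ :=
  F.S.hc (F.sig c d) (Sys.pr Z (F.ball c)) -
    ulim fun i => lvol (F.n i) c (Hc F c i) ((1 / 2 : ℝ) ^ m' i) ((1 / 2 : ℝ) ^ k i) / F.S.L i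

/-- **[UNX]** uncrossing of two pairwise boxes around the pieces -/
def StUNX : Prop := ∀ {K : ℕ} (F : Flg K) (c d : ℕ), 1 ≤ K → 1 ≤ c → c ≤ d → d ≤ 2 * c → d ≤ K → 2 * (d - c) ≤ F.h →
  ∀ (S' : Sys) (ex : Ext S' F.S) (T₁ T₂ : Type) (Z₁ : S'.RV T₁) (Z₂ : S'.RV T₂) (f₁ f₂ : S'.RV Fr) (C : ℝ) (m' k₁ k₂ : ℕ → ℕ),
    (∀ᶠ i in (uf : Filter ℕ), k₁ i ≤ k₂ i ∧ k₂ i ≤ m' i ∧ m' i ≤ mm F c d i) →
    Sys.Fn (ex.pull (F.ball c)) Z₁ → Sys.Fn (ex.pull (F.ball c)) Z₂ → Tame Z₁ → Tame Z₂ →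
    PB C (Hc F c) (fun i => (1 / 2 : ℝ) ^ mm F c d i) (ex.pull (pray F c d)) Z₁ f₁ (fun i _ => (1 / 2 : ℝ) ^ m' i)
      (fun i _ => (1 / 2 : ℝ) ^ k₁ i) →
    PB C (Hc F c) (fun i => (1 / 2 : ℝ) ^ mm F c d i) (ex.pull (pray F c d)) Z₂ f₂ (fun i _ => (1 / 2 : ℝ) ^ m' i)
      (fun i _ => (1 / 2 : ℝ) ^ k₂ i) →
    (S'.hc (ex.pull (F.sig c d)) Z₁ - ulim fun i => lvol (F.n i) c (Hc F c i) ((1 / 2 : ℝ) ^ m' i) ((1 / 2 : ℝ) ^ k₁ i) / F.S.L i) +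
    (S'.hc (ex.pull (F.sig c d)) Z₂ - ulim fun i => lvol (F.n i) c (Hc F c i) ((1 / 2 : ℝ) ^ m' i) ((1 / 2 : ℝ) ^ k₂ i) / F.S.L i) ≤
      F.exc c + S'.av (fun i ω => (lvG (m' i - k₂ i) (f₁ i ω) (f₂ i ω) : ℝ)) + 4 * (F.S.nu (mm F c d) - F.S.nu m') +
        S'.mi Z₂ Z₁ (ex.pull (F.sig c d))

/-- **[FRM]** frame lemma: nearly optimal pairwise boxes have the same direction, a function of the piece, off a rare event -/
def StFRM : Prop := ∀ {K : ℕ} (F : Flg K) (c d : ℕ), 1 ≤ K → 1 ≤ c → c ≤ d → d ≤ 2 * c → d ≤ K → 2 * (d - c) ≤ F.h →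
  ∀ (T₁ T₂ : Type) (Z₁ : F.S.RV T₁) (Z₂ : F.S.RV T₂) (f₁ f₂ : F.S.RV Fr) (C : ℝ) (m' k₁ k₂ : ℕ → ℕ) (v₁ v₂ x g g' : ℝ),
    (∀ᶠ i in (uf : Filter ℕ), k₁ i ≤ m' i ∧ k₂ i ≤ m' i ∧ m' i ≤ mm F c d i) →
    Sys.Fn (F.ball c) Z₁ → Sys.Fn (F.ball c) Z₂ → Tame Z₁ → Tame Z₂ →
    PB C (Hc F c) (fun i => (1 / 2 : ℝ) ^ mm F c d i) (pray F c d) Z₁ f₁ (fun i _ => (1 / 2 : ℝ) ^ m' i)
      (fun i _ => (1 / 2 : ℝ) ^ k₁ i) →
    PB C (Hc F c) (fun i => (1 / 2 : ℝ) ^ mm F c d i) (pray F c d) Z₂ f₂ (fun i _ => (1 / 2 : ℝ) ^ m' i)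
      (fun i _ => (1 / 2 : ℝ) ^ k₂ i) →
    0 < g' → g' < g → g < v₁ + v₂ - x - 4 * (F.S.nu (mm F c d) - F.S.nu m') →
    (∀ (S' : Sys) (dd : Dns S' F.S) (hs : ∀ i ω, 0 < (S'.P i).w ω → 0 < (F.S.P i).w (dd.π i ω)),
      v₁ ≤ pval (F.res dd hs) c d (dd.pull Z₁) m' k₁) →
    (∀ (S' : Sys) (dd : Dns S' F.S) (hs : ∀ i ω, 0 < (S'.P i).w ω → 0 < (F.S.P i).w (dd.π i ω)),
      v₂ ≤ pval (F.res dd hs) c d (dd.pull Z₂) m' k₂) →
    (∀ (S' : Sys) (dd : Dns S' F.S) (hs : ∀ i ω, 0 < (S'.P i).w ω → 0 < (F.S.P i).w (dd.π i ω)),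
      (F.res dd hs).exc c ≤ x) →
    ∃ ψ : ℕ → Nd → ℝ,
      Rare F.S (fun i ω => (2 : ℝ) ^ (-(g' * F.S.L i)) < |Real.sin (ang (f₁ i ω).n - ψ i (F.sig c d i ω))|) ∧
      Rare F.S (fun i ω => (2 : ℝ) ^ (-(g' * F.S.L i)) < |Real.sin (ang (f₂ i ω).n - ψ i (F.sig c d i ω))|)

/-! ### change of level -/

/-- the ray of the level `c'` in the coordinates of the level `c`, `q = 2^(2 (c' - c) n)`, `ρ = T - T' q` -/
noncomputable def Ry.dn (q ρ : ℝ) (l : Ry) : Ry :=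
  ⟨fun k => q * l.y k + ρ * l.s k, l.s, q * l.U + ρ * (∑ k, l.s k ^ 2) / 2⟩

/-- the frame of the level `c'` in the coordinates of the level `c` -/
noncomputable def Fr.dn (q ρ : ℝ) (f : Fr) : Fr := ⟨f.n, f.κ + 2 * f.α * ρ / q, f.α / q⟩

/-- central ray of a real box -/
def cray (B : Cbx) : Ry := ⟨B.p, B.v, B.ω + ∑ k, B.p k * B.v k⟩

/-- frame of a real box at its centre -/
noncomputable def cfr (B : Cbx) : Fr := ⟨![-Real.sin B.θ, Real.cos B.θ], B.κ, B.α⟩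

/-- the ray of the plank `N c` -/
noncomputable def nray {K : ℕ} (F : Flg K) (c : ℕ) : F.S.RV Ry := fun i ω =>
  ⟨py (F.n i) c (F.N c i ω), F.s i c (F.N c i ω).τ,
    pz (F.s i) (F.n i) c (F.N c i ω) + ∑ k, py (F.n i) c (F.N c i ω) k * F.s i c (F.N c i ω).τ k⟩

/-- the scale ratio -/
noncomputable def qq {K : ℕ} (F : Flg K) (c c' i : ℕ) : ℝ := 2 ^ (2 * (c' - c) * F.n i)

/-- the time shift -/
noncomputable def rr {K : ℕ} (F : Flg K) (c c' : ℕ) : F.S.RV ℝ := fun i ω =>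
  ((F.T c i ω : ℤ) : ℝ) - (F.T c' i ω : ℝ) * qq F c c' i

/-- the central ray of `W c'` in the coordinates of the level `c` -/
noncomputable def wray {K : ℕ} (F : Flg K) (W : ℕ → F.S.RV Cbx) (c c' : ℕ) : F.S.RV Ry := fun i ω =>
  (cray (W c' i ω)).dn (qq F c c' i) (rr F c c' i ω)

/-- the frame of `W c'` in the coordinates of the level `c`, transported to the ray of the piece `sig c d` -/
noncomputable def wfr {K : ℕ} (F : Flg K) (W : ℕ → F.S.RV Cbx) (c c' d : ℕ) : F.S.RV Fr := fun i ω =>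
  ((cfr (W c' i ω)).dn (qq F c c' i) (rr F c c' i ω)).tr (wray F W c c' i ω) (pray F c d i ω)

/-- cells: integer digits of the ray `l` in the box of centre `l₀`, frame `f` -/
noncomputable def cell (p u H : ℝ) (f : Fr) (l₀ l : Ry) : (Fin 2 → ℤ) × (Fin 2 → ℤ) × ℤ × ℤ × ℤ :=
  (fun k => ⌊(l.y k - l₀.y k) / p⌋, fun k => ⌊(l.s k - l₀.s k) / p⌋, ⌊dc l₀ l / max (p ^ 2) H⌋, ⌊GA f l₀ l / u⌋, ⌊GB f l₀ l / u⌋)

/-- the box variable: the plank `W c'`, the time blocks and the cell of the piece (widths `2^-m', 2^-(kk c')`) -/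
noncomputable def zz {K : ℕ} (F : Flg K) (W : ℕ → F.S.RV Cbx) (kk : ℕ → ℕ → ℕ) (m' : ℕ → ℕ) (c c' d : ℕ) :
    F.S.RV ((Cbx × ℤ) × ℤ × ((Fin 2 → ℤ) × (Fin 2 → ℤ) × ℤ × ℤ × ℤ)) := fun i ω =>
  ((W c' i ω, F.T c' i ω), F.T c i ω,
    cell ((1 / 2 : ℝ) ^ kk c' i) ((1 / 2 : ℝ) ^ m' i) (Hc F c i) ((cfr (W c' i ω)).dn (qq F c c' i) (rr F c c' i ω))
      (wray F W c c' i ω) (pray F c d i ω))

/-- **[CUT1]** `zz` is a pairwise box around the pieces, with the frame `wfr`; directions -/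
def StCUT1 : Prop := AllA fun {K} F _ _ _ _ W kk jj => ∀ (c c' d : ℕ) (m' : ℕ → ℕ), 1 ≤ c → c ≤ c' → c' ≤ d → d ≤ 2 * c → d ≤ K →
  2 * (d - c) ≤ F.h → (∀ᶠ i in (uf : Filter ℕ), m' i ≤ mm F c d i ∧ m' i + 2 * (c' - c) * F.n i ≤ jj c' i ∧ kk c' i ≤ m' i) →
  Tame (zz F W kk m' c c' d) ∧
  ∃ C : ℝ, PB C (Hc F c) (fun i => (1 / 2 : ℝ) ^ mm F c d i) (pray F c d) (zz F W kk m' c c' d) (wfr F W c c' d)
      (fun i _ => (1 / 2 : ℝ) ^ m' i) (fun i _ => (1 / 2 : ℝ) ^ kk c' i) ∧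
    ∀ᶠ i in (uf : Filter ℕ), ∀ ω, 0 < (F.S.P i).w ω →
      |Real.sin (F.wd c' (W c') i ω - ang (wfr F W c c' d i ω).n)| ≤ C * 2 ^ kk c' i * (1 / 2) ^ m' i

/-- **[CUT2]** lower bound of the value of `zz` -/
def StCUT2 (A : ℝ) : Prop := AllA fun {K} F _ _ _ e W kk jj => ∀ (c c' d : ℕ) (m' : ℕ → ℕ), 1 ≤ c → c ≤ c' → c' ≤ d → d ≤ 2 * c →
  d ≤ K → 2 * (d - c) ≤ F.h → (∀ᶠ i in (uf : Filter ℕ), m' i ≤ mm F c d i ∧ m' i + 2 * (c' - c) * F.n i ≤ jj c' i ∧ kk c' i ≤ m' i) →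
  e c' - A / K - A * (((d:ℝ) - c) / K) - A * (F.S.nu (mm F c d) - F.S.nu m') ≤ pval F c d (zz F W kk m' c c' d) m' (kk c')

/-- **[CAP]** the excess is at most the capacity of the width -/
def StCAP (A : ℝ) : Prop := AllA fun {K} F _ _ _ e _ kk _ => ∀ c, c ≤ K → e c ≤ A * ((c:ℝ) / K - F.S.nu (kk c)) + A / K

end Vale.Agent.P106.R.E8
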