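import Vale.Agent.P106.R.E8.Weak
import Vale.Agent.P106.R.E.Res
import Vale.Agent.P106.R.S.ProfOf
import Vale.Agent.P106.R.H540.Tools
import Vale.Agent.P127.U.BasicA

/-!
# P106 / R / E8 : E8 from the frame lemma, the values of the cut boxes and the capacity (helper117)

`e8_of : StFRMw → StCUT1w → StCUT2w A → StCAP' B → E3 → E5 N C → ∃ κ > 0, ∃ C₀, E8 κ C₀` (weak forms: R/E8/Weak.lean).
-/

set_option autoImplicit false

namespace Vale.Agent.P106.R.E8

open Filter Topology Finset Vale.Agent.P127 Vale.Agent.P127.Stk Vale.Agent.P127.U Vale.Agent.P127.U.Sys Vale.Agent.P106.R.C2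
  Vale.Agent.P106.R.E
open Vale.Agent.P106.W (Cbx)

/-- the excess is at most three times the capacity of the width -/
def StCAP' (B : ℝ) : Prop := AllA fun {K} F _ _ _ e _ kk _ =>
  ∀ c, c ≤ K → e c ≤ 3 * ((c:ℝ) / K - F.S.nu (kk c)) + B / K

theorem StCAP.to' (h : StCAP 3) : StCAP' 3 := h

/-! ### the constant of a pairwise box -/

theorem Near.mono117 {C C' : ℝ} (h : C ≤ C') {f : Fr} {u1 u2 H : ℝ} (h1 : 0 ≤ u1) (h2 : 0 ≤ u2) {l l' : Ry}
    (hN : Near C f u1 u2 H l l') : Near C' f u1 u2 H l l' := by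
  obtain ⟨a1, a2, a3, a4, a5⟩ := hN
  have b1 : C * u1 ≤ C' * u1 := mul_le_mul_of_nonneg_right h h1
  have b2 : C * u2 ≤ C' * u2 := mul_le_mul_of_nonneg_right h h2
  have b3 : C * max (u2 ^ 2) H ≤ C' * max (u2 ^ 2) H :=
    mul_le_mul_of_nonneg_right h ((sq_nonneg u2).trans (le_max_left _ _))
  exact ⟨fun k => (a1 k).trans b2, fun k => (a2 k).trans b2, a3.trans b3, a4.trans b1, a5.trans b1⟩

theorem OkF.mono117 {C C' : ℝ} (h : C ≤ C') {f : Fr} {u1 u2 r H : ℝ} (h1 : 0 ≤ u1)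
    (hN : OkF C f u1 u2 r H) : OkF C' f u1 u2 r H := by
  obtain ⟨a1, a2, a3, a4, a5, a6, a7, a8, a9⟩ := hN
  have b1 : C * u1 ≤ C' * u1 := mul_le_mul_of_nonneg_right h h1
  have b2 : C * (f.n 0 ^ 2 + f.n 1 ^ 2) ≤ C' * (f.n 0 ^ 2 + f.n 1 ^ 2) :=
    mul_le_mul_of_nonneg_right h (by positivity)
  exact ⟨a1.trans b2, a2.trans h, a3.trans h, a4.trans h, a5.trans b1, a6.trans b1, a7, a8, a9⟩

theorem PB.mono117 {S : Sys} {T : Type} {C C' : ℝ} (h : C ≤ C') {H r : ℕ → ℝ} {l : S.RV Ry} {Z : S.RV T} {f : S.RV Fr}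
    {u1 u2 : S.RV ℝ} (h1 : ∀ i ω, 0 ≤ u1 i ω) (h2 : ∀ i ω, 0 ≤ u2 i ω) (hP : PB C H r l Z f u1 u2) :
    PB C' H r l Z f u1 u2 where
  near := by
    filter_upwards [hP.near] with i hi ω ω' hω hω' e
    obtain ⟨a1, a2, a3, a4⟩ := hi ω ω' hω hω' e
    exact ⟨a1, a2, a3, a4.mono117 h (h1 i ω) (h2 i ω)⟩
  ok := by
    filter_upwards [hP.ok] with i hi ω hω
    exact (hi ω hω).mono117 h (h1 i ω)

/-! ### limits -/

namespace F117

/-- a strict inequality of the limits gives an inequality of the sequences -/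
theorem ev_of_nu {S : Sys} {a b : ℕ → ℕ} (ha : S.Bd a) (hb : S.Bd b) {s : ℝ} (h : S.nu a + s < S.nu b) :
    ∀ᶠ i in (uf : Filter ℕ), (a i : ℝ) + s * S.L i ≤ b i := by
  have h1 : UB fun i => (b i : ℝ) / S.L i - (a i : ℝ) / S.L i := hb.ub.sub ha.ub
  have h2 : s < ulim fun i => (b i : ℝ) / S.L i - (a i : ℝ) / S.L i := by
    rw [ulim_sub hb.ub ha.ub]
    unfold Sys.nu at h
    linarith
  filter_upwards [lt_ulim_eventually h1 h2, S.L_pos] with i hi hL
  have hL' : (0:ℝ) < S.L i := by exact_mod_cast hL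
  have h3 : (b i : ℝ) / S.L i - (a i : ℝ) / S.L i = ((b i : ℝ) - a i) / S.L i := by ring
  rw [h3, lt_div_iff₀ hL'] at hi
  linarith

theorem bd_of_le {K : ℕ} (F : Flg K) (hK : 1 ≤ K) {c : ℕ} {a : ℕ → ℕ}
    (h : ∀ᶠ i in (uf : Filter ℕ), a i ≤ c * F.n i) : F.S.Bd a := by
  refine ⟨c, ?_⟩
  filter_upwards [h] with i hi
  have h1 : (a i : ℝ) ≤ c * F.n i := by exact_mod_cast hi
  refine h1.trans ?_
  rw [F.L_eq i]
  have h2 : (1:ℝ) ≤ K := by exact_mod_cast hK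
  push_cast
  have h3 : (F.n i : ℝ) ≤ K * F.n i := by nlinarith [(Nat.cast_nonneg (F.n i) : (0:ℝ) ≤ F.n i)]
  exact mul_le_mul_of_nonneg_left h3 (Nat.cast_nonneg c)

theorem nu_cn {K : ℕ} (F : Flg K) (hK : 1 ≤ K) (c : ℕ) : F.S.nu (fun i => c * F.n i) = (c:ℝ) / K := by
  have hKp : (0:ℝ) < K := by exact_mod_cast hK
  unfold Sys.nu
  rw [← ulim_const ((c:ℝ) / K)]
  refine ulim_congr ?_
  filter_upwards [S.n_pos F] with i hi
  rw [hi.2]
  push_cast
  have h1 := hi.1.ne'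
  field_simp

/-- small powers -/
theorem rpow_small {S : Sys} {η c : ℝ} (hη : 0 < η) (hc : 0 < c) :
    ∀ᶠ i in (uf : Filter ℕ), (2 : ℝ) ^ (-(η * S.L i)) ≤ c := by
  have h1 : Tendsto (fun i => (S.L i : ℝ)) (uf : Filter ℕ) atTop := tendsto_natCast_atTop_atTop.comp S.Ltop
  have h2 : Tendsto (fun i => η * (S.L i : ℝ)) (uf : Filter ℕ) atTop := h1.const_mul_atTop hη
  filter_upwards [h2.eventually_ge_atTop (-(Real.logb 2 c))] with i hi
  calc (2 : ℝ) ^ (-(η * S.L i)) ≤ (2 : ℝ) ^ (Real.logb 2 c) :=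
        Real.rpow_le_rpow_of_exponent_le (by norm_num) (by linarith)
    _ = c := Real.rpow_logb (by norm_num) (by norm_num) hc

theorem abs_sin_tri (a b c : ℝ) : |Real.sin (a - c)| ≤ |Real.sin (a - b)| + |Real.sin (b - c)| := by
  have h : Real.sin (a - c) = Real.sin (a - b) * Real.cos (b - c) + Real.cos (a - b) * Real.sin (b - c) := by
    rw [← Real.sin_add]
    congr 1
    ring
  rw [h]
  refine (abs_add_le _ _).trans (add_le_add ?_ ?_)
  · rw [abs_mul]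
    exact mul_le_of_le_one_right (abs_nonneg _) (Real.abs_cos_le_one _)
  · rw [abs_mul]
    exact mul_le_of_le_one_left (abs_nonneg _) (Real.abs_cos_le_one _)

/-! ### numbers -/

/-- numbers -/
theorem fin_num {D κ c1 ec ec' T r δ : ℝ} (hD : 4 ≤ D) (hc1 : 0 < c1) (hκ : κ = 1 / (400 * D ^ 2))
    (hT0 : 0 ≤ T) (hT : T ≤ κ * c1) (hr0 : 0 ≤ r) (hr : 400 * D * r ≤ c1) (h1 : c1 ≤ ec) (h2 : c1 ≤ ec')
    (l1 : ec ≤ ec' + D * T + D * r) (l2 : ec' ≤ ec + D * T + D * r) (hδ0 : 0 ≤ δ) (hδ : δ ≤ κ * max ec ec') :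
    3 / 5 * c1 < (ec - D * r - D * T - D * δ) + (ec' - D * r - D * T - D * δ) - ec - 4 * δ ∧
    3 / 10 * c1 < ec / 3 - T - δ - D * r ∧ 3 / 10 * c1 < ec' / 3 - 2 * T - δ - D * r := by
  have hD0 : 0 < D := by linarith
  have hκ0 : 0 < κ := by rw [hκ]; positivity
  have k1 : D * κ ≤ 1 / 1600 := by
    rw [hκ]
    have : D * (1 / (400 * D ^ 2)) = 1 / (400 * D) := by field_simp
    rw [this]
    exact one_div_le_one_div_of_le (by norm_num) (by linarith)
  have k2 : κ ≤ 1 / 6400 := by nlinarith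
  have hDT : D * T ≤ c1 / 1600 := by
    calc D * T ≤ D * (κ * c1) := mul_le_mul_of_nonneg_left hT hD0.le
      _ = (D * κ) * c1 := by ring
      _ ≤ 1 / 1600 * c1 := mul_le_mul_of_nonneg_right k1 hc1.le
      _ = c1 / 1600 := by ring
  have hT' : T ≤ c1 / 6400 := by nlinarith
  have hDr : D * r ≤ c1 / 400 := by linarith
  have hM0 : 0 ≤ max ec ec' := (hc1.le.trans h1).trans (le_max_left _ _)
  have hDδ : D * δ ≤ max ec ec' / 1600 := by
    calc D * δ ≤ D * (κ * max ec ec') := mul_le_mul_of_nonneg_left hδ hD0.le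
      _ = (D * κ) * max ec ec' := by ring
      _ ≤ 1 / 1600 * max ec ec' := mul_le_mul_of_nonneg_right k1 hM0
      _ = max ec ec' / 1600 := by ring
  have hδ' : δ ≤ max ec ec' / 6400 := by nlinarith
  have m1 : max ec ec' ≤ ec + D * T + D * r := max_le (by
    have := mul_nonneg hD0.le hT0
    have := mul_nonneg hD0.le hr0
    linarith) l2
  have m2 : max ec ec' ≤ ec' + D * T + D * r := max_le l1 (by
    have := mul_nonneg hD0.le hT0
    have := mul_nonneg hD0.le hr0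
    linarith)
  refine ⟨by linarith, by linarith, by linarith⟩

/-- the shift is smaller than the thickness -/
theorem fin_num2 {D κ a a' b T r ec ec' c1 : ℝ} (hD : 4 ≤ D) (hκ : κ = 1 / (400 * D ^ 2)) (ha : 0 < a)
    (hr0 : 0 ≤ r) (hra : r ≤ a) (hT : T = b - a) (ha' : a' ≤ b) (h1 : T ≤ κ * c1) (h2 : c1 ≤ ec)
    (h3 : ec ≤ 3 * a + D * r) (h4 : ec' ≤ 3 * a' + D * r) :
    2 * (a' - a) < a' - κ * ec' := by
  have hD0 : 0 < D := by linarith
  have hκ0 : 0 < κ := by rw [hκ]; positivity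
  have k1 : D * κ ≤ 1 / 1600 := by
    rw [hκ]
    have : D * (1 / (400 * D ^ 2)) = 1 / (400 * D) := by field_simp
    rw [this]
    exact one_div_le_one_div_of_le (by norm_num) (by linarith)
  have k2 : κ ≤ 1 / 6400 := by nlinarith
  have e1 : κ * ec ≤ κ * (3 * a + D * r) := mul_le_mul_of_nonneg_left h3 hκ0.le
  have e2 : κ * (D * r) ≤ a / 1600 := by
    calc κ * (D * r) = (D * κ) * r := by ring
      _ ≤ 1 / 1600 * r := mul_le_mul_of_nonneg_right k1 hr0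
      _ ≤ 1 / 1600 * a := mul_le_mul_of_nonneg_left hra (by norm_num)
      _ = a / 1600 := by ring
  have e3 : κ * a ≤ a / 6400 := by nlinarith
  have e4 : T ≤ a / 100 := by
    have : κ * c1 ≤ κ * ec := mul_le_mul_of_nonneg_left h2 hκ0.le
    nlinarith
  have e5 : κ * ec' ≤ κ * (3 * a' + D * r) := mul_le_mul_of_nonneg_left h4 hκ0.le
  have e6 : a' ≤ 2 * a := by linarith
  have e7 : κ * a' ≤ κ * (2 * a) := mul_le_mul_of_nonneg_left e6 hκ0.le
  nlinarith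

/-! ### the radius of the boxes -/

/-- radius of the cut boxes -/
def mc {K : ℕ} (F : Flg K) (jj : ℕ → ℕ → ℕ) (c c' d : ℕ) : ℕ → ℕ := fun i =>
  min (mm F c d i) (min (jj c i) (jj c' i - 2 * (c' - c) * F.n i))

/-- value of a restriction -/
theorem pval_zz {A : ℝ} (h2 : StCUT2w A) {K : ℕ} {F : Flg K} {J θ H e : ℕ → ℝ} {W : ℕ → F.S.RV Cbx} {kk jj : ℕ → ℕ → ℕ}
    (hK : 1 ≤ K) (hR : RegA F J θ H e W kk jj) {c c' d : ℕ} {m' : ℕ → ℕ} (hc : 1 ≤ c) (hcc : c ≤ c') (hcd : c' ≤ d)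
    (hd : d ≤ 2 * c) (hdK : d ≤ K) (hh : 2 * (d - c) ≤ F.h)
    (hm : ∀ᶠ i in (uf : Filter ℕ), m' i ≤ mm F c d i ∧ m' i + 2 * (c' - c) * F.n i ≤ jj c' i)
    (hm' : ∀ A : ℕ, ∀ᶠ i in (uf : Filter ℕ), kk c' i + A ≤ m' i)
    {S' : Sys} (dd : Dns S' F.S) (hs : ∀ i ω, 0 < (S'.P i).w ω → 0 < (F.S.P i).w (dd.π i ω)) :
    e c' - A / K - A * (((d:ℝ) - c) / K) - A * (F.S.nu (mm F c d) - F.S.nu m') ≤
      pval (F.res dd hs) c d (dd.pull (zz F W kk m' c c' d)) m' (kk c') := by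
  have h3 := h2 (F.res dd hs) J θ H e (fun c => dd.pull (W c)) kk jj hK (hR.res dd hs) c c' d m' hc hcc hcd hd hdK hh hm hm'
  have e1 : (F.res dd hs).S.nu (mm (F.res dd hs) c d) = F.S.nu (mm F c d) := dd.nu _
  have e2 : (F.res dd hs).S.nu m' = F.S.nu m' := dd.nu _
  rw [e1, e2] at h3
  exact h3

end F117

theorem StFRM.w (h : StFRM) : StFRMw := by
  intro K F c d h1 h2 h3 h4 h5 h6 T₁ T₂ Z₁ Z₂ f₁ f₂ C m' k₁ k₂ v₁ v₂ x g g' h7 h8 h9 h10 h11
  exact h F c d h1 h2 h3 h4 h5 h6 T₁ T₂ Z₁ Z₂ f₁ f₂ C m' k₁ k₂ v₁ v₂ x g g' h7 h8 h9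
    (h10 F.S (Dns.refl F.S) fun _ _ h => h) (h11 F.S (Dns.refl F.S) fun _ _ h => h)

namespace F117

/-- the box variable is tame on the dense laws -/
theorem tame_zz (h1 : StCUT1w) {K : ℕ} {F : Flg K} {J θ H e : ℕ → ℝ} {W : ℕ → F.S.RV Cbx} {kk jj : ℕ → ℕ → ℕ}
    (hK : 1 ≤ K) (hR : RegA F J θ H e W kk jj) {c c' d : ℕ} {m' : ℕ → ℕ} (hc : 1 ≤ c) (hcc : c ≤ c') (hcd : c' ≤ d)
    (hd : d ≤ 2 * c) (hdK : d ≤ K) (hh : 2 * (d - c) ≤ F.h)
    (hm : ∀ᶠ i in (uf : Filter ℕ), m' i ≤ mm F c d i ∧ m' i + 2 * (c' - c) * F.n i ≤ jj c' i)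
    (hm' : ∀ A : ℕ, ∀ᶠ i in (uf : Filter ℕ), kk c' i + A ≤ m' i)
    {S' : Sys} (dd : Dns S' F.S) (hs : ∀ i ω, 0 < (S'.P i).w ω → 0 < (F.S.P i).w (dd.π i ω)) :
    Tame (dd.pull (zz F W kk m' c c' d)) :=
  (h1 (F.res dd hs) J θ H e (fun c => dd.pull (W c)) kk jj hK (hR.res dd hs) c c' d m' hc hcc hcd hd hdK hh hm hm').1

/-- the directions -/
theorem rare_dir {S : Sys} {c1 g C : ℝ} (hc1 : 0 < c1) (hg : g = c1 / 2) {a b : S.RV ℝ} {p : S.RV ℝ} {k m : ℕ → ℕ}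
    (hkm : ∀ᶠ i in (uf : Filter ℕ), (k i : ℝ) + 3 / 10 * c1 * S.L i ≤ m i)
    (hab : ∀ᶠ i in (uf : Filter ℕ), ∀ ω, 0 < (S.P i).w ω → |Real.sin (a i ω - b i ω)| ≤ C * 2 ^ k i * (1 / 2) ^ m i)
    (hr : Rare S (fun i ω => (2 : ℝ) ^ (-(g * S.L i)) < |Real.sin (b i ω - p i ω)|)) :
    Rare S (fun i ω => (2 : ℝ) ^ (-(c1 / 4 * S.L i)) < |Real.sin (a i ω - p i ω)|) := by
  refine H540.Rare.mono hr ?_
  have hC : (0:ℝ) < 1 / (2 * (|C| + 1)) := by positivity
  filter_upwards [hkm, hab, rpow_small (S := S) (η := c1 / 20) (by positivity) hC,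
    rpow_small (S := S) (η := c1 / 4) (by positivity) (show (0:ℝ) < 1 / 2 by norm_num)] with i h1 h2 h3 h4 ω hω hbad
  set x : ℝ := (2 : ℝ) ^ (-(c1 / 4 * S.L i)) with hx
  have hx0 : 0 < x := by positivity
  have h5 := h2 ω hω
  have h6 : (2:ℝ) ^ k i * (1 / 2) ^ m i ≤ (2 : ℝ) ^ (-(c1 / 20 * S.L i)) * x := by
    rw [hx, ← Real.rpow_add (by norm_num)]
    have e1 : (2:ℝ) ^ k i * (1 / 2) ^ m i = (2:ℝ) ^ ((k i : ℝ) - m i) := by
      rw [Real.rpow_sub (by norm_num), Real.rpow_natCast, Real.rpow_natCast, one_div, inv_pow]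
      rfl
    rw [e1]
    refine Real.rpow_le_rpow_of_exponent_le (by norm_num) ?_
    linarith
  have h7 : C * 2 ^ k i * (1 / 2) ^ m i ≤ 1 / 2 * x := by
    calc C * 2 ^ k i * (1 / 2) ^ m i = C * ((2:ℝ) ^ k i * (1 / 2) ^ m i) := by ring
      _ ≤ (|C| + 1) * ((2:ℝ) ^ k i * (1 / 2) ^ m i) :=
          mul_le_mul_of_nonneg_right (by linarith [le_abs_self C]) (by positivity)
      _ ≤ (|C| + 1) * ((2 : ℝ) ^ (-(c1 / 20 * S.L i)) * x) := mul_le_mul_of_nonneg_left h6 (by positivity)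
      _ ≤ (|C| + 1) * (1 / (2 * (|C| + 1)) * x) :=
          mul_le_mul_of_nonneg_left (mul_le_mul_of_nonneg_right h3 hx0.le) (by positivity)
      _ = 1 / 2 * x := by
          have : |C| + 1 ≠ 0 := by positivity
          field_simp
  have h8 : (2 : ℝ) ^ (-(g * S.L i)) ≤ 1 / 2 * x := by
    have e1 : (2 : ℝ) ^ (-(g * S.L i)) = x * x := by
      rw [hx, ← Real.rpow_add (by norm_num), hg]
      congr 1
      ring
    rw [e1]
    exact mul_le_mul_of_nonneg_right h4 hx0.le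
  have h9 := abs_sin_tri (a i ω) (b i ω) (p i ω)
  show (2 : ℝ) ^ (-(g * S.L i)) < |Real.sin (b i ω - p i ω)|
  have h10 : x < |Real.sin (a i ω - p i ω)| := hbad
  linarith

end F117

open F117

/-- **E8** -/
theorem e8_of {A B N C₁ : ℝ} (hF : StFRMw) (h1 : StCUT1w) (h2 : StCUT2w A) (hCap : StCAP' B) (h3 : E3) (h5 : E5 N C₁) :
    ∃ κ : ℝ, 0 < κ ∧ ∃ C₀ : ℝ, E8 κ C₀ := by
  set D : ℝ := max 4 (max A (max B C₁)) with hD
  have hD4 : 4 ≤ D := le_max_left _ _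
  have hDA : A ≤ D := (le_max_left _ _).trans (le_max_right _ _)
  have hDB : B ≤ D := ((le_max_left _ _).trans (le_max_right _ _)).trans (le_max_right _ _)
  have hDC : C₁ ≤ D := ((le_max_right _ _).trans (le_max_right _ _)).trans (le_max_right _ _)
  have hD0 : 0 < D := by linarith
  refine ⟨1 / (400 * D ^ 2), by positivity, 400 * D, ?_⟩
  intro K F J θ H e W kk jj hK hR c1 c c' d hc1 hc hcc hcd hd hdK hh hT hC0 ht ht'
  have hKp : (0:ℝ) < K := by exact_mod_cast hK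
  have hcd' : c ≤ d := hcc.trans hcd
  have hccR : (c:ℝ) ≤ c' := by exact_mod_cast hcc
  have hcdR' : (c':ℝ) ≤ d := by exact_mod_cast hcd
  have hcR : (1:ℝ) ≤ c := by exact_mod_cast hc
  have hcK : c ≤ K := hcd'.trans hdK
  have hcK' : c' ≤ K := hcd.trans hdK
  set κ : ℝ := 1 / (400 * D ^ 2) with hκ
  set T : ℝ := ((d:ℝ) - c) / K with hTdef
  have hT0 : 0 ≤ T := div_nonneg (by linarith) hKp.le
  set r : ℝ := 1 / K with hr
  have hr0 : 0 ≤ r := by positivity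
  have hAr : ∀ x : ℝ, x / K = x * r := fun x => by rw [hr]; ring
  have hr1 : 400 * D * r ≤ c1 := by rw [← hAr]; exact hC0
  -- Lipschitz
  have lip := (h5 F J θ H e W kk jj hK hR).1
  have hcT : ((c':ℝ) - c) / K ≤ T := div_le_div_of_nonneg_right (by linarith) hKp.le
  have hcT0 : 0 ≤ ((c':ℝ) - c) / K := div_nonneg (by linarith) hKp.le
  have hlip : |e c' - e c| ≤ D * T + D * r := by
    have a1 := lip c' c hcK' hcK
    rw [abs_of_nonneg (by linarith : (0:ℝ) ≤ (c':ℝ) - c)] at a1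
    have a2 : C₁ * ((c':ℝ) - c) / K = C₁ * (((c':ℝ) - c) / K) := by ring
    rw [a2, hAr C₁] at a1
    have a3 : C₁ * (((c':ℝ) - c) / K) ≤ D * (((c':ℝ) - c) / K) := mul_le_mul_of_nonneg_right hDC hcT0
    have a4 : D * (((c':ℝ) - c) / K) ≤ D * T := mul_le_mul_of_nonneg_left hcT hD0.le
    have a5 : C₁ * r ≤ D * r := mul_le_mul_of_nonneg_right hDC hr0
    linarith
  obtain ⟨hl2, hl1⟩ := abs_le.1 hlip
  -- capacity
  have cap := fun a (ha : a ≤ K) => hCap F J θ H e W kk jj hK hR a ha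
  have kle : ∀ a, a ≤ K → ∀ᶠ i in (uf : Filter ℕ), kk a i ≤ a * F.n i ∧ jj a i ≤ a * F.n i := by
    intro a ha
    filter_upwards [hR.Wok a ha] with i hi
    obtain ⟨ω, hω⟩ := S.exists_supp (F.S.P i)
    obtain ⟨-, -, -, -, b1, b2⟩ := hi ω hω
    exact ⟨b1.trans b2, b2⟩
  have bk : ∀ a, a ≤ K → F.S.Bd (kk a) := fun a ha => bd_of_le F hK ((kle a ha).mono fun i hi => hi.1)
  have bj : ∀ a, a ≤ K → F.S.Bd (jj a) := fun a ha => bd_of_le F hK ((kle a ha).mono fun i hi => hi.2)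
  have k0 : ∀ a, a ≤ K → 0 ≤ F.S.nu (kk a) := fun a ha => (S.nu_le F hK a (kk a) ((kle a ha).mono fun i hi => hi.1)).1
  have capc : e c ≤ 3 * ((c:ℝ) / K - F.S.nu (kk c)) + D * r := by
    have a1 := cap c hcK
    rw [hAr B] at a1
    have a2 : B * r ≤ D * r := mul_le_mul_of_nonneg_right hDB hr0
    linarith
  have capc' : e c' ≤ 3 * ((c':ℝ) / K - F.S.nu (kk c')) + D * r := by
    have a1 := cap c' hcK'
    rw [hAr B] at a1
    have a2 : B * r ≤ D * r := mul_le_mul_of_nonneg_right hDB hr0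
    linarith
  -- limits
  have numm : F.S.nu (mm F c d) = ((2 * c - d : ℕ) : ℝ) / K := nu_cn F hK (2 * c - d)
  have numm' : F.S.nu (mm F c d) = (2 * (c:ℝ) - d) / K := by
    rw [numm, Nat.cast_sub hd]
    push_cast
    ring
  have bm : F.S.Bd (mm F c d) := bd_of_le F hK (c := 2 * c - d) (Eventually.of_forall fun _ => le_rfl)
  have nush : F.S.nu (fun i => 2 * (c' - c) * F.n i) = 2 * ((c':ℝ) - c) / K := by
    rw [nu_cn F hK (2 * (c' - c))]
    push_cast [Nat.cast_sub hcc]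
    ring
  have bsh : F.S.Bd (fun i => 2 * (c' - c) * F.n i) :=
    bd_of_le F hK (c := 2 * (c' - c)) (Eventually.of_forall fun _ => le_rfl)
  have nj : (c:ℝ) / K - κ * e c ≤ F.S.nu (jj c) := by
    have a1 := ht.2
    unfold nα at a1
    have a2 : (2:ℝ) * c / K = c / K + c / K := by ring
    linarith
  have nj' : (c':ℝ) / K - κ * e c' ≤ F.S.nu (jj c') := by
    have a1 := ht'.2
    unfold nα at a1
    have a2 : (2:ℝ) * c' / K = c' / K + c' / K := by ring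
    linarith
  have hκ0 : 0 < κ := by rw [hκ]; positivity
  -- the shift
  have hsh : ∀ᶠ i in (uf : Filter ℕ), 2 * (c' - c) * F.n i ≤ jj c' i := by
    have a1 := fin_num2 (D := D) (κ := κ) (a := (c:ℝ) / K) (a' := (c':ℝ) / K) (b := (d:ℝ) / K) (T := T) (r := r)
      (ec := e c) (ec' := e c') (c1 := c1) hD4 hκ (by positivity) hr0
      (by rw [hr]; exact div_le_div_of_nonneg_right hcR hKp.le) (by rw [hTdef]; ring)
      (div_le_div_of_nonneg_right hcdR' hKp.le) hT ht.1 (by have := k0 c hcK; linarith)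
      (by have := k0 c' hcK'; linarith)
    have a2 : F.S.nu (fun i => 2 * (c' - c) * F.n i) + 0 < F.S.nu (jj c') := by
      rw [nush]
      have : 2 * ((c':ℝ) - c) / K = 2 * ((c':ℝ) / K - (c:ℝ) / K) := by ring
      linarith
    filter_upwards [ev_of_nu bsh (bj c' hcK') a2] with i hi
    rw [zero_mul, add_zero] at hi
    exact_mod_cast hi
  -- the radius
  set m' : ℕ → ℕ := mc F jj c c' d with hm'
  have m1 : ∀ i, m' i ≤ mm F c d i := fun i => min_le_left _ _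
  have m2 : ∀ i, m' i ≤ jj c i := fun i => (min_le_right _ _).trans (min_le_left _ _)
  have m3 : ∀ᶠ i in (uf : Filter ℕ), m' i + 2 * (c' - c) * F.n i ≤ jj c' i := by
    filter_upwards [hsh] with i hi
    have : m' i ≤ jj c' i - 2 * (c' - c) * F.n i := (min_le_right _ _).trans (min_le_right _ _)
    omega
  have bm' : F.S.Bd m' := bd_of_le F hK (c := 2 * c - d) (Eventually.of_forall fun i => m1 i)
  have nm1 : F.S.nu m' ≤ F.S.nu (mm F c d) := by
    refine ulim_le bm'.ub bm.ub (Eventually.of_forall fun i => ?_)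
    exact div_le_div_of_nonneg_right (by exact_mod_cast m1 i) (Nat.cast_nonneg _)
  have nm2 : F.S.nu (mm F c d) - κ * max (e c) (e c') ≤ F.S.nu m' := by
    refine le_of_forall_pos_le_add fun ε hε => ?_
    have q1 : F.S.nu (mm F c d) - κ * max (e c) (e c') - ε < F.S.nu (mm F c d) := by
      have : 0 ≤ κ * max (e c) (e c') := mul_nonneg hκ0.le ((hc1.le.trans ht.1).trans (le_max_left _ _))
      linarith
    have q2 : F.S.nu (mm F c d) - κ * max (e c) (e c') - ε < F.S.nu (jj c) := by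
      have b1 : κ * e c ≤ κ * max (e c) (e c') := mul_le_mul_of_nonneg_left (le_max_left _ _) hκ0.le
      have b2 : (2 * (c:ℝ) - d) / K ≤ (c:ℝ) / K := div_le_div_of_nonneg_right (by linarith) hKp.le
      rw [numm']
      linarith
    have q3 : F.S.nu (mm F c d) - κ * max (e c) (e c') - ε < F.S.nu (jj c') - 2 * ((c':ℝ) - c) / K := by
      have b1 : κ * e c' ≤ κ * max (e c) (e c') := mul_le_mul_of_nonneg_left (le_max_right _ _) hκ0.le
      have b2 : (2 * (c:ℝ) - d) / K ≤ (c':ℝ) / K - 2 * ((c':ℝ) - c) / K := by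
        rw [← sub_div]
        exact div_le_div_of_nonneg_right (by linarith) hKp.le
      rw [numm']
      linarith
    have q4 : ∀ᶠ i in (uf : Filter ℕ),
        F.S.nu (mm F c d) - κ * max (e c) (e c') - ε < (jj c' i : ℝ) / F.S.L i - ((2 * (c' - c) * F.n i : ℕ) : ℝ) / F.S.L i := by
      refine lt_ulim_eventually ((bj c' hcK').ub.sub bsh.ub) ?_
      rw [ulim_sub (bj c' hcK').ub bsh.ub]
      unfold Sys.nu at q3 nush ⊢
      rw [nush]
      exact q3
    have q5 : F.S.nu (mm F c d) - κ * max (e c) (e c') - ε ≤ F.S.nu m' := by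
      refine const_le_ulim bm'.ub ?_
      filter_upwards [lt_ulim_eventually bm.ub q1, lt_ulim_eventually (bj c hcK).ub q2, q4, hsh, F.S.L_pos] with
        i r1 r2 r3 r4 r5
      have hL : (0:ℝ) < F.S.L i := by exact_mod_cast r5
      rcases min_choice (mm F c d i) (min (jj c i) (jj c' i - 2 * (c' - c) * F.n i)) with h | h
      · have : m' i = mm F c d i := h
        rw [this]
        exact r1.le
      · rcases min_choice (jj c i) (jj c' i - 2 * (c' - c) * F.n i) with h' | h'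
        · have : m' i = jj c i := h.trans h'
          rw [this]
          exact r2.le
        · have : m' i = jj c' i - 2 * (c' - c) * F.n i := h.trans h'
          rw [this, Nat.cast_sub r4, sub_div]
          exact r3.le
    linarith
  set δ : ℝ := F.S.nu (mm F c d) - F.S.nu m' with hδ
  have hδ0 : 0 ≤ δ := by linarith
  have hδ1 : δ ≤ κ * max (e c) (e c') := by linarith
  obtain ⟨n1, n2, n3⟩ := fin_num (D := D) (κ := κ) (c1 := c1) (ec := e c) (ec' := e c') (T := T) (r := r) (δ := δ)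
    hD4 hc1 hκ hT0 hT hr0 hr1 ht.1 ht'.1 (by linarith) (by linarith) hδ0 hδ1
  have hTc : T = (d:ℝ) / K - (c:ℝ) / K := by rw [hTdef]; ring
  have hcT' : (c':ℝ) / K ≤ (c:ℝ) / K + T := by
    have : ((c':ℝ) - c) / K = (c':ℝ) / K - (c:ℝ) / K := by ring
    linarith
  have hmm2 : F.S.nu (mm F c d) = (c:ℝ) / K - T := by
    rw [numm', hTdef]
    ring
  have g1 : F.S.nu (kk c) + 3 / 10 * c1 < F.S.nu m' := by
    have : F.S.nu m' = (c:ℝ) / K - T - δ := by linarith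
    have h0 : 0 ≤ D * r := mul_nonneg hD0.le hr0
    linarith
  have g2 : F.S.nu (kk c') + 3 / 10 * c1 < F.S.nu m' := by
    have : F.S.nu m' = (c:ℝ) / K - T - δ := by linarith
    have h0 : 0 ≤ D * r := mul_nonneg hD0.le hr0
    linarith
  have w1 := ev_of_nu (bk c hcK) bm' g1
  have w2 := ev_of_nu (bk c' hcK') bm' g2
  have far : ∀ {k : ℕ → ℕ}, (∀ᶠ i in (uf : Filter ℕ), (k i : ℝ) + 3 / 10 * c1 * F.S.L i ≤ m' i) →
      ∀ a : ℕ, ∀ᶠ i in (uf : Filter ℕ), k i + a ≤ m' i := by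
    intro k hk a
    have q : ∀ᶠ i in (uf : Filter ℕ), (a : ℝ) / (3 / 10 * c1) ≤ F.S.L i :=
      (tendsto_natCast_atTop_atTop.comp F.S.Ltop).eventually_ge_atTop _
    filter_upwards [hk, q] with i hi hq
    rw [div_le_iff₀ (by positivity)] at hq
    have : (k i : ℝ) + a ≤ m' i := by linarith
    exact_mod_cast this
  have w1' := far w1
  have w2' := far w2
  have hm1 : ∀ᶠ i in (uf : Filter ℕ), m' i ≤ mm F c d i ∧ m' i + 2 * (c - c) * F.n i ≤ jj c i := by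
    refine Eventually.of_forall fun i => ⟨m1 i, ?_⟩
    rw [Nat.sub_self, mul_zero, zero_mul, add_zero]
    exact m2 i
  have hm2 : ∀ᶠ i in (uf : Filter ℕ), m' i ≤ mm F c d i ∧ m' i + 2 * (c' - c) * F.n i ≤ jj c' i := by
    filter_upwards [m3] with i hi
    exact ⟨m1 i, hi⟩
  -- the boxes
  obtain ⟨t1, Ca, p1, s1⟩ := h1 F J θ H e W kk jj hK hR c c d m' hc le_rfl hcd' hd hdK hh hm1 w1'
  obtain ⟨t2, Cb, p2, s2⟩ := h1 F J θ H e W kk jj hK hR c c' d m' hc hcc hcd hd hdK hh hm2 w2'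
  have p1' := p1.mono117 (le_max_left Ca Cb) (fun _ _ => by positivity) (fun _ _ => by positivity)
  have p2' := p2.mono117 (le_max_right Ca Cb) (fun _ _ => by positivity) (fun _ _ => by positivity)
  obtain ⟨ψ, z1, z2⟩ := hF F c d hK hc hcd' hd hdK hh _ _ (zz F W kk m' c c d) (zz F W kk m' c c' d)
    (wfr F W c c d) (wfr F W c c' d) (max Ca Cb) m' (kk c) (kk c')
    (e c - D * r - D * T - D * δ) (e c' - D * r - D * T - D * δ) (e c) (3 / 5 * c1) (c1 / 2)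
    (by filter_upwards [w1' 0, w2' 0] with i a1 a2; exact ⟨by simpa using a1, by simpa using a2, m1 i⟩)
    (Eventually.of_forall fun i ω ω' _ _ e => congrArg (fun z => z.2.1) e)
    (Eventually.of_forall fun i ω ω' _ _ e => congrArg (fun z => z.2.1) e)
    (fun S' dd hs => tame_zz h1 hK hR hc le_rfl hcd' hd hdK hh hm1 w1' dd hs)
    (fun S' dd hs => tame_zz h1 hK hR hc hcc hcd hd hdK hh hm2 w2' dd hs)
    p1' p2' (by positivity) (by linarith) n1
    (by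
      intro S' dd hs
      refine le_trans ?_ (pval_zz h2 hK hR hc le_rfl hcd' hd hdK hh hm1 w1' dd hs)
      rw [hAr A]
      have a1 : A * r ≤ D * r := mul_le_mul_of_nonneg_right hDA hr0
      have a2 : A * T ≤ D * T := mul_le_mul_of_nonneg_right hDA hT0
      have a3 : A * δ ≤ D * δ := mul_le_mul_of_nonneg_right hDA hδ0
      linarith)
    (by
      intro S' dd hs
      refine le_trans ?_ (pval_zz h2 hK hR hc hcc hcd hd hdK hh hm2 w2' dd hs)
      rw [hAr A]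
      have a1 : A * r ≤ D * r := mul_le_mul_of_nonneg_right hDA hr0
      have a2 : A * T ≤ D * T := mul_le_mul_of_nonneg_right hDA hT0
      have a3 : A * δ ≤ D * δ := mul_le_mul_of_nonneg_right hDA hδ0
      linarith)
    (by
      intro S' dd hs
      exact h3 (F.res dd hs) c (e c) hK hcK (hR.e0 c hcK) ((hR.exU c hcK).res dd hs))
  refine ⟨ψ, ?_, ?_⟩
  · exact rare_dir hc1 rfl w1 s1 z1
  · exact rare_dir hc1 rfl w2 s2 z2

/-- 315's form -/
theorem stE8_of {A B N : ℝ} (hF : StFRMw) (h1 : StCUT1w) (h2 : StCUT2w A) (hCap : StCAP' B) (h3 : E3) (h5 : S.StE5 N) :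
    S.StE8 := by
  obtain ⟨C₁, h5⟩ := h5
  exact e8_of hF h1 h2 hCap h3 h5

end Vale.Agent.P106.R.E8
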