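import Vale.Agent.P106.R.E8.MeetD

/-! # P106 / R / E8 : StMEET (helper912) -/

set_option autoImplicit false

namespace Vale.Agent.P106.R.E8.H912

open Filter Topology Finset Vale.Agent.P127 Vale.Agent.P127.Stk Vale.Agent.P127.U Vale.Agent.P127.U.Sys Vale.Agent.P106.R.C2

/-- the constant -/
noncomputable def cM (C : ℝ) : ℝ :=
  Real.log (343 * ((50 * C ^ 4) ^ 3 * (2000 * C ^ 4) ^ 2)) + 4 * Real.log (20 * C ^ 2 + 5) + Real.log 4 + 2 * Real.log 2 +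
    4 * Real.log (2 * (⌈2000 * C ^ 3⌉₊ : ℝ) + 3)

section finite

variable {Ω : Type} [Fintype Ω] (P : Law Ω)

open Classical in
/-- the cell -/
noncomputable def aux (C p2 ε0 H : ℝ) (q : ℕ) (l : Ω → Ry) (f1 f2 : Ω → Fr) (ω : Ω) :
    ℕ × ℕ × ℕ × Bool × Fin 2 × (Fin 2 → ℤ) × (Fin 2 → ℤ) :=
  (lvG q (f1 ω) (f2 ω), lvG' q (f1 ω) (f2 ω) p2 H, cs C p2 ε0 q (f1 ω) (f2 ω) (lvG' q (f1 ω) (f2 ω) p2 H),
    decide (0 ≤ crs (f1 ω).n (f2 ω).n), vi (f2 ω), (fun k => ⌊(l ω).y k / ph C p2⌋), fun k => ⌊(l ω).s k / ph C p2⌋)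

theorem hc_nat_le {β : Type*} (G : Ω → ℕ) (Z : Ω → β) (n : ℕ) (h : ∀ ω, 0 < P.w ω → G ω ≤ n) :
    Stk.hc P G Z ≤ Real.log ((n : ℝ) + 1) := by
  have h3 := Stk.hc_le_log P G Z (n + 1) (fun ω _ => by
    refine ⟨Finset.range (n + 1), by simp, fun ω' hω' _ => ?_⟩
    rw [Finset.mem_range]
    have := h ω' hω'
    omega)
  push_cast at h3
  exact h3

theorem hc_two_le {β α : Type*} [Fintype α] (hα : Fintype.card α = 2) (G : Ω → α) (Z : Ω → β) :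
    Stk.hc P G Z ≤ Real.log 2 := by
  have h3 := Stk.hc_le_log P G Z 2 (fun ω _ => ⟨Finset.univ, by rw [Finset.card_univ, hα], fun ω' _ _ => Finset.mem_univ _⟩)
  push_cast at h3
  exact h3

theorem aux_le {β : Type*} {C p2 ε0 H : ℝ} {q n : ℕ} (l : Ω → Ry) (f1 f2 : Ω → Fr) (Z : Ω → β) (hC : 1 ≤ C) (hp : 0 < p2)
    (hq : q ≤ n) (hN : ∀ ω, 0 < P.w ω → Nb C q p2 ε0 H (f1 ω) (f2 ω))
    (hy : ∀ ω ω', 0 < P.w ω → 0 < P.w ω' → Z ω = Z ω' → ∀ k, |(l ω').y k - (l ω).y k| ≤ C * p2 ∧ |(l ω').s k - (l ω).s k| ≤ C * p2) :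
    Stk.hc P (aux C p2 ε0 H q l f1 f2) Z ≤ 2 * Real.log ((n : ℝ) + 1) + Real.log 4 + 2 * Real.log 2 +
      4 * Real.log (2 * (⌈2000 * C ^ 3⌉₊ : ℝ) + 3) := by
  classical
  have C0 : 0 < C := by linarith
  have g1 := hc_nat_le P (fun ω => lvG q (f1 ω) (f2 ω)) Z n (fun ω _ => (C1.lev_le _ _).trans hq)
  have g2 := hc_nat_le P (fun ω => lvG' q (f1 ω) (f2 ω) p2 H) Z n (fun ω _ => (C1.lev_le _ _).trans hq)
  have g3 := hc_nat_le P (fun ω => cs C p2 ε0 q (f1 ω) (f2 ω) (lvG' q (f1 ω) (f2 ω) p2 H)) Z 3 (fun ω hω => by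
    rcases cs_cases (hN ω hω) with ⟨a, -⟩ | ⟨a, -⟩ | ⟨a, -⟩ | ⟨a, -⟩ <;> omega)
  have g4 := hc_two_le P (α := Bool) (by simp) (fun ω => decide (0 ≤ crs (f1 ω).n (f2 ω).n)) Z
  have g5 := hc_two_le P (α := Fin 2) (by simp) (fun ω => vi (f2 ω)) Z
  have key : ∀ x y : ℝ, |x - y| ≤ C * p2 → |y / ph C p2 - x / ph C p2| ≤ (⌈2000 * C ^ 3⌉₊ : ℝ) * (1 / 2) ^ 0 := by
    intro x y hxy
    rw [pow_zero, mul_one]
    refine le_trans ?_ (Nat.le_ceil _)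
    have hph := ph_pos hC hp
    rw [← sub_div, abs_div, abs_of_pos hph, div_le_iff₀ hph, abs_sub_comm]
    refine hxy.trans (le_of_eq ?_)
    unfold ph
    field_simp
  have g6 := Apx.hc_fl_apx P (ι := Fin 2) 0 ⌈2000 * C ^ 3⌉₊ (fun ω k => (l ω).y k / ph C p2) Z
    (fun ω ω' p p' e k => key _ _ (hy ω ω' p p' e k).1)
  have g7 := Apx.hc_fl_apx P (ι := Fin 2) 0 ⌈2000 * C ^ 3⌉₊ (fun ω k => (l ω).s k / ph C p2) Z
    (fun ω ω' p p' e k => key _ _ (hy ω ω' p p' e k).2)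
  have f0 : ∀ v : Fin 2 → ℝ, fl 0 v = fun k => ⌊v k⌋ := by
    intro v
    funext k
    simp [fl]
  simp only [f0, Fintype.card_fin, Nat.cast_ofNat] at g6 g7
  have e1 := Apx.hc_pair_le P (fun ω => (fun k => ⌊(l ω).y k / ph C p2⌋ : Fin 2 → ℤ)) (fun ω => (fun k => ⌊(l ω).s k / ph C p2⌋ : Fin 2 → ℤ)) Z
  have e2 := Apx.hc_pair_le P (fun ω => vi (f2 ω)) (fun ω => ((fun k => ⌊(l ω).y k / ph C p2⌋ : Fin 2 → ℤ),
    (fun k => ⌊(l ω).s k / ph C p2⌋ : Fin 2 → ℤ))) Z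
  have e3 := Apx.hc_pair_le P (fun ω => decide (0 ≤ crs (f1 ω).n (f2 ω).n)) (fun ω => (vi (f2 ω),
    (fun k => ⌊(l ω).y k / ph C p2⌋ : Fin 2 → ℤ), (fun k => ⌊(l ω).s k / ph C p2⌋ : Fin 2 → ℤ))) Z
  have e4 := Apx.hc_pair_le P (fun ω => cs C p2 ε0 q (f1 ω) (f2 ω) (lvG' q (f1 ω) (f2 ω) p2 H))
    (fun ω => (decide (0 ≤ crs (f1 ω).n (f2 ω).n), vi (f2 ω),
    (fun k => ⌊(l ω).y k / ph C p2⌋ : Fin 2 → ℤ), (fun k => ⌊(l ω).s k / ph C p2⌋ : Fin 2 → ℤ))) Z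
  have e5 := Apx.hc_pair_le P (fun ω => lvG' q (f1 ω) (f2 ω) p2 H)
    (fun ω => (cs C p2 ε0 q (f1 ω) (f2 ω) (lvG' q (f1 ω) (f2 ω) p2 H), decide (0 ≤ crs (f1 ω).n (f2 ω).n), vi (f2 ω),
    (fun k => ⌊(l ω).y k / ph C p2⌋ : Fin 2 → ℤ), (fun k => ⌊(l ω).s k / ph C p2⌋ : Fin 2 → ℤ))) Z
  have e6 := Apx.hc_pair_le P (fun ω => lvG q (f1 ω) (f2 ω))
    (fun ω => (lvG' q (f1 ω) (f2 ω) p2 H, cs C p2 ε0 q (f1 ω) (f2 ω) (lvG' q (f1 ω) (f2 ω) p2 H),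
    decide (0 ≤ crs (f1 ω).n (f2 ω).n), vi (f2 ω),
    (fun k => ⌊(l ω).y k / ph C p2⌋ : Fin 2 → ℤ), (fun k => ⌊(l ω).s k / ph C p2⌋ : Fin 2 → ℤ))) Z
  have e7 : Stk.hc P (aux C p2 ε0 H q l f1 f2) Z = Stk.hc P (fun ω => (lvG q (f1 ω) (f2 ω), lvG' q (f1 ω) (f2 ω) p2 H,
    cs C p2 ε0 q (f1 ω) (f2 ω) (lvG' q (f1 ω) (f2 ω) p2 H),
    decide (0 ≤ crs (f1 ω).n (f2 ω).n), vi (f2 ω),
    (fun k => ⌊(l ω).y k / ph C p2⌋ : Fin 2 → ℤ), (fun k => ⌊(l ω).s k / ph C p2⌋ : Fin 2 → ℤ))) Z := rfl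
  rw [e7]
  have e8 : Real.log (((3:ℕ):ℝ) + 1) = Real.log 4 := by norm_num
  rw [e8] at g3
  linarith

theorem near_fin {C C' : ℝ} (h : C ≤ C') {f : Fr} {u1 u2 H : ℝ} {l l' : Ry} (hu1 : 0 ≤ u1) (hu2 : 0 ≤ u2) (hH : 0 ≤ H)
    (g : Near C f u1 u2 H l l') : Near C' f u1 u2 H l l' := by
  obtain ⟨g1, g2, g3, g4, g5⟩ := g
  have hm : 0 ≤ max (u2 ^ 2) H := le_max_of_le_right hH
  exact ⟨fun k => (g1 k).trans (mul_le_mul_of_nonneg_right h hu2), fun k => (g2 k).trans (mul_le_mul_of_nonneg_right h hu2),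
    g3.trans (mul_le_mul_of_nonneg_right h hm), g4.trans (mul_le_mul_of_nonneg_right h hu1),
    g5.trans (mul_le_mul_of_nonneg_right h hu1)⟩

theorem ok_fin {C C' : ℝ} (h : C ≤ C') {f : Fr} {u1 u2 r H : ℝ} (hu1 : 0 ≤ u1)
    (g : OkF C f u1 u2 r H) : OkF C' f u1 u2 r H := by
  obtain ⟨g1, g2, g3, g4, g5, g6, g7, g8, g9⟩ := g
  have h0 : 0 ≤ f.n 0 ^ 2 + f.n 1 ^ 2 := by positivity
  exact ⟨g1.trans (mul_le_mul_of_nonneg_right h h0), g2.trans h, g3.trans h, g4.trans h,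
    g5.trans (mul_le_mul_of_nonneg_right h hu1), g6.trans (mul_le_mul_of_nonneg_right h hu1), g7, g8, g9⟩

/-- finite form of `StMEET` -/
theorem meet_fin {T1 T2 T3 : Type} {C H : ℝ} (hC : 1 ≤ C) (H0 : 0 < H) {m m' k1 k2 : ℕ} (h12 : k1 ≤ k2) (h2 : k2 ≤ m')
    (hm : m' ≤ m) (X : Ω → Nd) (Z1 : Ω → T1) (Z2 : Ω → T2) (Z3 : Ω → T3) (f1 f2 : Ω → Fr)
    (hT : ∀ ω ω', 0 < P.w ω → 0 < P.w ω' → Z2 ω = Z2 ω' → (X ω).T = (X ω').T)
    (n1 : ∀ ω ω', 0 < P.w ω → 0 < P.w ω' → Z1 ω = Z1 ω' → f1 ω' = (f1 ω).tr (ray m H (X ω)) (ray m H (X ω')) ∧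
      Near C (f1 ω) ((1 / 2 : ℝ) ^ m') ((1 / 2 : ℝ) ^ k1) H (ray m H (X ω)) (ray m H (X ω')))
    (n2 : ∀ ω ω', 0 < P.w ω → 0 < P.w ω' → Z2 ω = Z2 ω' → f2 ω' = (f2 ω).tr (ray m H (X ω)) (ray m H (X ω')) ∧
      Near C (f2 ω) ((1 / 2 : ℝ) ^ m') ((1 / 2 : ℝ) ^ k2) H (ray m H (X ω)) (ray m H (X ω')))
    (o1 : ∀ ω, 0 < P.w ω → OkF C (f1 ω) ((1 / 2 : ℝ) ^ m') ((1 / 2 : ℝ) ^ k1) ((1 / 2 : ℝ) ^ m) H)
    (o2 : ∀ ω, 0 < P.w ω → OkF C (f2 ω) ((1 / 2 : ℝ) ^ m') ((1 / 2 : ℝ) ^ k2) ((1 / 2 : ℝ) ^ m) H) :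
    Stk.hc P X (fun ω => (Z1 ω, Z2 ω, Z3 ω)) ≤
      (P.ex (fun ω => (lvG (m' - k2) (f1 ω) (f2 ω) : ℝ)) +
        P.ex (fun ω => (lvG' (m' - k2) (f1 ω) (f2 ω) ((1 / 2 : ℝ) ^ k2) H : ℝ)) + 4 * ((m : ℝ) - m')) * Real.log 2 +
      Real.log (max 1 (((1 / 2 : ℝ) ^ k2) ^ 2 / H)) + 2 * Real.log ((m' : ℝ) + 1) + cM C := by
  classical
  set q := m' - k2 with hq
  set ε0 := (1 / 2 : ℝ) ^ m' with hε0
  set p2 := (1 / 2 : ℝ) ^ k2 with hp2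
  have C0 : 0 < C := by linarith
  have ε : 0 < ε0 := by rw [hε0]; positivity
  have p0 : 0 < p2 := by rw [hp2]; positivity
  have p12 : p2 ≤ (1 / 2 : ℝ) ^ k1 := pow_le_pow_of_le_one (by norm_num) (by norm_num) h12
  have pε : p2 = 2 ^ q * ε0 := by
    have e1 : (1 / 2 : ℝ) ^ m' = (1 / 2) ^ q * (1 / 2) ^ k2 := by rw [← pow_add, hq, Nat.sub_add_cancel h2]
    rw [hε0, e1, ← mul_assoc, ← mul_pow]
    norm_num
    rfl
  have hN : ∀ ω, 0 < P.w ω → Nb C q p2 ε0 H (f1 ω) (f2 ω) := by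
    intro ω hω
    have a1 := (o1 ω hω).nrm_pos912 hC
    have a2 := (o2 ω hω).nrm_pos912 hC
    obtain ⟨-, -, -, -, b1, b2, -⟩ := o1 ω hω
    obtain ⟨-, -, -, -, c1, c2, -⟩ := o2 ω hω
    exact ⟨hC, ε, pε, H0, a1, a2, b1, b2, c1, c2⟩
  set Z : Ω → T1 × T2 × T3 := fun ω => (Z1 ω, Z2 ω, Z3 ω) with hZ
  set l : Ω → Ry := fun ω => ray m H (X ω) with hl
  set A := aux C p2 ε0 H q l f1 f2 with hA
  set D : Ω → ℤ × ℤ × ℤ := fun ω => (⌊(l ω).y (vi (f2 ω)) / ε0⌋, ⌊(l ω).s (vi (f2 ω)) / ε0⌋, ⌊rc (ph C p2) H (l ω)⌋) with hD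
  have hLoc : ∀ ω ω', 0 < P.w ω → 0 < P.w ω' → (A ω, Z ω) = (A ω', Z ω') →
      Loc C p2 ε0 H (f1 ω) (f2 ω) (l ω) (l ω') ∧ vi (f2 ω) = vi (f2 ω') ∧
      cs C p2 ε0 q (f1 ω) (f2 ω) (lvG' q (f1 ω) (f2 ω) p2 H) = cs C p2 ε0 q (f1 ω') (f2 ω') (lvG' q (f1 ω') (f2 ω') p2 H) := by
    intro ω ω' p p' e
    simp only [hA, aux, hZ, Prod.mk.injEq] at e
    obtain ⟨⟨e1, e2, e3, e4, e5, e6, e7⟩, z1, z2, z3⟩ := e
    obtain ⟨t1, r1⟩ := n1 ω ω' p p' z1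
    obtain ⟨t2, r2⟩ := n2 ω ω' p p' z2
    obtain ⟨-, -, u3, u4, u5, u6, -⟩ := o1 ω p
    obtain ⟨-, -, w3, w4, w5, w6, -⟩ := o2 ω p
    refine ⟨⟨⟨hC, ε, p0, H0, (hN ω p).n1, (hN ω p).n2, ?_, ?_, w3, w4, u5, u6, w5, w6, r1.2.2.2.1, r1.2.2.2.2,
      r2.2.2.2.1, r2.2.2.2.2⟩, r2.1, r2.2.1, r2.2.2.1, fun k => congrFun e6 k, fun k => congrFun e7 k, ?_⟩, e5, e3⟩
    · exact (mul_le_mul_of_nonneg_left p12 (abs_nonneg _)).trans u3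
    · exact (mul_le_mul_of_nonneg_left p12 (abs_nonneg _)).trans u4
    · have t1' : (f1 ω).tr (l ω) (l ω') = f1 ω' := t1.symm
      have t2' : (f2 ω).tr (l ω) (l ω') = f2 ω' := t2.symm
      rw [t1', t2']
      have e4' : (0 ≤ crs (f1 ω).n (f2 ω).n) ↔ (0 ≤ crs (f1 ω').n (f2 ω').n) := by
        simpa using e4
      rcases le_or_gt 0 (crs (f1 ω).n (f2 ω).n) with s | s
      · exact mul_nonneg s (e4'.1 s)
      · have s' : crs (f1 ω').n (f2 ω').n < 0 := by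
          by_contra hcon
          exact absurd (e4'.2 (not_lt.1 hcon)) (not_le.2 s)
        exact (mul_pos_of_neg_of_neg s s').le
  have hY : ∀ ω ω', 0 < P.w ω → 0 < P.w ω' → Z ω = Z ω' → ∀ k, |(l ω').y k - (l ω).y k| ≤ C * p2 ∧ |(l ω').s k - (l ω).s k| ≤ C * p2 := by
    intro ω ω' p p' e k
    simp only [hZ, Prod.mk.injEq] at e
    obtain ⟨t2, r2⟩ := n2 ω ω' p p' e.2.1
    exact ⟨r2.1 k, r2.2.1 k⟩
  have s1 := aux_le P (n := m') l f1 f2 Z hC p0 (Nat.sub_le _ _) hN hY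
  have s2 := fin_digits P l f1 f2 (fun ω => (A ω, Z ω)) hN hLoc
  have s3 := fin_last P hm X f1 f2 (fun ω => (A ω, Z ω)) hN (fun ω ω' p p' e => by
    simp only [hZ, Prod.mk.injEq] at e
    exact hT ω ω' p p' e.2.2.1) (fun ω ω' p p' e => ⟨(hLoc ω ω' p p' e).1, (hLoc ω ω' p p' e).2.1⟩) hC
  have s4 := Apx.hc_via P X A Z
  have s5 := Apx.hc_via P X D (fun ω => (A ω, Z ω))
  have K0 : 0 < 343 * ((50 * C ^ 4) ^ 3 * (2000 * C ^ 4) ^ 2) := by positivity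
  have mx0 : 0 < max 1 (p2 ^ 2 / H) := lt_of_lt_of_le one_pos (le_max_left _ _)
  have s6 : P.ex (fun ω => Real.log (343 * ((50 * C ^ 4) ^ 3 * (2000 * C ^ 4) ^ 2 *
        (2 ^ lvG q (f1 ω) (f2 ω) * 2 ^ lvG' q (f1 ω) (f2 ω) p2 H * max 1 (p2 ^ 2 / H))))) =
      Real.log (343 * ((50 * C ^ 4) ^ 3 * (2000 * C ^ 4) ^ 2)) + Real.log (max 1 (p2 ^ 2 / H)) +
      (P.ex (fun ω => (lvG q (f1 ω) (f2 ω) : ℝ)) + P.ex (fun ω => (lvG' q (f1 ω) (f2 ω) p2 H : ℝ))) * Real.log 2 := by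
    have e1 : ∀ ω, Real.log (343 * ((50 * C ^ 4) ^ 3 * (2000 * C ^ 4) ^ 2 *
        (2 ^ lvG q (f1 ω) (f2 ω) * 2 ^ lvG' q (f1 ω) (f2 ω) p2 H * max 1 (p2 ^ 2 / H)))) =
        (Real.log (343 * ((50 * C ^ 4) ^ 3 * (2000 * C ^ 4) ^ 2)) + Real.log (max 1 (p2 ^ 2 / H))) +
          Real.log 2 * ((lvG q (f1 ω) (f2 ω) : ℝ) + (lvG' q (f1 ω) (f2 ω) p2 H : ℝ)) := by
      intro ω
      have gen : ∀ (K mx : ℝ) (a b : ℕ), 0 < K → 0 < mx → Real.log (343 * (K * (2 ^ a * 2 ^ b * mx))) =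
          (Real.log (343 * K) + Real.log mx) + Real.log 2 * ((a : ℝ) + b) := by
        intro K mx a b hK hmx
        have e : 343 * (K * (2 ^ a * 2 ^ b * mx)) = 343 * K * ((2 ^ a * 2 ^ b) * mx) := by ring
        rw [e, Real.log_mul (by positivity) (by positivity), Real.log_mul (by positivity) hmx.ne', ← pow_add, Real.log_pow]
        push_cast
        ring
      exact gen _ _ _ _ (by positivity) mx0
    simp only [e1]
    rw [P.ex_add, P.ex_const, P.ex_const_mul, P.ex_add]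
    ring
  rw [s6] at s2
  unfold cM
  have s7 : Stk.hc P X (fun ω => (D ω, (A ω, Z ω))) ≤ 4 * (((m : ℝ) - m') * Real.log 2 + Real.log (20 * C ^ 2 + 5)) := s3
  have s8 : Stk.hc P D (fun ω => (A ω, Z ω)) ≤ Real.log (343 * ((50 * C ^ 4) ^ 3 * (2000 * C ^ 4) ^ 2)) +
      Real.log (max 1 (p2 ^ 2 / H)) + (P.ex (fun ω => (lvG q (f1 ω) (f2 ω) : ℝ)) +
        P.ex (fun ω => (lvG' q (f1 ω) (f2 ω) p2 H : ℝ))) * Real.log 2 := s2
  linarith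

end finite

section systems

theorem log_div_nm (S : Sys) {d : ℝ} (hd0 : 0 < d) :
    Tendsto (fun i => Real.log (d * (S.L i : ℝ) + 1) / S.nm i) (uf : Filter ℕ) (𝓝 0) := by
  have hl : 0 < Real.log 2 := Real.log_pos (by norm_num)
  have h1 : Tendsto (fun i => d * (S.L i : ℝ) + 1) (uf : Filter ℕ) atTop :=
    tendsto_atTop_add_const_right _ _ ((tendsto_natCast_atTop_atTop.comp S.Ltop).const_mul_atTop hd0)
  have h2 := (Real.tendsto_pow_log_div_mul_add_atTop (Real.log 2 / d) (-(Real.log 2 / d)) 1 (by positivity)).comp h1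
  refine h2.congr fun i => ?_
  have e : Real.log 2 / d * (d * (S.L i : ℝ) + 1) + - (Real.log 2 / d) = S.nm i := by
    unfold Sys.nm
    field_simp
    ring
  simp only [Function.comp, pow_one, e]

end systems

end Vale.Agent.P106.R.E8.H912

namespace Vale.Agent.P106.R.E8

open Filter Topology Finset Vale.Agent.P127 Vale.Agent.P127.Stk Vale.Agent.P127.U Vale.Agent.P127.U.Sys Vale.Agent.P106.R.C2
  H912

/-- **[MEET]** -/
theorem stMEET : StMEET := by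
  intro S X H m m' k₁ k₂ T₁ T₂ T₃ Z₁ Z₂ Z₃ f₁ f₂ C hBd hH hUB hk hX hT hp1 hp2
  set D : ℝ := max C 1 with hD
  have hD1 : 1 ≤ D := le_max_right _ _
  have hCD : C ≤ D := le_max_left _ _
  obtain ⟨d0, hd0⟩ := hBd
  set d : ℝ := max d0 1 with hd
  have hd1 : 1 ≤ d := le_max_right _ _
  have hl : 0 < Real.log 2 := Real.log_pos (by norm_num)
  have mle : ∀ᶠ i in (uf : Filter ℕ), (m i : ℝ) ≤ d * S.L i := by
    filter_upwards [hd0] with i h1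
    have : d0 * S.L i ≤ d * S.L i := mul_le_mul_of_nonneg_right (le_max_left _ _) (Nat.cast_nonneg _)
    linarith
  have m'le : ∀ᶠ i in (uf : Filter ℕ), (m' i : ℝ) ≤ d * S.L i := by
    filter_upwards [mle, hk] with i h1 h2
    have : (m' i : ℝ) ≤ m i := by exact_mod_cast h2.2.2.1
    linarith
  have Bd' : S.Bd m' := ⟨d, m'le⟩
  have Bdm : S.Bd m := ⟨d, mle⟩
  -- the four limits
  have u1 : UB fun i => (S.P i).ex (fun ω => (lvG (m' i - k₂ i) (f₁ i ω) (f₂ i ω) : ℝ)) / S.L i :=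
    UB.av (C1.ol_nat Bd' (G := fun i ω => lvG (m' i - k₂ i) (f₁ i ω) (f₂ i ω))
      (fun i ω => (C1.lev_le _ _).trans (Nat.sub_le _ _)))
  have u2 : UB fun i => (S.P i).ex (fun ω => (lvG' (m' i - k₂ i) (f₁ i ω) (f₂ i ω) ((1 / 2 : ℝ) ^ k₂ i) (H i) : ℝ)) / S.L i :=
    UB.av (C1.ol_nat Bd' (G := fun i ω => lvG' (m' i - k₂ i) (f₁ i ω) (f₂ i ω) ((1 / 2 : ℝ) ^ k₂ i) (H i))
      (fun i ω => (C1.lev_le _ _).trans (Nat.sub_le _ _)))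
  have u3 : UB fun i => Real.logb 2 (max 1 (((1 / 2 : ℝ) ^ k₂ i) ^ 2 / H i)) / S.L i := by
    obtain ⟨c, hc⟩ := hUB
    refine UB.of_le (C := c) ?_ ?_
    · refine Eventually.of_forall fun i => div_nonneg (Real.logb_nonneg (by norm_num) (le_max_left _ _)) (Nat.cast_nonneg _)
    · filter_upwards [hc] with i h1
      refine le_trans (div_le_div_of_nonneg_right ?_ (Nat.cast_nonneg _)) ((le_abs_self _).trans h1)
      refine Real.logb_le_logb_of_le (by norm_num) (lt_of_lt_of_le one_pos (le_max_left _ _)) ?_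
      refine max_le_max le_rfl (div_le_div_of_nonneg_right ?_ (hH i).le)
      rw [← pow_mul]
      exact pow_le_one₀ (by norm_num) (by norm_num)
  have u4 : UB fun i => (m i : ℝ) / S.L i := Apx.UB.nu Bdm
  have u5 : UB fun i => (m' i : ℝ) / S.L i := Apx.UB.nu Bd'
  have main : S.hc X (Sys.pr Z₁ (Sys.pr Z₂ Z₃)) ≤ ulim fun i =>
      ((S.P i).ex (fun ω => (lvG (m' i - k₂ i) (f₁ i ω) (f₂ i ω) : ℝ)) / S.L i +
        (S.P i).ex (fun ω => (lvG' (m' i - k₂ i) (f₁ i ω) (f₂ i ω) ((1 / 2 : ℝ) ^ k₂ i) (H i) : ℝ)) / S.L i +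
        Real.logb 2 (max 1 (((1 / 2 : ℝ) ^ k₂ i) ^ 2 / H i)) / S.L i) +
        4 * ((m i : ℝ) / S.L i - (m' i : ℝ) / S.L i) := by
    have lim : Tendsto (fun i => 2 * (Real.log (d * (S.L i : ℝ) + 1) / S.nm i) + cM D / S.nm i) (uf : Filter ℕ) (𝓝 0) := by
      have := ((log_div_nm S (d := d) (by linarith)).const_mul 2).add (S.const_div_nm (cM D))
      simpa using this
    refine ulim_le_of_sub (UB.hc hX _) (((u1.add u2).add u3).add ((u4.sub u5).const_mul 4)) lim ?_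
    filter_upwards [hp1.near, hp1.ok, hp2.near, hp2.ok, hT, hk, m'le, S.nm_pos, S.L_pos] with i a1 a2 a3 a4 a5 a6 a7 a8 a9
    have hL : (0:ℝ) < S.L i := by exact_mod_cast a9
    have key := meet_fin (S.P i) (T1 := T₁) (T2 := T₂) (T3 := T₃) (C := D) (H := H i) hD1 (hH i) a6.1 a6.2.1 a6.2.2.1 (X i)
      (Z₁ i) (Z₂ i) (Z₃ i) (f₁ i) (f₂ i) (fun ω ω' p p' e => a5 ω ω' p p' e)
      (fun ω ω' p p' e => ⟨(a1 ω ω' p p' e).2.2.1,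
        near_fin hCD (by positivity) (by positivity) (hH i).le (a1 ω ω' p p' e).2.2.2⟩)
      (fun ω ω' p p' e => ⟨(a3 ω ω' p p' e).2.2.1,
        near_fin hCD (by positivity) (by positivity) (hH i).le (a3 ω ω' p p' e).2.2.2⟩)
      (fun ω p => ok_fin hCD (by positivity) (a2 ω p)) (fun ω p => ok_fin hCD (by positivity) (a4 ω p))
    have e1 : Real.log ((m' i : ℝ) + 1) ≤ Real.log (d * (S.L i : ℝ) + 1) := by
      apply Real.log_le_log (by positivity)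
      linarith
    rw [div_le_iff₀ a8]
    have e2 : Real.log (max 1 (((1 / 2 : ℝ) ^ k₂ i) ^ 2 / H i)) =
        Real.logb 2 (max 1 (((1 / 2 : ℝ) ^ k₂ i) ^ 2 / H i)) * Real.log 2 := by
      unfold Real.logb
      field_simp
    have key' : Stk.hc (S.P i) (X i) ((Sys.pr Z₁ (Sys.pr Z₂ Z₃)) i) ≤ _ := key
    refine key'.trans ?_
    rw [e2]
    have e3 : ∀ x : ℝ, x / S.L i * S.nm i = x * Real.log 2 := by
      intro x
      unfold Sys.nm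
      field_simp
    have e4 : ∀ x : ℝ, x / S.nm i * S.nm i = x := fun x => div_mul_cancel₀ x a8.ne'
    have e5 : ∀ a b c x y u v : ℝ, ((a / S.L i + b / S.L i + c / S.L i) + 4 * (x / S.L i - y / S.L i) +
        (2 * (u / S.nm i) + v / S.nm i)) * S.nm i = (a + b + c + 4 * (x - y)) * Real.log 2 + (2 * u + v) := by
      intro a b c x y u v
      have : ((a / S.L i + b / S.L i + c / S.L i) + 4 * (x / S.L i - y / S.L i) +
        (2 * (u / S.nm i) + v / S.nm i)) * S.nm i = a / S.L i * S.nm i + b / S.L i * S.nm i + c / S.L i * S.nm i +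
        4 * (x / S.L i * S.nm i - y / S.L i * S.nm i) + (2 * (u / S.nm i * S.nm i) + v / S.nm i * S.nm i) := by ring
      rw [this, e3, e3, e3, e3, e3, e4, e4]
      ring
    rw [e5]
    linarith
  refine main.trans (le_of_eq ?_)
  rw [ulim_add ((u1.add u2).add u3) ((u4.sub u5).const_mul 4), ulim_add (u1.add u2) u3, ulim_add u1 u2,
    ulim_const_mul 4 (u4.sub u5), ulim_sub u4 u5]
  rfl

end Vale.Agent.P106.R.E8
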