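import Vale.Agent.P106.Z.Core
import Vale.Agent.P106.R.E8.MeetE
import Vale.Agent.P106.R.E8.H380.Unx
import Vale.Agent.P106.R.E8.H11.Cut2
import Vale.Agent.P106.R.H466.Rep

/-! # P106 / R / E8 : block E8 complete (helper912; MEET 912, REP 466, UNX 380, FRM 679, CUT 823 + 11, CAP 113, FIN 117) -/

set_option autoImplicit false

namespace Vale.Agent.P106.R.E8

theorem stUNX_full : StUNX := stUNX stMEET H466.stREP

theorem stE8_full : S.StE8 := Vale.Agent.P106.Z.stE8

end Vale.Agent.P106.R.E8
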