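import Vale.Agent.P106.R.E8.Ray
import Vale.Agent.P106.R.E8.Core

/-! # P106 / R / E8 : pairs of rays in two boxes satisfy the hypotheses of `Core` (helper912) -/

set_option autoImplicit false

namespace Vale.Agent.P106.R.E8.H912

open Finset

/-- length of the normal -/
noncomputable def nrm (f : Fr) : ℝ := Real.sqrt (f.n 0 ^ 2 + f.n 1 ^ 2)

theorem nrm_sq (f : Fr) : nrm f ^ 2 = f.n 0 ^ 2 + f.n 1 ^ 2 := Real.sq_sqrt (by positivity)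

theorem nrm_nonneg (f : Fr) : 0 ≤ nrm f := Real.sqrt_nonneg _

theorem _root_.Vale.Agent.P106.R.E8.OkF.nrm_pos912 {C : ℝ} {f : Fr} {u1 u2 r H : ℝ} (hC : 1 ≤ C) (h : OkF C f u1 u2 r H) :
    0 < nrm f ∧ 1 ≤ C * nrm f ∧ nrm f ≤ C := by
  obtain ⟨h1, h2, -⟩ := h
  rw [← nrm_sq] at h1 h2
  have h0 := nrm_nonneg f
  have hp : 0 < nrm f := by
    rcases h0.eq_or_lt with h3 | h3
    · rw [← h3] at h1
      norm_num at h1
    · exact h3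
  refine ⟨hp, ?_, ?_⟩
  · by_contra hcon
    push Not at hcon
    have h4 : C * nrm f ^ 2 < nrm f := by nlinarith
    have h5 : nrm f < 1 := by nlinarith
    linarith
  · by_contra hcon
    push Not at hcon
    nlinarith

/-- hypotheses on a pair of frames and a pair of rays -/
structure Pair (C : ℝ) (f1 f2 : Fr) (ε0 p2 H : ℝ) (l l' : Ry) : Prop where
  hC : 1 ≤ C
  ε : 0 < ε0
  p : 0 < p2
  H0 : 0 < H
  n1 : 0 < nrm f1 ∧ 1 ≤ C * nrm f1 ∧ nrm f1 ≤ C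
  n2 : 0 < nrm f2 ∧ 1 ≤ C * nrm f2 ∧ nrm f2 ≤ C
  κ1 : |f1.κ| * p2 ≤ C
  α1 : |f1.α| * p2 ≤ C
  κ2 : |f2.κ| * p2 ≤ C
  α2 : |f2.α| * p2 ≤ C
  κ1H : |f1.κ| * H ≤ C * ε0
  α1H : |f1.α| * H ≤ C * ε0
  κ2H : |f2.κ| * H ≤ C * ε0
  α2H : |f2.α| * H ≤ C * ε0
  A1 : |GA f1 l l'| ≤ C * ε0
  B1 : |GB f1 l l'| ≤ C * ε0
  A2 : |GA f2 l l'| ≤ C * ε0
  B2 : |GB f2 l l'| ≤ C * ε0

/-- reduced width -/
noncomputable def ph (C p2 : ℝ) : ℝ := p2 / (2000 * C ^ 2)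

/-- `|lam|` -/
theorem lamD_eq (f1 f2 : Fr) : lamD f1 f2 = (f1.n 0 * f2.n 0 + f1.n 1 * f2.n 1) / nrm f2 ^ 2 := by
  rw [nrm_sq]; rfl

theorem dot_le (f1 f2 : Fr) : |f1.n 0 * f2.n 0 + f1.n 1 * f2.n 1| ≤ nrm f1 * nrm f2 := by
  refine abs_le_of_sq_le_sq ?_ (mul_nonneg (nrm_nonneg _) (nrm_nonneg _))
  rw [mul_pow, nrm_sq, nrm_sq]
  nlinarith [sq_nonneg (f1.n 0 * f2.n 1 - f1.n 1 * f2.n 0)]

theorem crs_le (f1 f2 : Fr) : |crs f1.n f2.n| ≤ nrm f1 * nrm f2 := by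
  refine abs_le_of_sq_le_sq ?_ (mul_nonneg (nrm_nonneg _) (nrm_nonneg _))
  rw [mul_pow, nrm_sq, nrm_sq]
  unfold crs
  nlinarith [sq_nonneg (f1.n 0 * f2.n 0 + f1.n 1 * f2.n 1)]

section pair

variable {C : ℝ} {f1 f2 : Fr} {ε0 p2 H : ℝ} {l l' : Ry}

/-- the frame `f1 - lam f2`, scaled -/
noncomputable def fD (f1 f2 : Fr) : Fr := (f1.ad f2 (-lamD f1 f2)).sm (1 / nrm f1)

theorem fD_κ (f1 f2 : Fr) : (fD f1 f2).κ = (f1.κ - lamD f1 f2 * f2.κ) / nrm f1 := by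
  simp [fD]; ring

theorem fD_α (f1 f2 : Fr) : (fD f1 f2).α = (f1.α - lamD f1 f2 * f2.α) / nrm f1 := by
  simp [fD]; ring

/-- the normalised cross product -/
noncomputable def eh (f1 f2 : Fr) : ℝ := crs f1.n f2.n / (nrm f1 * nrm f2)

/-- the normalised size of the curvatures -/
noncomputable def Mh (f1 f2 : Fr) : ℝ := MD f1 f2 / nrm f1

theorem fD_n (h1 : 0 < nrm f1) (h2 : 0 < nrm f2) :
    (fD f1 f2).n 0 = eh f1 f2 * (f2.n 1 / nrm f2) ∧ (fD f1 f2).n 1 = -(eh f1 f2 * (f2.n 0 / nrm f2)) := by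
  have e2 := nrm_sq f2
  constructor
  · simp only [fD, sm_n, ad_n, eh, crs, lamD_eq]
    field_simp
    rw [e2]
    ring
  · simp only [fD, sm_n, ad_n, eh, crs, lamD_eq]
    field_simp
    rw [e2]
    ring

theorem abs_div_nrm {C x y : ℝ} {f : Fr} (hC : 1 ≤ C) (h : 0 < nrm f ∧ 1 ≤ C * nrm f ∧ nrm f ≤ C) (hx : |x| ≤ C * y) :
    |x / nrm f| ≤ C ^ 2 * y := by
  rw [abs_div, abs_of_pos h.1, div_le_iff₀ h.1]
  have hy : 0 ≤ y := by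
    by_contra hcon
    push Not at hcon
    have := (abs_nonneg x).trans hx
    nlinarith
  calc |x| ≤ C * y * 1 := by rw [mul_one]; exact hx
    _ ≤ C * y * (C * nrm f) := mul_le_mul_of_nonneg_left h.2.1 (by positivity)
    _ = _ := by ring

theorem div_nrm_mul {C x y z : ℝ} {f : Fr} (hC : 1 ≤ C) (h : 0 < nrm f ∧ 1 ≤ C * nrm f ∧ nrm f ≤ C) (hz : |x| * y ≤ C * z)
    (hz0 : 0 ≤ z) (hy : 0 ≤ y) : |x / nrm f| * y ≤ C ^ 2 * z := by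
  rw [abs_div, abs_of_pos h.1, div_mul_eq_mul_div, div_le_iff₀ h.1]
  calc |x| * y ≤ C * z * 1 := by rw [mul_one]; exact hz
    _ ≤ C * z * (C * nrm f) := mul_le_mul_of_nonneg_left h.2.1 (by positivity)
    _ = _ := by ring

theorem lam_bd (hC : 1 ≤ C) (n1 : 0 < nrm f1 ∧ 1 ≤ C * nrm f1 ∧ nrm f1 ≤ C) (n2 : 0 < nrm f2 ∧ 1 ≤ C * nrm f2 ∧ nrm f2 ≤ C)
    (x : ℝ) : |lamD f1 f2 * x / nrm f1| ≤ |x / nrm f2| := by
  rw [abs_div, abs_div, abs_mul, abs_of_pos n1.1, abs_of_pos n2.1, lamD_eq, abs_div,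
    abs_of_pos (by have := n2.1; positivity : 0 < nrm f2 ^ 2)]
  have h1 := dot_le f1 f2
  have p1 := n1.1
  have p2 := n2.1
  rw [div_le_div_iff₀ p1 p2]
  have h2 : |f1.n 0 * f2.n 0 + f1.n 1 * f2.n 1| / nrm f2 ^ 2 ≤ nrm f1 / nrm f2 := by
    rw [div_le_div_iff₀ (by positivity) p2]
    calc |f1.n 0 * f2.n 0 + f1.n 1 * f2.n 1| * nrm f2 ≤ nrm f1 * nrm f2 * nrm f2 :=
          mul_le_mul_of_nonneg_right h1 p2.le
      _ = _ := by ring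
  calc |f1.n 0 * f2.n 0 + f1.n 1 * f2.n 1| / nrm f2 ^ 2 * |x| * nrm f2 ≤ nrm f1 / nrm f2 * |x| * nrm f2 := by
        gcongr
    _ = |x| * nrm f1 := by field_simp

/-- the hypotheses of `Core` -/
theorem Pair.pr (h : Pair C f1 f2 ε0 p2 H l l') (hx : ∀ k, |l'.y k - l.y k| ≤ ph C p2) (hy : ∀ k, |l'.s k - l.s k| ≤ ph C p2)
    (hε : C ^ 2 * ε0 ≤ ph C p2) :
    Pr (f2.n 0 / nrm f2) (f2.n 1 / nrm f2) (eh f1 f2) (f2.κ / nrm f2) (f2.α / nrm f2) (fD f1 f2).κ (fD f1 f2).α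
      (l'.y 0 - l.y 0) (l'.y 1 - l.y 1) (l'.s 0 - l.s 0) (l'.s 1 - l.s 1) (dc l l') (C ^ 2 * ε0) (ph C p2) (Mh f1 f2) := by
  have hC := h.hC
  have C0 : 0 < C := by linarith
  have p1 := h.n1.1
  have p2' := h.n2.1
  have hp := h.p
  have ph0 : 0 < ph C p2 := by unfold ph; positivity
  have e2 := nrm_sq f2
  have k2 : |f2.κ / nrm f2| * p2 ≤ C ^ 2 * 1 := div_nrm_mul hC h.n2 (by rw [mul_one]; exact h.κ2) (by norm_num) hp.le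
  have a2 : |f2.α / nrm f2| * p2 ≤ C ^ 2 * 1 := div_nrm_mul hC h.n2 (by rw [mul_one]; exact h.α2) (by norm_num) hp.le
  have k1 : |f1.κ / nrm f1| * p2 ≤ C ^ 2 * 1 := div_nrm_mul hC h.n1 (by rw [mul_one]; exact h.κ1) (by norm_num) hp.le
  have a1 : |f1.α / nrm f1| * p2 ≤ C ^ 2 * 1 := div_nrm_mul hC h.n1 (by rw [mul_one]; exact h.α1) (by norm_num) hp.le
  have scale : ∀ x : ℝ, x * p2 ≤ C ^ 2 * 1 → x * ph C p2 ≤ 1 / 2000 := by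
    intro x hx
    have e : x * ph C p2 = x * p2 / (2000 * C ^ 2) := by unfold ph; ring
    rw [e, div_le_div_iff₀ (by positivity) (by norm_num)]
    nlinarith
  have hkD : |(fD f1 f2).κ| ≤ |f1.κ / nrm f1| + |f2.κ / nrm f2| := by
    rw [fD_κ, sub_div]
    exact (abs_sub _ _).trans (add_le_add_right (lam_bd hC h.n1 h.n2 _) _)
  have haD : |(fD f1 f2).α| ≤ |f1.α / nrm f1| + |f2.α / nrm f2| := by
    rw [fD_α, sub_div]
    exact (abs_sub _ _).trans (add_le_add_right (lam_bd hC h.n1 h.n2 _) _)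
  have hM1 : |(fD f1 f2).κ| ≤ Mh f1 f2 := by
    rw [fD_κ, abs_div, abs_of_pos p1]
    exact div_le_div_of_nonneg_right (le_max_left _ _) p1.le
  have hM2 : |(fD f1 f2).α| ≤ Mh f1 f2 := by
    rw [fD_α, abs_div, abs_of_pos p1]
    exact div_le_div_of_nonneg_right (le_max_right _ _) p1.le
  have hM0 : 0 ≤ Mh f1 f2 := (abs_nonneg _).trans hM1
  have hMp : Mh f1 f2 * ph C p2 ≤ 1 / 1000 := by
    have h1 : Mh f1 f2 = max |(fD f1 f2).κ| |(fD f1 f2).α| := by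
      unfold Mh MD
      rw [fD_κ, fD_α, abs_div, abs_div, abs_of_pos p1, max_div_div_right p1.le]
    rw [h1]
    rcases max_choice |(fD f1 f2).κ| |(fD f1 f2).α| with h2 | h2
    · rw [h2]
      have := mul_le_mul_of_nonneg_right hkD ph0.le
      linarith [scale _ k2, scale _ k1]
    · rw [h2]
      have := mul_le_mul_of_nonneg_right haD ph0.le
      linarith [scale _ a2, scale _ a1]
  have gA2 : |GA f2 l l' / nrm f2| ≤ C ^ 2 * ε0 := abs_div_nrm hC h.n2 h.A2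
  have gB2 : |GB f2 l l' / nrm f2| ≤ C ^ 2 * ε0 := abs_div_nrm hC h.n2 h.B2
  have gA1 : |GA f1 l l' / nrm f1| ≤ C ^ 2 * ε0 := abs_div_nrm hC h.n1 h.A1
  have gB1 : |GB f1 l l' / nrm f1| ≤ C ^ 2 * ε0 := abs_div_nrm hC h.n1 h.B1
  obtain ⟨nD0, nD1⟩ := fD_n p1 p2'
  refine ⟨?_, ?_, ph0, by have := h.ε; positivity, hε, scale _ k2, scale _ a2, hM0, hMp, hM1, hM2, hx 0, hx 1, hy 0, hy 1,
    ?_, ?_, ?_, ?_⟩
  · rw [div_pow, div_pow, ← add_div, e2, div_self]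
    rw [← e2]
    positivity
  · unfold eh
    rw [abs_div, abs_of_pos (mul_pos p1 p2')]
    exact div_le_one_of_le₀ (crs_le f1 f2) (by positivity)
  · have e : f2.n 0 / nrm f2 * (l'.y 0 - l.y 0) + f2.n 1 / nrm f2 * (l'.y 1 - l.y 1) + f2.κ / nrm f2 * dc l l' -
        f2.α / nrm f2 * ((l'.y 0 - l.y 0) ^ 2 + (l'.y 1 - l.y 1) ^ 2) = GA f2 l l' / nrm f2 := by
      simp only [GA, Fin.sum_univ_two]
      ring
    rw [e]
    exact gA2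
  · have e : f2.n 0 / nrm f2 * (l'.s 0 - l.s 0) + f2.n 1 / nrm f2 * (l'.s 1 - l.s 1) +
        f2.κ / nrm f2 * ((l'.s 0 - l.s 0) ^ 2 + (l'.s 1 - l.s 1) ^ 2) / 2 + 2 * (f2.α / nrm f2) *
        (dc l l' - ((l'.y 0 - l.y 0) * (l'.s 0 - l.s 0) + (l'.y 1 - l.y 1) * (l'.s 1 - l.s 1))) = GB f2 l l' / nrm f2 := by
      simp only [GB, Fin.sum_univ_two]
      ring
    rw [e]
    exact gB2
  · have e : eh f1 f2 * (f2.n 1 / nrm f2) * (l'.y 0 - l.y 0) - eh f1 f2 * (f2.n 0 / nrm f2) * (l'.y 1 - l.y 1) +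
        (fD f1 f2).κ * dc l l' - (fD f1 f2).α * ((l'.y 0 - l.y 0) ^ 2 + (l'.y 1 - l.y 1) ^ 2) = GA (fD f1 f2) l l' := by
      simp only [GA, Fin.sum_univ_two]
      rw [nD0, nD1]
      ring
    rw [e]
    have e3 : GA (fD f1 f2) l l' = GA f1 l l' / nrm f1 - lamD f1 f2 * GA f2 l l' / nrm f1 := by
      unfold fD
      rw [GA_sm, GA_ad]
      ring
    rw [e3]
    have := lam_bd hC h.n1 h.n2 (GA f2 l l')
    have h4 := abs_sub (GA f1 l l' / nrm f1) (lamD f1 f2 * GA f2 l l' / nrm f1)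
    linarith
  · have e : eh f1 f2 * (f2.n 1 / nrm f2) * (l'.s 0 - l.s 0) - eh f1 f2 * (f2.n 0 / nrm f2) * (l'.s 1 - l.s 1) +
        (fD f1 f2).κ * ((l'.s 0 - l.s 0) ^ 2 + (l'.s 1 - l.s 1) ^ 2) / 2 + 2 * (fD f1 f2).α *
        (dc l l' - ((l'.y 0 - l.y 0) * (l'.s 0 - l.s 0) + (l'.y 1 - l.y 1) * (l'.s 1 - l.s 1))) = GB (fD f1 f2) l l' := by
      simp only [GB, Fin.sum_univ_two]
      rw [nD0, nD1]
      ring
    rw [e]
    have e3 : GB (fD f1 f2) l l' = GB f1 l l' / nrm f1 - lamD f1 f2 * GB f2 l l' / nrm f1 := by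
      unfold fD
      rw [GB_sm, GB_ad]
      ring
    rw [e3]
    have := lam_bd hC h.n1 h.n2 (GB f2 l l')
    have h4 := abs_sub (GB f1 l l' / nrm f1) (lamD f1 f2 * GB f2 l l' / nrm f1)
    linarith

/-- the sign condition -/
theorem sign_eq (h1 : 0 < nrm f1) (h2 : 0 < nrm f2)
    (hs : 0 ≤ crs f1.n f2.n * crs (f1.tr l l').n (f2.tr l l').n) :
    0 ≤ eh f1 f2 * ((eh f1 f2 * (f2.n 1 / nrm f2) + (fD f1 f2).κ * (l'.s 0 - l.s 0) - 2 * (fD f1 f2).α * (l'.y 0 - l.y 0)) *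
        (f2.n 1 / nrm f2 + f2.κ / nrm f2 * (l'.s 1 - l.s 1) - 2 * (f2.α / nrm f2) * (l'.y 1 - l.y 1)) -
      (-(eh f1 f2 * (f2.n 0 / nrm f2)) + (fD f1 f2).κ * (l'.s 1 - l.s 1) - 2 * (fD f1 f2).α * (l'.y 1 - l.y 1)) *
        (f2.n 0 / nrm f2 + f2.κ / nrm f2 * (l'.s 0 - l.s 0) - 2 * (f2.α / nrm f2) * (l'.y 0 - l.y 0))) := by
  obtain ⟨nD0, nD1⟩ := fD_n h1 h2
  rw [← nD0, ← nD1]
  have e0 : ((fD f1 f2).n 0 + (fD f1 f2).κ * (l'.s 0 - l.s 0) - 2 * (fD f1 f2).α * (l'.y 0 - l.y 0)) *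
        (f2.n 1 / nrm f2 + f2.κ / nrm f2 * (l'.s 1 - l.s 1) - 2 * (f2.α / nrm f2) * (l'.y 1 - l.y 1)) -
      ((fD f1 f2).n 1 + (fD f1 f2).κ * (l'.s 1 - l.s 1) - 2 * (fD f1 f2).α * (l'.y 1 - l.y 1)) *
        (f2.n 0 / nrm f2 + f2.κ / nrm f2 * (l'.s 0 - l.s 0) - 2 * (f2.α / nrm f2) * (l'.y 0 - l.y 0)) =
      crs (f1.tr l l').n (f2.tr l l').n / (nrm f1 * nrm f2) := by
    simp only [fD, sm_n, sm_κ, sm_α, ad_n, ad_κ, ad_α, crs, tr_n]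
    field_simp
    ring
  rw [e0]
  unfold eh
  rw [div_mul_div_comm]
  have : 0 < nrm f1 * nrm f2 := mul_pos h1 h2
  positivity

end pair

end Vale.Agent.P106.R.E8.H912
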