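import Vale.Agent.P106.R.E8.MeetA

/-! # P106 / R / E8 : digits of a ray in the intersection of two boxes, pair estimates (helper912) -/

set_option autoImplicit false

namespace Vale.Agent.P106.R.E8.H912

open Finset Vale.Agent.P127.U

/-- rounded slope -/
noncomputable def rs (p : ℝ) (l : Ry) (k : Fin 2) : ℝ := p * (⌊l.s k / p⌋ : ℝ)

/-- normalised adapted coordinate with respect to the rounded slope -/
noncomputable def rc (p H : ℝ) (l : Ry) : ℝ := (l.U - ∑ k, rs p l k * l.y k) / H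

theorem rs_close {p : ℝ} (hp : 0 < p) (l : Ry) (k : Fin 2) : |l.s k - rs p l k| ≤ p := by
  unfold rs
  have h1 := Int.floor_le (l.s k / p)
  have h2 := Int.lt_floor_add_one (l.s k / p)
  have e : l.s k - p * (⌊l.s k / p⌋ : ℝ) = p * (l.s k / p - ⌊l.s k / p⌋) := by
    field_simp
  rw [e, abs_mul, abs_of_pos hp]
  have h3 : |l.s k / p - ⌊l.s k / p⌋| ≤ 1 := by
    rw [abs_le]; constructor <;> linarith
  calc p * |l.s k / p - ⌊l.s k / p⌋| ≤ p * 1 := mul_le_mul_of_nonneg_left h3 hp.le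
    _ = p := mul_one p

theorem floor_close {x y : ℝ} (h : ⌊x⌋ = ⌊y⌋) : |y - x| ≤ 1 := by
  have h1 := Int.floor_le x
  have h2 := Int.lt_floor_add_one x
  have h3 := Int.floor_le y
  have h4 := Int.lt_floor_add_one y
  rw [h] at h1 h2
  rw [abs_le]; constructor <;> linarith

theorem cell_close {p x y : ℝ} (hp : 0 < p) (h : ⌊x / p⌋ = ⌊y / p⌋) : |y - x| ≤ p := by
  have h1 := floor_close h
  have e : y - x = p * (y / p - x / p) := by field_simp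
  rw [e, abs_mul, abs_of_pos hp]
  calc p * |y / p - x / p| ≤ p * 1 := mul_le_mul_of_nonneg_left h1 hp.le
    _ = p := mul_one p

/-- `rc` and the adapted coordinate -/
theorem rc_sub {p H : ℝ} (hp : 0 < p) (hH : 0 < H) {l l' : Ry} (hs : ∀ k, ⌊l.s k / p⌋ = ⌊l'.s k / p⌋) :
    |rc p H l' - rc p H l| ≤ (|dc l l'| + p * (|l'.y 0 - l.y 0| + |l'.y 1 - l.y 1|)) / H ∧
      |dc l l'| ≤ H * |rc p H l' - rc p H l| + p * (|l'.y 0 - l.y 0| + |l'.y 1 - l.y 1|) := by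
  have e0 : ∀ k, rs p l' k = rs p l k := fun k => by unfold rs; rw [hs k]
  have e1 : H * (rc p H l' - rc p H l) = dc l l' + ∑ k, (l.s k - rs p l k) * (l'.y k - l.y k) := by
    unfold rc
    simp only [dc, Fin.sum_univ_two, e0]
    field_simp
    ring
  have e2 : |∑ k, (l.s k - rs p l k) * (l'.y k - l.y k)| ≤ p * (|l'.y 0 - l.y 0| + |l'.y 1 - l.y 1|) := by
    rw [Fin.sum_univ_two]
    refine (abs_add_le _ _).trans ?_
    rw [abs_mul, abs_mul]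
    have h1 := mul_le_mul_of_nonneg_right (rs_close hp l 0) (abs_nonneg (l'.y 0 - l.y 0))
    have h2 := mul_le_mul_of_nonneg_right (rs_close hp l 1) (abs_nonneg (l'.y 1 - l.y 1))
    linarith
  have e3 : H * |rc p H l' - rc p H l| = |dc l l' + ∑ k, (l.s k - rs p l k) * (l'.y k - l.y k)| := by
    rw [← e1, abs_mul, abs_of_pos hH]
  constructor
  · rw [le_div_iff₀ hH, mul_comm, e3]
    exact (abs_add_le _ _).trans (by linarith)
  · rw [e3]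
    have h4 := abs_sub (dc l l' + ∑ k, (l.s k - rs p l k) * (l'.y k - l.y k)) (∑ k, (l.s k - rs p l k) * (l'.y k - l.y k))
    rw [add_sub_cancel_right] at h4
    linarith

/-- the coordinate along the wide direction -/
noncomputable def vi (f : Fr) : Fin 2 := by
  classical
  exact if |f.n 0| ≤ |f.n 1| then 0 else 1

theorem dig_of {f : Fr} (hf : 0 < nrm f) {x : Fin 2 → ℝ} {ε : ℝ} (h : |x (vi f)| ≤ ε) :
    Dig (f.n 0 / nrm f) (f.n 1 / nrm f) (x 0) (x 1) ε := by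
  classical
  unfold Dig
  rw [abs_div, abs_div, abs_of_pos hf, div_le_div_iff_of_pos_right hf, div_le_div_iff_of_pos_right hf]
  unfold vi at h
  split_ifs at h with h1
  · exact Or.inl ⟨h1, h⟩
  · exact Or.inr ⟨(not_le.1 h1).le, h⟩

/-- the case -/
noncomputable def cs (C p2 ε0 : ℝ) (q : ℕ) (f1 f2 : Fr) (G' : ℕ) : ℕ := by
  classical
  exact if G' = q ∨ ph C p2 < C ^ 2 * ε0 then 0 else if 32 * (Mh f1 f2 * ph C p2) < |eh f1 f2| then 1 else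
    if |(fD f1 f2).κ| ≤ |(fD f1 f2).α| then 2 else 3

theorem Mh_eq {f1 f2 : Fr} (h1 : 0 < nrm f1) : Mh f1 f2 = max |(fD f1 f2).κ| |(fD f1 f2).α| := by
  unfold Mh MD
  rw [fD_κ, fD_α, abs_div, abs_div, abs_of_pos h1, max_div_div_right h1.le]

theorem ph_pos {C p2 : ℝ} (hC : 1 ≤ C) (hp : 0 < p2) : 0 < ph C p2 := by
  unfold ph
  have : 0 < C := by linarith
  positivity

theorem ph_le {C p2 : ℝ} (hC : 1 ≤ C) (hp : 0 < p2) : ph C p2 ≤ p2 := by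
  unfold ph
  have : 0 < C := by linarith
  rw [div_le_iff₀ (by positivity)]
  have h1 : (1:ℝ) ≤ 2000 * C ^ 2 := by nlinarith
  exact le_mul_of_one_le_right hp.le h1

/-- facts on a pair of rays of the same cell -/
structure Loc (C p2 ε0 H : ℝ) (f1 f2 : Fr) (l l' : Ry) : Prop where
  pair : Pair C f1 f2 ε0 p2 H l l'
  ny : ∀ k, |l'.y k - l.y k| ≤ C * p2
  ns : ∀ k, |l'.s k - l.s k| ≤ C * p2
  nc : |dc l l'| ≤ C * max (p2 ^ 2) H
  cy : ∀ k, ⌊l.y k / ph C p2⌋ = ⌊l'.y k / ph C p2⌋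
  cls : ∀ k, ⌊l.s k / ph C p2⌋ = ⌊l'.s k / ph C p2⌋
  sg : 0 ≤ crs f1.n f2.n * crs (f1.tr l l').n (f2.tr l l').n

section loc

variable {C p2 ε0 H : ℝ} {f1 f2 : Fr} {l l' : Ry} (h : Loc C p2 ε0 H f1 f2 l l')

include h

theorem Loc.pr (hε : C ^ 2 * ε0 ≤ ph C p2) :
    Pr (f2.n 0 / nrm f2) (f2.n 1 / nrm f2) (eh f1 f2) (f2.κ / nrm f2) (f2.α / nrm f2) (fD f1 f2).κ (fD f1 f2).α
      (l'.y 0 - l.y 0) (l'.y 1 - l.y 1) (l'.s 0 - l.s 0) (l'.s 1 - l.s 1) (dc l l') (C ^ 2 * ε0) (ph C p2) (Mh f1 f2) :=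
  h.pair.pr (fun k => cell_close (ph_pos h.pair.hC h.pair.p) (h.cy k))
    (fun k => cell_close (ph_pos h.pair.hC h.pair.p) (h.cls k)) hε

/-- linear case -/
theorem Loc.c1 (hε : C ^ 2 * ε0 ≤ ph C p2) (he : 32 * (Mh f1 f2 * ph C p2) ≤ |eh f1 f2|)
    (hr : |rc (ph C p2) H l' - rc (ph C p2) H l| ≤ 1) :
    |eh f1 f2| * (|l'.y 0 - l.y 0| + |l'.y 1 - l.y 1|) ≤ 43 * (C ^ 2 * ε0) ∧
      |eh f1 f2| * (|l'.s 0 - l.s 0| + |l'.s 1 - l.s 1|) ≤ 43 * (C ^ 2 * ε0) := by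
  have hC := h.pair.hC
  have hε0 := h.pair.ε
  have H0 := h.pair.H0
  have p1 := h.pair.n1.1
  have hp := ph_pos hC h.pair.p
  have e0 : 0 < C ^ 2 * ε0 := by have : 0 < C := by linarith
                                 positivity
  have k2 : |f2.κ / nrm f2| * H ≤ C ^ 2 * ε0 := div_nrm_mul hC h.pair.n2 h.pair.κ2H hε0.le H0.le
  have a2 : |f2.α / nrm f2| * H ≤ C ^ 2 * ε0 := div_nrm_mul hC h.pair.n2 h.pair.α2H hε0.le H0.le
  have k1 : |f1.κ / nrm f1| * H ≤ C ^ 2 * ε0 := div_nrm_mul hC h.pair.n1 h.pair.κ1H hε0.le H0.le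
  have a1 : |f1.α / nrm f1| * H ≤ C ^ 2 * ε0 := div_nrm_mul hC h.pair.n1 h.pair.α1H hε0.le H0.le
  have kD : |(fD f1 f2).κ| * H ≤ 2 * (C ^ 2 * ε0) := by
    have : |(fD f1 f2).κ| ≤ |f1.κ / nrm f1| + |f2.κ / nrm f2| := by
      rw [fD_κ, sub_div]
      exact (abs_sub _ _).trans (add_le_add_right (lam_bd hC h.pair.n1 h.pair.n2 _) _)
    have := mul_le_mul_of_nonneg_right this H0.le
    linarith
  have aD : |(fD f1 f2).α| * H ≤ 2 * (C ^ 2 * ε0) := by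
    have : |(fD f1 f2).α| ≤ |f1.α / nrm f1| + |f2.α / nrm f2| := by
      rw [fD_α, sub_div]
      exact (abs_sub _ _).trans (add_le_add_right (lam_bd hC h.pair.n1 h.pair.n2 _) _)
    have := mul_le_mul_of_nonneg_right this H0.le
    linarith
  have hc := (rc_sub hp H0 h.cls).2
  have hc' : |dc l l'| ≤ H + ph C p2 * (|l'.y 0 - l.y 0| + |l'.y 1 - l.y 1|) := by
    have := mul_le_mul_of_nonneg_left hr H0.le
    linarith
  obtain ⟨r1, r2⟩ := (h.pr hε).s4 he k2 a2 kD aD hc'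
  constructor <;> linarith

/-- `aD` dominant -/
theorem Loc.c2 (hε : C ^ 2 * ε0 ≤ ph C p2) (he : |eh f1 f2| ≤ 32 * (Mh f1 f2 * ph C p2)) (hM : 0 < Mh f1 f2)
    (hα : |(fD f1 f2).κ| ≤ |(fD f1 f2).α|) (hd : |l'.s (vi f2) - l.s (vi f2)| ≤ C ^ 2 * ε0) :
    |eh f1 f2| * (|l'.y 0 - l.y 0| + |l'.y 1 - l.y 1|) ≤ 43 * (C ^ 2 * ε0) ∧
      (|l'.y (vi f2) - l.y (vi f2)| ≤ C ^ 2 * ε0 →
        Mh f1 f2 * (|dc l l'| + ph C p2 * (|l'.y 0 - l.y 0| + |l'.y 1 - l.y 1|)) ≤ 4 * (C ^ 2 * ε0)) := by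
  have p1 := h.pair.n1.1
  have p2 := h.pair.n2.1
  have hε0 := h.pair.ε
  have e0 : 0 < C ^ 2 * ε0 := by
    have : 0 < C := by linarith [h.pair.hC]
    positivity
  have hM' : Mh f1 f2 ≤ |(fD f1 f2).α| := by rw [Mh_eq p1]; exact max_le hα le_rfl
  have hy : Dig (f2.n 0 / nrm f2) (f2.n 1 / nrm f2) (l'.s 0 - l.s 0) (l'.s 1 - l.s 1) (C ^ 2 * ε0) :=
    dig_of (x := fun k => l'.s k - l.s k) p2 hd
  refine ⟨?_, fun hd' => ?_⟩
  · have := ((h.pr hε).s1a he (sign_eq p1 p2 h.sg) hM hM' hy).1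
    linarith
  · have hx : Dig (f2.n 0 / nrm f2) (f2.n 1 / nrm f2) (l'.y 0 - l.y 0) (l'.y 1 - l.y 1) (C ^ 2 * ε0) :=
      dig_of (x := fun k => l'.y k - l.y k) p2 hd'
    exact (h.pr hε).s2a he hM' hx hy

/-- `kD` dominant -/
theorem Loc.c3 (hε : C ^ 2 * ε0 ≤ ph C p2) (he : |eh f1 f2| ≤ 32 * (Mh f1 f2 * ph C p2)) (hM : 0 < Mh f1 f2)
    (hα : |(fD f1 f2).α| ≤ |(fD f1 f2).κ|) (hd : |l'.y (vi f2) - l.y (vi f2)| ≤ C ^ 2 * ε0) :
    |eh f1 f2| * (|l'.s 0 - l.s 0| + |l'.s 1 - l.s 1|) ≤ 43 * (C ^ 2 * ε0) ∧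
        Mh f1 f2 * (|dc l l'| + ph C p2 * (|l'.y 0 - l.y 0| + |l'.y 1 - l.y 1|)) ≤ 4 * (C ^ 2 * ε0) := by
  have p1 := h.pair.n1.1
  have p2 := h.pair.n2.1
  have hM' : Mh f1 f2 ≤ |(fD f1 f2).κ| := by rw [Mh_eq p1]; exact max_le le_rfl hα
  have hx : Dig (f2.n 0 / nrm f2) (f2.n 1 / nrm f2) (l'.y 0 - l.y 0) (l'.y 1 - l.y 1) (C ^ 2 * ε0) :=
    dig_of (x := fun k => l'.y k - l.y k) p2 hd
  exact ⟨((h.pr hε).s1k he (sign_eq p1 p2 h.sg) hM hM' hx).2, (h.pr hε).s2k he hM' hx⟩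

/-- last stage -/
theorem Loc.fin (hd : |l'.s (vi f2) - l.s (vi f2)| ≤ C ^ 2 * ε0) (hd' : |l'.y (vi f2) - l.y (vi f2)| ≤ C ^ 2 * ε0)
    (hr : |rc (ph C p2) H l' - rc (ph C p2) H l| ≤ 1) (k : Fin 2) :
    |l'.y k - l.y k| ≤ 10 * (C ^ 2 * ε0) ∧ |l'.s k - l.s k| ≤ 10 * (C ^ 2 * ε0) := by
  have hC := h.pair.hC
  have hε0 := h.pair.ε
  have H0 := h.pair.H0
  have p1 := h.pair.n1.1
  have p2' := h.pair.n2.1
  have hp := ph_pos hC h.pair.p
  have e0 : 0 < C ^ 2 * ε0 := by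
    have : 0 < C := by linarith
    positivity
  rcases lt_or_ge (ph C p2) (C ^ 2 * ε0) with h1 | h1
  · have h2 := cell_close hp (h.cy k)
    have h3 := cell_close hp (h.cls k)
    constructor <;> linarith
  · have k2 : |f2.κ / nrm f2| * H ≤ C ^ 2 * ε0 := div_nrm_mul hC h.pair.n2 h.pair.κ2H hε0.le H0.le
    have a2 : |f2.α / nrm f2| * H ≤ C ^ 2 * ε0 := div_nrm_mul hC h.pair.n2 h.pair.α2H hε0.le H0.le
    have hy : Dig (f2.n 0 / nrm f2) (f2.n 1 / nrm f2) (l'.s 0 - l.s 0) (l'.s 1 - l.s 1) (C ^ 2 * ε0) :=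
      dig_of (x := fun k => l'.s k - l.s k) p2' hd
    have hx : Dig (f2.n 0 / nrm f2) (f2.n 1 / nrm f2) (l'.y 0 - l.y 0) (l'.y 1 - l.y 1) (C ^ 2 * ε0) :=
      dig_of (x := fun k => l'.y k - l.y k) p2' hd'
    have hc := (rc_sub hp H0 h.cls).2
    have hc' : |dc l l'| ≤ H + ph C p2 * (|l'.y 0 - l.y 0| + |l'.y 1 - l.y 1|) := by
      have := mul_le_mul_of_nonneg_left hr H0.le
      linarith
    obtain ⟨r1, r2⟩ := (h.pr h1).s3 k2 a2 hx hy hc'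
    have a0 := abs_nonneg (l'.y 0 - l.y 0)
    have a1 := abs_nonneg (l'.y 1 - l.y 1)
    have b0 := abs_nonneg (l'.s 0 - l.s 0)
    have b1 := abs_nonneg (l'.s 1 - l.s 1)
    fin_cases k
    · constructor
      · show |l'.y 0 - l.y 0| ≤ _
        linarith
      · show |l'.s 0 - l.s 0| ≤ _
        linarith
    · constructor
      · show |l'.y 1 - l.y 1| ≤ _
        linarith
      · show |l'.s 1 - l.s 1| ≤ _
        linarith

end loc

/-! ### levels -/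

theorem lev_anti {q : ℕ} {x y : ℝ} (h : x ≤ y) : C1.lev q y ≤ C1.lev q x := by
  classical
  unfold C1.lev
  exact Nat.findGreatest_mono_left (fun k hk => h.trans hk) q

/-- lower bound of the number by the level -/
theorem le_of_lev {q : ℕ} {x : ℝ} (h : C1.lev q x < q) : (1 / 2 : ℝ) ^ C1.lev q x < x := C1.lev_lt h

theorem two_pow_lev {q : ℕ} {x : ℝ} : C1.lev q x = 0 ∨ 2 ^ C1.lev q x * x ≤ 2 := by
  by_cases hx : x ≤ 2
  · right
    have h1 := C1.le_lev (n := q) hx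
    have h2 : (2:ℝ) ^ C1.lev q x * (1 / 2) ^ C1.lev q x = 1 := by rw [← mul_pow]; norm_num
    have h3 := mul_le_mul_of_nonneg_left h1 (by positivity : (0:ℝ) ≤ 2 ^ C1.lev q x)
    calc 2 ^ C1.lev q x * x ≤ 2 ^ C1.lev q x * (2 * (1 / 2) ^ C1.lev q x) := h3
      _ = 2 * (2 ^ C1.lev q x * (1 / 2) ^ C1.lev q x) := by ring
      _ = 2 := by rw [h2]; ring
  · left
    by_contra hcon
    have h1 := Nat.findGreatest_of_ne_zero (P := fun k => x ≤ 2 * (1 / 2 : ℝ) ^ k) (n := q) (m := C1.lev q x) rfl hcon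
    have h2 : (2:ℝ) * (1 / 2) ^ C1.lev q x ≤ 2 := by
      have : (1 / 2 : ℝ) ^ C1.lev q x ≤ 1 := pow_le_one₀ (by norm_num) (by norm_num)
      linarith
    exact hx (h1.trans h2)

end Vale.Agent.P106.R.E8.H912
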