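import Vale.Agent.P106.R.E8.MeetB
import Vale.Agent.P106.R.E8.Defs
import Vale.Agent.P127.U.PLa

/-! # P106 / R / E8 : number of pieces in the intersection of two boxes, finite form (helper912) -/

set_option autoImplicit false

namespace Vale.Agent.P106.R.E8.H912

open Finset Vale.Agent.P127 Vale.Agent.P127.Stk Vale.Agent.P127.U

/-- numbers attached to a pair of frames -/
structure Nb (C : ℝ) (q : ℕ) (p2 ε0 H : ℝ) (f1 f2 : Fr) : Prop where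
  hC : 1 ≤ C
  ε : 0 < ε0
  pε : p2 = 2 ^ q * ε0
  H0 : 0 < H
  n1 : 0 < nrm f1 ∧ 1 ≤ C * nrm f1 ∧ nrm f1 ≤ C
  n2 : 0 < nrm f2 ∧ 1 ≤ C * nrm f2 ∧ nrm f2 ≤ C
  κ1H : |f1.κ| * H ≤ C * ε0
  α1H : |f1.α| * H ≤ C * ε0
  κ2H : |f2.κ| * H ≤ C * ε0
  α2H : |f2.α| * H ≤ C * ε0

section nb

variable {C : ℝ} {q : ℕ} {p2 ε0 H : ℝ} {f1 f2 : Fr} (h : Nb C q p2 ε0 H f1 f2)

include h

theorem Nb.p0 : 0 < p2 := by
  have := h.ε
  rw [h.pε]
  positivity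

theorem Nb.C0 : 0 < C := by linarith [h.hC]

/-- size of the curvatures -/
theorem Nb.MH : Mh f1 f2 * H ≤ 2 * (C ^ 2 * ε0) := by
  have hC := h.hC
  have p1 := h.n1.1
  have H0 := h.H0
  have k2 : |f2.κ / nrm f2| * H ≤ C ^ 2 * ε0 := div_nrm_mul hC h.n2 h.κ2H h.ε.le H0.le
  have a2 : |f2.α / nrm f2| * H ≤ C ^ 2 * ε0 := div_nrm_mul hC h.n2 h.α2H h.ε.le H0.le
  have k1 : |f1.κ / nrm f1| * H ≤ C ^ 2 * ε0 := div_nrm_mul hC h.n1 h.κ1H h.ε.le H0.le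
  have a1 : |f1.α / nrm f1| * H ≤ C ^ 2 * ε0 := div_nrm_mul hC h.n1 h.α1H h.ε.le H0.le
  rw [Mh_eq p1]
  have hkD : |(fD f1 f2).κ| ≤ |f1.κ / nrm f1| + |f2.κ / nrm f2| := by
    rw [fD_κ, sub_div]
    exact (abs_sub _ _).trans (add_le_add_right (lam_bd hC h.n1 h.n2 _) _)
  have haD : |(fD f1 f2).α| ≤ |f1.α / nrm f1| + |f2.α / nrm f2| := by
    rw [fD_α, sub_div]
    exact (abs_sub _ _).trans (add_le_add_right (lam_bd hC h.n1 h.n2 _) _)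
  rcases max_choice |(fD f1 f2).κ| |(fD f1 f2).α| with h2 | h2
  · rw [h2]
    have := mul_le_mul_of_nonneg_right hkD H0.le
    linarith
  · rw [h2]
    have := mul_le_mul_of_nonneg_right haD H0.le
    linarith

/-- `MD = Mh * nrm f1` -/
theorem Nb.MD_eq : MD f1 f2 = Mh f1 f2 * nrm f1 := by
  have := h.n1.1
  unfold Mh
  field_simp

omit h in
theorem MD0 : 0 ≤ MD f1 f2 := (abs_nonneg _).trans (le_max_left _ _)

theorem Nb.Mh0 : 0 ≤ Mh f1 f2 := div_nonneg MD0 h.n1.1.le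

/-- `max(p2^2, H) / p2` -/
theorem Nb.mx_eq : max (p2 ^ 2) H = H * max 1 (p2 ^ 2 / H) := by
  have H0 := h.H0
  rw [mul_max_of_nonneg _ _ H0.le, mul_one, mul_div_cancel₀ _ H0.ne', max_comm]

theorem Nb.crs_eq : |crs f1.n f2.n| = |eh f1 f2| * (nrm f1 * nrm f2) := by
  have a := h.n1.1
  have b := h.n2.1
  unfold eh
  rw [abs_div, abs_of_pos (mul_pos a b)]
  field_simp

theorem Nb.crs_le_eh : |crs f1.n f2.n| ≤ C ^ 2 * |eh f1 f2| := by
  rw [h.crs_eq]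
  have h1 : nrm f1 * nrm f2 ≤ C ^ 2 := by
    rw [sq]
    exact mul_le_mul h.n1.2.2 h.n2.2.2 h.n2.1.le h.C0.le
  calc |eh f1 f2| * (nrm f1 * nrm f2) ≤ |eh f1 f2| * C ^ 2 := mul_le_mul_of_nonneg_left h1 (abs_nonneg _)
    _ = _ := by ring

/-- a length known through the cross product -/
theorem Nb.via {d : ℝ} (d0 : 0 ≤ d) (h1 : |eh f1 f2| * d ≤ 43 * (C ^ 2 * ε0)) (h2 : d ≤ C * p2) :
    d / ε0 ≤ 50 * C ^ 4 * 2 ^ lvG q f1 f2 := by
  have hC := h.hC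
  have C0 := h.C0
  have ε := h.ε
  rw [div_le_iff₀ ε]
  have C4 : C ≤ C ^ 4 := by
    have h1 : (1:ℝ) ≤ C ^ 3 := one_le_pow₀ hC
    have h2 : C ^ 4 = C * C ^ 3 := by ring
    rw [h2]
    exact le_mul_of_one_le_right C0.le h1
  rcases (C1.lev_le q |crs f1.n f2.n|).eq_or_lt with h3 | h3
  · have h4 : lvG q f1 f2 = q := h3
    rw [h4]
    calc d ≤ C * p2 := h2
      _ = C * (2 ^ q * ε0) := by rw [h.pε]
      _ ≤ 50 * C ^ 4 * (2 ^ q * ε0) := by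
          refine mul_le_mul_of_nonneg_right ?_ (by positivity)
          linarith
      _ = _ := by ring
  · have h4 := C1.lev_lt h3
    have h5 : (1 / 2 : ℝ) ^ lvG q f1 f2 ≤ C ^ 2 * |eh f1 f2| := (h4.le).trans h.crs_le_eh
    have h6 : (1 : ℝ) ≤ 2 ^ lvG q f1 f2 * (C ^ 2 * |eh f1 f2|) := by
      have := mul_le_mul_of_nonneg_left h5 (by positivity : (0:ℝ) ≤ 2 ^ lvG q f1 f2)
      rw [← mul_pow] at this
      norm_num at this
      exact this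
    calc d = 1 * d := (one_mul d).symm
      _ ≤ 2 ^ lvG q f1 f2 * (C ^ 2 * |eh f1 f2|) * d := mul_le_mul_of_nonneg_right h6 d0
      _ = 2 ^ lvG q f1 f2 * C ^ 2 * (|eh f1 f2| * d) := by ring
      _ ≤ 2 ^ lvG q f1 f2 * C ^ 2 * (43 * (C ^ 2 * ε0)) := mul_le_mul_of_nonneg_left h1 (by positivity)
      _ = 43 * (C ^ 4 * 2 ^ lvG q f1 f2 * ε0) := by ring
      _ ≤ 50 * (C ^ 4 * 2 ^ lvG q f1 f2 * ε0) := by
          have : 0 ≤ C ^ 4 * 2 ^ lvG q f1 f2 * ε0 := by positivity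
          linarith
      _ = _ := by ring

/-- in the curved case the curvatures are large -/
theorem Nb.big (hq : lvG' q f1 f2 p2 H ≠ q) (he : |eh f1 f2| ≤ 32 * (Mh f1 f2 * ph C p2)) :
    p2 ≤ 2 ^ lvG' q f1 f2 p2 H * (C * (Mh f1 f2 * (H * max 1 (p2 ^ 2 / H)))) := by
  have hC := h.hC
  have C0 := h.C0
  have ε := h.ε
  have p0 := h.p0
  have H0 := h.H0
  have lt : lvG' q f1 f2 p2 H < q := lt_of_le_of_ne (C1.lev_le _ _) hq
  have h1 : (1 / 2 : ℝ) ^ lvG' q f1 f2 p2 H < sD f1 f2 p2 H := C1.lev_lt lt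
  have h2 : |crs f1.n f2.n| ≤ MD f1 f2 * max (p2 ^ 2) H / p2 := by
    rw [le_div_iff₀ p0]
    have h3 : |crs f1.n f2.n| ≤ MD f1 f2 * p2 := by
      rw [h.crs_eq, h.MD_eq]
      have h4 : 32 * (Mh f1 f2 * ph C p2) * nrm f2 ≤ Mh f1 f2 * p2 := by
        unfold ph
        have e : 32 * (Mh f1 f2 * (p2 / (2000 * C ^ 2))) * nrm f2 = Mh f1 f2 * p2 * (32 * nrm f2 / (2000 * C ^ 2)) := by
          ring
        rw [e]
        have h5 : 32 * nrm f2 / (2000 * C ^ 2) ≤ 1 := by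
          rw [div_le_one (by positivity)]
          have := h.n2.2.2
          nlinarith
        have := mul_le_mul_of_nonneg_left h5 (mul_nonneg h.Mh0 p0.le)
        linarith
      calc |eh f1 f2| * (nrm f1 * nrm f2) ≤ 32 * (Mh f1 f2 * ph C p2) * (nrm f1 * nrm f2) :=
            mul_le_mul_of_nonneg_right he (mul_nonneg h.n1.1.le h.n2.1.le)
        _ = 32 * (Mh f1 f2 * ph C p2) * nrm f2 * nrm f1 := by ring
        _ ≤ Mh f1 f2 * p2 * nrm f1 := mul_le_mul_of_nonneg_right h4 h.n1.1.le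
        _ = _ := by ring
    calc |crs f1.n f2.n| * p2 ≤ MD f1 f2 * p2 * p2 := mul_le_mul_of_nonneg_right h3 p0.le
      _ = MD f1 f2 * p2 ^ 2 := by ring
      _ ≤ _ := mul_le_mul_of_nonneg_left (le_max_left _ _) MD0
  have h3 : sD f1 f2 p2 H = MD f1 f2 * max (p2 ^ 2) H / p2 := max_eq_right h2
  rw [h3, lt_div_iff₀ p0, h.mx_eq, h.MD_eq] at h1
  have h4 : Mh f1 f2 * nrm f1 * (H * max 1 (p2 ^ 2 / H)) ≤ C * (Mh f1 f2 * (H * max 1 (p2 ^ 2 / H))) := by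
    have h5 : 0 ≤ Mh f1 f2 * (H * max 1 (p2 ^ 2 / H)) := by
      have := h.Mh0
      positivity
    have := mul_le_mul_of_nonneg_right h.n1.2.2 h5
    linarith
  have h5 := mul_le_mul_of_nonneg_left (h1.le.trans h4) (by positivity : (0:ℝ) ≤ 2 ^ lvG' q f1 f2 p2 H)
  rw [← mul_assoc, ← mul_pow] at h5
  norm_num at h5
  exact h5

/-- in the curved case `2^q ≤ 2 C^3 2^G' mx` -/
theorem Nb.low (hq : lvG' q f1 f2 p2 H ≠ q) (he : |eh f1 f2| ≤ 32 * (Mh f1 f2 * ph C p2)) :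
    1 ≤ 50 * C ^ 4 * (2 ^ lvG' q f1 f2 p2 H * max 1 (p2 ^ 2 / H) / 2 ^ q) := by
  have hC := h.hC
  have C0 := h.C0
  have ε := h.ε
  have h1 := h.big hq he
  set G' := lvG' q f1 f2 p2 H
  set mx := max 1 (p2 ^ 2 / H) with hmx
  have mx0 : 0 < mx := lt_of_lt_of_le one_pos (le_max_left _ _)
  have h2 : p2 ≤ 2 ^ G' * C * mx * (2 * (C ^ 2 * ε0)) := by
    refine h1.trans ?_
    have := mul_le_mul_of_nonneg_left h.MH (by positivity : 0 ≤ 2 ^ G' * C * mx)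
    linarith
  rw [h.pε] at h2
  have h3 : (2:ℝ) ^ q ≤ 2 ^ G' * C * mx * (2 * C ^ 2) := by
    refine le_of_mul_le_mul_right (a := ε0) ?_ ε
    linarith
  rw [mul_div_assoc', le_div_iff₀ (by positivity), one_mul]
  refine h3.trans ?_
  have C34 : 2 * C ^ 3 ≤ 50 * C ^ 4 := by
    have : C ^ 3 ≤ C ^ 4 := pow_le_pow_right₀ hC (by norm_num)
    have : 0 ≤ C ^ 4 := by positivity
    linarith
  have := mul_le_mul_of_nonneg_right C34 (by positivity : 0 ≤ 2 ^ G' * mx)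
  linarith

/-- in the curved case the adapted coordinate has few digits -/
theorem Nb.cc (hq : lvG' q f1 f2 p2 H ≠ q) (he : |eh f1 f2| ≤ 32 * (Mh f1 f2 * ph C p2)) {W : ℝ} (W0 : 0 ≤ W)
    (hW : Mh f1 f2 * W ≤ 4 * (C ^ 2 * ε0)) :
    W / H ≤ 50 * C ^ 4 * (2 ^ lvG' q f1 f2 p2 H * max 1 (p2 ^ 2 / H) / 2 ^ q) := by
  have hC := h.hC
  have C0 := h.C0
  have ε := h.ε
  have H0 := h.H0
  have h1 := h.big hq he
  set G' := lvG' q f1 f2 p2 H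
  set mx := max 1 (p2 ^ 2 / H) with hmx
  have mx0 : 0 < mx := lt_of_lt_of_le one_pos (le_max_left _ _)
  have h2 : W * p2 ≤ 2 ^ G' * C * H * mx * (4 * (C ^ 2 * ε0)) := by
    have a := mul_le_mul_of_nonneg_left h1 W0
    have b := mul_le_mul_of_nonneg_left hW (by positivity : 0 ≤ 2 ^ G' * C * H * mx)
    linarith
  rw [h.pε] at h2
  have h3 : W * 2 ^ q ≤ 2 ^ G' * C * H * mx * (4 * C ^ 2) := by
    refine le_of_mul_le_mul_right (a := ε0) ?_ ε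
    linarith
  rw [div_le_iff₀ H0, mul_div_assoc', div_mul_eq_mul_div, le_div_iff₀ (by positivity)]
  refine h3.trans ?_
  have C34 : 4 * C ^ 3 ≤ 50 * C ^ 4 := by
    have : C ^ 3 ≤ C ^ 4 := pow_le_pow_right₀ hC (by norm_num)
    have : 0 ≤ C ^ 4 := by positivity
    linarith
  have := mul_le_mul_of_nonneg_right C34 (by positivity : 0 ≤ 2 ^ G' * mx * H)
  linarith

/-- product of the numbers of values, all directions -/
theorem Nb.prod0 (hq : lvG' q f1 f2 p2 H = q ∨ ph C p2 < C ^ 2 * ε0) :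
    (2 : ℝ) ^ q * 2 ^ q ≤ (2000 * C ^ 4) ^ 2 * (2 ^ lvG q f1 f2 * 2 ^ lvG' q f1 f2 p2 H) := by
  have hC := h.hC
  have C0 := h.C0
  have ε := h.ε
  have K1 : (1:ℝ) ≤ (2000 * C ^ 4) ^ 2 := by
    refine one_le_pow₀ ?_
    have : (1:ℝ) ≤ C ^ 4 := one_le_pow₀ hC
    linarith
  rcases hq with h1 | h1
  · have h2 : lvG' q f1 f2 p2 H ≤ lvG q f1 f2 := lev_anti (le_max_left _ _)
    have h3 : lvG q f1 f2 ≤ q := C1.lev_le _ _
    have h4 : lvG q f1 f2 = q := by omega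
    rw [h1, h4]
    exact le_mul_of_one_le_left (by positivity) K1
  · have h2 : (2:ℝ) ^ q ≤ 2000 * C ^ 4 := by
      unfold ph at h1
      rw [div_lt_iff₀ (by positivity), h.pε] at h1
      refine le_of_mul_le_mul_right (a := ε0) ?_ ε
      nlinarith
    have h3 : (1:ℝ) ≤ 2 ^ lvG q f1 f2 * 2 ^ lvG' q f1 f2 p2 H := by
      rw [← pow_add]
      exact one_le_pow₀ (by norm_num)
    calc (2 : ℝ) ^ q * 2 ^ q ≤ (2000 * C ^ 4) * (2000 * C ^ 4) := mul_le_mul h2 h2 (by positivity) (by positivity)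
      _ = (2000 * C ^ 4) ^ 2 * 1 := by ring
      _ ≤ _ := mul_le_mul_of_nonneg_left h3 (by positivity)

/-- product of the numbers of values, linear case -/
theorem Nb.prod1 (hq : lvG' q f1 f2 p2 H ≠ q) (he : 32 * (Mh f1 f2 * ph C p2) < |eh f1 f2|) :
    (2 : ℝ) ^ lvG q f1 f2 ≤ (2000 * C ^ 4) ^ 2 * 2 ^ lvG' q f1 f2 p2 H := by
  have hC := h.hC
  have C0 := h.C0
  have ε := h.ε
  have p0 := h.p0
  have H0 := h.H0
  have C1' : (1:ℝ) ≤ C ^ 4 := one_le_pow₀ hC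
  have C3 : (1:ℝ) ≤ C ^ 3 := one_le_pow₀ hC
  have K1 : (1:ℝ) ≤ (2000 * C ^ 4) ^ 2 := by
    refine one_le_pow₀ ?_
    linarith
  have K2 : 128 * C ^ 3 ≤ (2000 * C ^ 4) ^ 2 := by
    have e : (2000 * C ^ 4) ^ 2 = 4000000 * (C ^ 3 * C ^ 5) := by ring
    have : (1:ℝ) ≤ C ^ 5 := one_le_pow₀ hC
    rw [e]
    have h2 : C ^ 3 ≤ C ^ 3 * C ^ 5 := le_mul_of_one_le_right (by positivity) this
    linarith
  rcases two_pow_lev (q := q) (x := |crs f1.n f2.n|) with h1 | h1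
  · have h2 : lvG q f1 f2 = 0 := h1
    rw [h2, pow_zero]
    have : (1:ℝ) ≤ 2 ^ lvG' q f1 f2 p2 H := one_le_pow₀ (by norm_num)
    nlinarith
  · have h1' : 2 ^ lvG q f1 f2 * |crs f1.n f2.n| ≤ 2 := h1
    have lt : lvG' q f1 f2 p2 H < q := lt_of_le_of_ne (C1.lev_le _ _) hq
    have h2 : (1 / 2 : ℝ) ^ lvG' q f1 f2 p2 H < sD f1 f2 p2 H := C1.lev_lt lt
    have h3 : MD f1 f2 * p2 ≤ 63 * C ^ 3 * |crs f1.n f2.n| := by
      rw [h.crs_eq, h.MD_eq]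
      have a : Mh f1 f2 * p2 ≤ 62.5 * C ^ 2 * |eh f1 f2| := by
        unfold ph at he
        rw [mul_div_assoc', mul_div_assoc', div_lt_iff₀ (by positivity)] at he
        linarith
      have b : 62.5 * C ^ 2 * |eh f1 f2| ≤ 63 * C ^ 3 * |eh f1 f2| * nrm f2 := by
        have c := h.n2.2.1
        have d := mul_le_mul_of_nonneg_left c (by positivity : 0 ≤ 62.5 * C ^ 2 * |eh f1 f2|)
        have e : 0 ≤ C ^ 3 * |eh f1 f2| * nrm f2 := by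
          have := h.n2.1
          positivity
        linarith
      have c := mul_le_mul_of_nonneg_right (a.trans b) h.n1.1.le
      linarith
    have h4 : MD f1 f2 * H / p2 ≤ 2 * C ^ 3 * (1 / 2) ^ q := by
      rw [div_le_iff₀ p0, h.pε, h.MD_eq]
      have a := mul_le_mul_of_nonneg_left h.MH h.n1.1.le
      have b := mul_le_mul_of_nonneg_right h.n1.2.2 (by positivity : 0 ≤ 2 * (C ^ 2 * ε0))
      have e : 2 * C ^ 3 * (1 / 2 : ℝ) ^ q * (2 ^ q * ε0) = 2 * C ^ 3 * ε0 * ((1 / 2) ^ q * 2 ^ q) := by ring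
      rw [e, ← mul_pow]
      norm_num
      linarith
    have h5 : 2 ^ lvG q f1 f2 * sD f1 f2 p2 H ≤ 128 * C ^ 3 := by
      have hp : (0:ℝ) ≤ 2 ^ lvG q f1 f2 := by positivity
      unfold sD
      rw [mul_max_of_nonneg _ _ hp]
      refine max_le (by linarith) ?_
      rcases max_choice (p2 ^ 2) H with h6 | h6
      · rw [h6]
        have e : MD f1 f2 * p2 ^ 2 / p2 = MD f1 f2 * p2 := by field_simp
        rw [e]
        have a := mul_le_mul_of_nonneg_left h3 hp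
        have b := mul_le_mul_of_nonneg_left h1' (by positivity : 0 ≤ 63 * C ^ 3)
        linarith
      · rw [h6]
        have a := mul_le_mul_of_nonneg_left h4 hp
        have b : (2:ℝ) ^ lvG q f1 f2 * (1 / 2) ^ q ≤ 1 := by
          have c : (2:ℝ) ^ lvG q f1 f2 ≤ 2 ^ q := pow_le_pow_right₀ (by norm_num) (C1.lev_le _ _)
          calc (2:ℝ) ^ lvG q f1 f2 * (1 / 2) ^ q ≤ 2 ^ q * (1 / 2) ^ q := mul_le_mul_of_nonneg_right c (by positivity)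
            _ = 1 := by rw [← mul_pow]; norm_num
        have c := mul_le_mul_of_nonneg_left b (by positivity : 0 ≤ 2 * C ^ 3)
        linarith
    have h6 : (2:ℝ) ^ lvG q f1 f2 * (1 / 2) ^ lvG' q f1 f2 p2 H ≤ 128 * C ^ 3 := by
      refine le_trans ?_ h5
      exact mul_le_mul_of_nonneg_left h2.le (by positivity)
    have h7 := mul_le_mul_of_nonneg_right (h6.trans K2) (by positivity : (0:ℝ) ≤ 2 ^ lvG' q f1 f2 p2 H)
    rw [mul_assoc, ← mul_pow] at h7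
    norm_num at h7
    exact h7

end nb

/-! ### the digits, in the order of the case -/

/-- `x` digit of the position, `s` of the slope, `r` of the adapted coordinate -/
noncomputable def v1 (c : ℕ) (x s r : ℝ) : ℝ := if c = 1 then r else if c = 3 then x else s

noncomputable def v2 (c : ℕ) (x s _r : ℝ) : ℝ := if c = 3 then s else x

noncomputable def v3 (c : ℕ) (_x s r : ℝ) : ℝ := if c = 1 then s else r

/-- bounds -/
noncomputable def b1 (C mx : ℝ) (q c : ℕ) : ℝ := if c = 1 then 50 * C ^ 4 * mx else 50 * C ^ 4 * 2 ^ q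

noncomputable def b2 (C : ℝ) (q c G : ℕ) : ℝ := if c = 0 then 50 * C ^ 4 * 2 ^ q else 50 * C ^ 4 * 2 ^ G

noncomputable def b3 (C mx : ℝ) (q c G G' : ℕ) : ℝ :=
  if c = 1 then 50 * C ^ 4 * 2 ^ G else if c = 0 then 50 * C ^ 4 * mx else 50 * C ^ 4 * (2 ^ G' * mx / 2 ^ q)

/-- the case is one of four -/
theorem cs_cases {C p2 ε0 H : ℝ} {q : ℕ} {f1 f2 : Fr} (h : Nb C q p2 ε0 H f1 f2) :
    (cs C p2 ε0 q f1 f2 (lvG' q f1 f2 p2 H) = 0 ∧ (lvG' q f1 f2 p2 H = q ∨ ph C p2 < C ^ 2 * ε0)) ∨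
    (cs C p2 ε0 q f1 f2 (lvG' q f1 f2 p2 H) = 1 ∧ lvG' q f1 f2 p2 H ≠ q ∧ C ^ 2 * ε0 ≤ ph C p2 ∧
      32 * (Mh f1 f2 * ph C p2) < |eh f1 f2|) ∨
    (cs C p2 ε0 q f1 f2 (lvG' q f1 f2 p2 H) = 2 ∧ lvG' q f1 f2 p2 H ≠ q ∧ C ^ 2 * ε0 ≤ ph C p2 ∧
      |eh f1 f2| ≤ 32 * (Mh f1 f2 * ph C p2) ∧ 0 < Mh f1 f2 ∧ |(fD f1 f2).κ| ≤ |(fD f1 f2).α|) ∨
    (cs C p2 ε0 q f1 f2 (lvG' q f1 f2 p2 H) = 3 ∧ lvG' q f1 f2 p2 H ≠ q ∧ C ^ 2 * ε0 ≤ ph C p2 ∧
      |eh f1 f2| ≤ 32 * (Mh f1 f2 * ph C p2) ∧ 0 < Mh f1 f2 ∧ |(fD f1 f2).α| ≤ |(fD f1 f2).κ|) := by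
  classical
  unfold cs
  by_cases h1 : lvG' q f1 f2 p2 H = q ∨ ph C p2 < C ^ 2 * ε0
  · left
    rw [if_pos h1]
    exact ⟨rfl, h1⟩
  · right
    rw [if_neg h1]
    push Not at h1
    by_cases h2 : 32 * (Mh f1 f2 * ph C p2) < |eh f1 f2|
    · left
      rw [if_pos h2]
      exact ⟨rfl, h1.1, h1.2, h2⟩
    · right
      rw [if_neg h2]
      push Not at h2
      have M0 : 0 < Mh f1 f2 := by
        rcases h.Mh0.eq_or_lt with h3 | h3
        · exfalso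
          have h4 := h.big h1.1 h2
          rw [← h3] at h4
          simp only [zero_mul, mul_zero] at h4
          linarith [h.p0]
        · exact h3
      by_cases h3 : |(fD f1 f2).κ| ≤ |(fD f1 f2).α|
      · left
        rw [if_pos h3]
        exact ⟨rfl, h1.1, h1.2, h2, M0, h3⟩
      · right
        rw [if_neg h3]
        exact ⟨rfl, h1.1, h1.2, h2, M0, (not_le.1 h3).le⟩

section stage

variable {C : ℝ} {q : ℕ} {p2 ε0 H : ℝ} {f1 f2 : Fr} {l l' : Ry} (h : Nb C q p2 ε0 H f1 f2)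
  (g : Loc C p2 ε0 H f1 f2 l l')

theorem le_K {C x : ℝ} {a : ℝ} (hC : 1 ≤ C) (ha : a ≤ 50) (hx : 0 ≤ x) (k : ℕ) (hk : k ≤ 4) :
    a * C ^ k * x ≤ 50 * C ^ 4 * x := by
  refine mul_le_mul_of_nonneg_right ?_ hx
  have h1 : C ^ k ≤ C ^ 4 := pow_le_pow_right₀ hC hk
  have h2 : 0 ≤ C ^ k := by positivity
  nlinarith

include h g in
/-- trivial bounds -/
theorem triv (v : Fin 2) : |l'.y v / ε0 - l.y v / ε0| ≤ 50 * C ^ 4 * 2 ^ q ∧
    |l'.s v / ε0 - l.s v / ε0| ≤ 50 * C ^ 4 * 2 ^ q ∧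
    |rc (ph C p2) H l' - rc (ph C p2) H l| ≤ 50 * C ^ 4 * max 1 (p2 ^ 2 / H) := by
  have hC := h.hC
  have C0 := h.C0
  have ε := h.ε
  have p0 := h.p0
  have H0 := h.H0
  have key : ∀ x y : ℝ, |x - y| ≤ C * p2 → |x / ε0 - y / ε0| ≤ 50 * C ^ 4 * 2 ^ q := by
    intro x y hxy
    rw [← sub_div, abs_div, abs_of_pos ε, div_le_iff₀ ε]
    rw [h.pε] at hxy
    have := le_K (x := 2 ^ q * ε0) (a := 1) hC (by norm_num) (by positivity) 1 (by norm_num)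
    rw [pow_one] at this
    linarith
  refine ⟨key _ _ (g.ny v), key _ _ (g.ns v), ?_⟩
  refine (rc_sub (ph_pos hC p0) H0 g.cls).1.trans ?_
  rw [div_le_iff₀ H0]
  have h1 := g.nc
  rw [h.mx_eq] at h1
  have h2 := g.ny 0
  have h3 := g.ny 1
  have h4 : ph C p2 * (|l'.y 0 - l.y 0| + |l'.y 1 - l.y 1|) ≤ p2 * (2 * (C * p2)) :=
    mul_le_mul (ph_le hC p0) (by linarith) (by positivity) p0.le
  have h5 : p2 ^ 2 ≤ H * max 1 (p2 ^ 2 / H) := by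
    rw [← h.mx_eq]
    exact le_max_left _ _
  have h6 := mul_le_mul_of_nonneg_left h5 (by positivity : 0 ≤ 2 * C)
  have h7 : 0 ≤ H * max 1 (p2 ^ 2 / H) := by positivity
  have h8 := le_K (x := H * max 1 (p2 ^ 2 / H)) (a := 3) hC (by norm_num) h7 1 (by norm_num)
  rw [pow_one] at h8
  linarith

include h in
theorem close_C {x y : ℝ} (e : ⌊x / ε0⌋ = ⌊y / ε0⌋) : |y - x| ≤ C ^ 2 * ε0 := by
  have hC := h.hC
  have ε := h.ε
  refine (cell_close ε e).trans ?_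
  have : 1 ≤ C ^ 2 := one_le_pow₀ hC
  exact le_mul_of_one_le_left ε.le this

include h in
/-- a component from the sum -/
theorem comp_via (v : Fin 2) (d : Fin 2 → ℝ) (hd : ∀ k, |d k| ≤ C * p2)
    (h1 : |eh f1 f2| * (|d 0| + |d 1|) ≤ 43 * (C ^ 2 * ε0)) : |d v| / ε0 ≤ 50 * C ^ 4 * 2 ^ lvG q f1 f2 := by
  refine h.via (abs_nonneg _) ?_ (hd v)
  refine le_trans (mul_le_mul_of_nonneg_left ?_ (abs_nonneg _)) h1
  fin_cases v
  · exact le_add_of_nonneg_right (abs_nonneg _)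
  · exact le_add_of_nonneg_left (abs_nonneg _)

include h g in
theorem stage1 (c : ℕ) :
    |v1 c (l'.y (vi f2) / ε0) (l'.s (vi f2) / ε0) (rc (ph C p2) H l') -
      v1 c (l.y (vi f2) / ε0) (l.s (vi f2) / ε0) (rc (ph C p2) H l)| ≤ b1 C (max 1 (p2 ^ 2 / H)) q c := by
  obtain ⟨t1, t2, t3⟩ := triv h g (vi f2)
  unfold v1 b1
  split_ifs
  · exact t3
  · exact t1
  · exact t2

include h g in
theorem stage2 {c : ℕ} (hc : c = cs C p2 ε0 q f1 f2 (lvG' q f1 f2 p2 H))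
    (e1 : ⌊v1 c (l.y (vi f2) / ε0) (l.s (vi f2) / ε0) (rc (ph C p2) H l)⌋ =
      ⌊v1 c (l'.y (vi f2) / ε0) (l'.s (vi f2) / ε0) (rc (ph C p2) H l')⌋) :
    |v2 c (l'.y (vi f2) / ε0) (l'.s (vi f2) / ε0) (rc (ph C p2) H l') -
      v2 c (l.y (vi f2) / ε0) (l.s (vi f2) / ε0) (rc (ph C p2) H l)| ≤ b2 C q c (lvG q f1 f2) := by
  have ε := h.ε
  obtain ⟨t1, t2, t3⟩ := triv h g (vi f2)
  rcases cs_cases h with ⟨a0, a1⟩ | ⟨a0, a1, a2, a3⟩ | ⟨a0, a1, a2, a3, a4, a5⟩ | ⟨a0, a1, a2, a3, a4, a5⟩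
  · rw [a0] at hc
    subst hc
    simp only [v2, b2, if_true, if_false, OfNat.zero_ne_ofNat]
    exact t1
  · rw [a0] at hc
    subst hc
    simp only [v1, if_true] at e1
    simp only [v2, b2, OfNat.one_ne_ofNat, one_ne_zero, if_false]
    have h1 := g.c1 a2 a3.le (floor_close e1)
    rw [← sub_div, abs_div, abs_of_pos ε]
    exact comp_via h (vi f2) (fun k => l'.y k - l.y k) g.ny h1.1
  · rw [a0] at hc
    subst hc
    simp only [v1, OfNat.ofNat_ne_one, Nat.reduceEqDiff, if_false] at e1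
    simp only [v2, b2, Nat.reduceEqDiff, OfNat.ofNat_ne_zero, if_false]
    have h1 := g.c2 a2 a3 a4 a5 (close_C h e1)
    rw [← sub_div, abs_div, abs_of_pos ε]
    exact comp_via h (vi f2) (fun k => l'.y k - l.y k) g.ny h1.1
  · rw [a0] at hc
    subst hc
    simp only [v1, OfNat.ofNat_ne_one, if_false, if_true] at e1
    simp only [v2, b2, OfNat.ofNat_ne_zero, if_false, if_true]
    have h1 := g.c3 a2 a3 a4 a5 (close_C h e1)
    rw [← sub_div, abs_div, abs_of_pos ε]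
    exact comp_via h (vi f2) (fun k => l'.s k - l.s k) g.ns h1.1

include h g in
theorem stage3 {c : ℕ} (hc : c = cs C p2 ε0 q f1 f2 (lvG' q f1 f2 p2 H))
    (e1 : ⌊v1 c (l.y (vi f2) / ε0) (l.s (vi f2) / ε0) (rc (ph C p2) H l)⌋ =
      ⌊v1 c (l'.y (vi f2) / ε0) (l'.s (vi f2) / ε0) (rc (ph C p2) H l')⌋)
    (e2 : ⌊v2 c (l.y (vi f2) / ε0) (l.s (vi f2) / ε0) (rc (ph C p2) H l)⌋ =
      ⌊v2 c (l'.y (vi f2) / ε0) (l'.s (vi f2) / ε0) (rc (ph C p2) H l')⌋) :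
    |v3 c (l'.y (vi f2) / ε0) (l'.s (vi f2) / ε0) (rc (ph C p2) H l') -
      v3 c (l.y (vi f2) / ε0) (l.s (vi f2) / ε0) (rc (ph C p2) H l)| ≤
        b3 C (max 1 (p2 ^ 2 / H)) q c (lvG q f1 f2) (lvG' q f1 f2 p2 H) := by
  have ε := h.ε
  obtain ⟨t1, t2, t3⟩ := triv h g (vi f2)
  have ph0 := ph_pos h.hC h.p0
  have W0 : 0 ≤ |dc l l'| + ph C p2 * (|l'.y 0 - l.y 0| + |l'.y 1 - l.y 1|) := by positivity
  rcases cs_cases h with ⟨a0, a1⟩ | ⟨a0, a1, a2, a3⟩ | ⟨a0, a1, a2, a3, a4, a5⟩ | ⟨a0, a1, a2, a3, a4, a5⟩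
  · rw [a0] at hc
    subst hc
    simp only [v3, b3, if_true, if_false, zero_ne_one]
    exact t3
  · rw [a0] at hc
    subst hc
    simp only [v1, if_true] at e1
    simp only [v3, b3, if_true]
    have h1 := g.c1 a2 a3.le (floor_close e1)
    rw [← sub_div, abs_div, abs_of_pos ε]
    exact comp_via h (vi f2) (fun k => l'.s k - l.s k) g.ns h1.2
  · rw [a0] at hc
    subst hc
    simp only [v1, OfNat.ofNat_ne_one, Nat.reduceEqDiff, if_false] at e1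
    simp only [v2, Nat.reduceEqDiff, if_false] at e2
    simp only [v3, b3, OfNat.ofNat_ne_one, OfNat.ofNat_ne_zero, if_false]
    have h1 := (g.c2 a2 a3 a4 a5 (close_C h e1)).2 (close_C h e2)
    exact (rc_sub ph0 h.H0 g.cls).1.trans (h.cc a1 a3 W0 h1)
  · rw [a0] at hc
    subst hc
    simp only [v1, OfNat.ofNat_ne_one, if_false, if_true] at e1
    simp only [v3, b3, OfNat.ofNat_ne_one, OfNat.ofNat_ne_zero, if_false]
    have h1 := (g.c3 a2 a3 a4 a5 (close_C h e1)).2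
    exact (rc_sub ph0 h.H0 g.cls).1.trans (h.cc a1 a3 W0 h1)

include h in
/-- the bounds are at least one, and their product -/
theorem bprod {c : ℕ} (hc : c = cs C p2 ε0 q f1 f2 (lvG' q f1 f2 p2 H)) :
    1 ≤ b1 C (max 1 (p2 ^ 2 / H)) q c ∧ 1 ≤ b2 C q c (lvG q f1 f2) ∧
      1 ≤ b3 C (max 1 (p2 ^ 2 / H)) q c (lvG q f1 f2) (lvG' q f1 f2 p2 H) ∧
      b1 C (max 1 (p2 ^ 2 / H)) q c * b2 C q c (lvG q f1 f2) *
        b3 C (max 1 (p2 ^ 2 / H)) q c (lvG q f1 f2) (lvG' q f1 f2 p2 H) ≤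
      (50 * C ^ 4) ^ 3 * (2000 * C ^ 4) ^ 2 * (2 ^ lvG q f1 f2 * 2 ^ lvG' q f1 f2 p2 H * max 1 (p2 ^ 2 / H)) := by
  have hC := h.hC
  have C0 := h.C0
  have C4 : (1:ℝ) ≤ C ^ 4 := one_le_pow₀ hC
  set mx := max 1 (p2 ^ 2 / H) with hmx
  have mx1 : 1 ≤ mx := le_max_left _ _
  have K1 : ∀ x : ℝ, 1 ≤ x → 1 ≤ 50 * C ^ 4 * x := by
    intro x hx
    nlinarith
  have P1 : ∀ n : ℕ, (1:ℝ) ≤ 2 ^ n := fun n => one_le_pow₀ (by norm_num)
  have KK : (1:ℝ) ≤ (2000 * C ^ 4) ^ 2 := by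
    refine one_le_pow₀ ?_
    linarith
  rcases cs_cases h with ⟨a0, a1⟩ | ⟨a0, a1, a2, a3⟩ | ⟨a0, a1, a2, a3, a4, a5⟩ | ⟨a0, a1, a2, a3, a4, a5⟩
  · rw [a0] at hc
    subst hc
    simp only [b1, b2, b3, if_true, if_false, zero_ne_one]
    refine ⟨K1 _ (P1 _), K1 _ (P1 _), K1 _ mx1, ?_⟩
    have h1 := h.prod0 a1
    have h2 := mul_le_mul_of_nonneg_left h1 (by positivity : 0 ≤ (50 * C ^ 4) ^ 3 * mx)
    calc 50 * C ^ 4 * 2 ^ q * (50 * C ^ 4 * 2 ^ q) * (50 * C ^ 4 * mx) = (50 * C ^ 4) ^ 3 * mx * (2 ^ q * 2 ^ q) := by ring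
      _ ≤ _ := h2
      _ = _ := by ring
  · rw [a0] at hc
    subst hc
    simp only [b1, b2, b3, if_true, if_false, one_ne_zero]
    refine ⟨K1 _ mx1, K1 _ (P1 _), K1 _ (P1 _), ?_⟩
    have h1 := h.prod1 a1 a3
    have h2 := mul_le_mul_of_nonneg_left h1 (by positivity : 0 ≤ (50 * C ^ 4) ^ 3 * mx * 2 ^ lvG q f1 f2)
    calc 50 * C ^ 4 * mx * (50 * C ^ 4 * 2 ^ lvG q f1 f2) * (50 * C ^ 4 * 2 ^ lvG q f1 f2) =
        (50 * C ^ 4) ^ 3 * mx * 2 ^ lvG q f1 f2 * 2 ^ lvG q f1 f2 := by ring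
      _ ≤ _ := h2
      _ = _ := by ring
  all_goals
    rw [a0] at hc
    subst hc
    simp only [b1, b2, b3, OfNat.ofNat_ne_one, OfNat.ofNat_ne_zero, if_false]
    refine ⟨K1 _ (P1 _), K1 _ (P1 _), h.low a1 a3, ?_⟩
    have h2 := mul_le_mul_of_nonneg_left KK
      (by positivity : 0 ≤ (50 * C ^ 4) ^ 3 * (2 ^ lvG q f1 f2 * 2 ^ lvG' q f1 f2 p2 H * mx))
    calc 50 * C ^ 4 * 2 ^ q * (50 * C ^ 4 * 2 ^ lvG q f1 f2) * (50 * C ^ 4 * (2 ^ lvG' q f1 f2 p2 H * mx / 2 ^ q)) =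
        (50 * C ^ 4) ^ 3 * (2 ^ lvG q f1 f2 * 2 ^ lvG' q f1 f2 p2 H * mx) * 1 := by
          field_simp
      _ ≤ _ := h2
      _ = _ := by ring

end stage

end Vale.Agent.P106.R.E8.H912
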