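import Vale.Agent.P106.R.E8.MeetC

/-! # P106 / R / E8 : number of pieces in the intersection of two boxes, entropy (helper912) -/

set_option autoImplicit false

namespace Vale.Agent.P106.R.E8.H912

open Finset Vale.Agent.P127 Vale.Agent.P127.Stk Vale.Agent.P127.U Vale.Agent.P106.R.C2

section finite

variable {Ω : Type} [Fintype Ω] (P : Law Ω)

/-- counting of the integer parts -/
theorem hc_floor {β : Type*} (v : Ω → ℝ) (Y : Ω → β) (B : Ω → ℝ) (hB : ∀ ω, 0 < P.w ω → 1 ≤ B ω)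
    (h : ∀ ω ω', 0 < P.w ω → 0 < P.w ω' → Y ω = Y ω' → |v ω' - v ω| ≤ B ω) :
    Stk.hc P (fun ω => ⌊v ω⌋) Y ≤ P.ex (fun ω => Real.log (7 * B ω)) := by
  have h1 := PL.hc_le_exlog P (fun ω => ⌊v ω⌋) Y (fun ω => 2 * (⌈B ω⌉₊ + 1) + 1) (fun ω hω => by
    refine ⟨Finset.Icc (⌊v ω⌋ - ((⌈B ω⌉₊ : ℤ) + 1)) (⌊v ω⌋ + ((⌈B ω⌉₊ : ℤ) + 1)), ?_, ?_⟩
    · rw [Int.card_Icc]
      omega
    · intro ω' hω' e
      have h2 := abs_le.1 (h ω ω' hω hω' e.symm)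
      have h3 := Nat.le_ceil (B ω)
      have a1 := Int.floor_le (v ω)
      have a2 := Int.lt_floor_add_one (v ω)
      have b1 := Int.floor_le (v ω')
      have b2 := Int.lt_floor_add_one (v ω')
      rw [Finset.mem_Icc]
      constructor
      · have : ((⌊v ω⌋ - ((⌈B ω⌉₊ : ℤ) + 1) : ℤ) : ℝ) ≤ (⌊v ω'⌋ : ℝ) := by
          push_cast
          linarith [h2.1]
        exact_mod_cast this
      · have : ((⌊v ω'⌋ : ℤ) : ℝ) ≤ ((⌊v ω⌋ + ((⌈B ω⌉₊ : ℤ) + 1) : ℤ) : ℝ) := by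
          push_cast
          linarith [h2.2]
        exact_mod_cast this)
  refine h1.trans (P.ex_mono fun ω hω => ?_)
  apply Real.log_le_log
  · positivity
  · push_cast
    have h3 := Nat.ceil_lt_add_one (by linarith [hB ω hω] : 0 ≤ B ω)
    linarith [hB ω hω]

/-- three digits in a row -/
theorem hc_three {β : Type*} (w1 w2 w3 : Ω → ℝ) (Y : Ω → β) (B1 B2 B3 : Ω → ℝ) (A : Ω → ℝ)
    (hB1 : ∀ ω, 0 < P.w ω → 1 ≤ B1 ω) (hB2 : ∀ ω, 0 < P.w ω → 1 ≤ B2 ω) (hB3 : ∀ ω, 0 < P.w ω → 1 ≤ B3 ω)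
    (hA : ∀ ω, 0 < P.w ω → B1 ω * B2 ω * B3 ω ≤ A ω)
    (h1 : ∀ ω ω', 0 < P.w ω → 0 < P.w ω' → Y ω = Y ω' → |w1 ω' - w1 ω| ≤ B1 ω)
    (h2 : ∀ ω ω', 0 < P.w ω → 0 < P.w ω' → Y ω = Y ω' → ⌊w1 ω⌋ = ⌊w1 ω'⌋ → |w2 ω' - w2 ω| ≤ B2 ω)
    (h3 : ∀ ω ω', 0 < P.w ω → 0 < P.w ω' → Y ω = Y ω' → ⌊w1 ω⌋ = ⌊w1 ω'⌋ → ⌊w2 ω⌋ = ⌊w2 ω'⌋ → |w3 ω' - w3 ω| ≤ B3 ω) :
    Stk.hc P (fun ω => (⌊w3 ω⌋, ⌊w2 ω⌋, ⌊w1 ω⌋)) Y ≤ P.ex fun ω => Real.log (343 * A ω) := by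
  have g1 := hc_floor P w1 Y B1 hB1 h1
  have g2 := hc_floor P w2 (fun ω => (⌊w1 ω⌋, Y ω)) B2 hB2 (fun ω ω' p p' e => by
    simp only [Prod.mk.injEq] at e
    exact h2 ω ω' p p' e.2 e.1)
  have g3 := hc_floor P w3 (fun ω => ((⌊w2 ω⌋, ⌊w1 ω⌋), Y ω)) B3 hB3 (fun ω ω' p p' e => by
    simp only [Prod.mk.injEq] at e
    exact h3 ω ω' p p' e.2 e.1.2 e.1.1)
  have e1 := Apx.hc_via P (fun ω => (⌊w3 ω⌋, ⌊w2 ω⌋, ⌊w1 ω⌋)) (fun ω => (⌊w2 ω⌋, ⌊w1 ω⌋)) Y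
  have e2 : Stk.hc P (fun ω => (⌊w3 ω⌋, ⌊w2 ω⌋, ⌊w1 ω⌋)) (fun ω => ((⌊w2 ω⌋, ⌊w1 ω⌋), Y ω)) ≤
      Stk.hc P (fun ω => ⌊w3 ω⌋) (fun ω => ((⌊w2 ω⌋, ⌊w1 ω⌋), Y ω)) := by
    refine Stk.hc_mono_left P fun ω ω' _ _ e => ?_
    simp only [Prod.mk.injEq] at e ⊢
    exact ⟨e.1, e.2.1.1, e.2.1.2⟩
  have e3 := Apx.hc_via P (fun ω => (⌊w2 ω⌋, ⌊w1 ω⌋)) (fun ω => ⌊w1 ω⌋) Y
  have e4 : Stk.hc P (fun ω => (⌊w2 ω⌋, ⌊w1 ω⌋)) (fun ω => (⌊w1 ω⌋, Y ω)) ≤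
      Stk.hc P (fun ω => ⌊w2 ω⌋) (fun ω => (⌊w1 ω⌋, Y ω)) := by
    refine Stk.hc_mono_left P fun ω ω' _ _ e => ?_
    simp only [Prod.mk.injEq] at e ⊢
    exact ⟨e.1, e.2.1⟩
  have e5 : P.ex (fun ω => Real.log (7 * B1 ω)) + P.ex (fun ω => Real.log (7 * B2 ω)) + P.ex (fun ω => Real.log (7 * B3 ω)) ≤
      P.ex fun ω => Real.log (343 * A ω) := by
    rw [← P.ex_add, ← P.ex_add]
    refine P.ex_mono fun ω hω => ?_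
    have c1 := hB1 ω hω
    have c2 := hB2 ω hω
    have c3 := hB3 ω hω
    rw [← Real.log_mul (by positivity) (by positivity), ← Real.log_mul (by positivity) (by positivity)]
    apply Real.log_le_log (by positivity)
    have := hA ω hω
    linarith
  linarith

/-- the digits determine the three numbers -/
theorem v_all {c : ℕ} {x s r x' s' r' : ℝ} (h1 : ⌊v1 c x s r⌋ = ⌊v1 c x' s' r'⌋) (h2 : ⌊v2 c x s r⌋ = ⌊v2 c x' s' r'⌋)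
    (h3 : ⌊v3 c x s r⌋ = ⌊v3 c x' s' r'⌋) : ⌊x⌋ = ⌊x'⌋ ∧ ⌊s⌋ = ⌊s'⌋ ∧ ⌊r⌋ = ⌊r'⌋ := by
  unfold v1 at h1
  unfold v2 at h2
  unfold v3 at h3
  by_cases e1 : c = 1
  · subst e1
    simp only [if_true, OfNat.one_ne_ofNat, if_false] at h1 h2 h3
    exact ⟨h2, h3, h1⟩
  · by_cases e3 : c = 3
    · subst e3
      simp only [OfNat.ofNat_ne_one, if_true, if_false] at h1 h2 h3
      exact ⟨h1, h2, h3⟩
    · simp only [e1, e3, if_false] at h1 h2 h3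
      exact ⟨h2, h1, h3⟩

/-- all digits, given the cell -/
theorem fin_digits {β : Type*} {C p2 ε0 H : ℝ} {q : ℕ} (l : Ω → Ry) (f1 f2 : Ω → Fr) (Y : Ω → β)
    (hN : ∀ ω, 0 < P.w ω → Nb C q p2 ε0 H (f1 ω) (f2 ω))
    (hL : ∀ ω ω', 0 < P.w ω → 0 < P.w ω' → Y ω = Y ω' → Loc C p2 ε0 H (f1 ω) (f2 ω) (l ω) (l ω') ∧ vi (f2 ω) = vi (f2 ω') ∧
      cs C p2 ε0 q (f1 ω) (f2 ω) (lvG' q (f1 ω) (f2 ω) p2 H) = cs C p2 ε0 q (f1 ω') (f2 ω') (lvG' q (f1 ω') (f2 ω') p2 H)) :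
    Stk.hc P (fun ω => (⌊(l ω).y (vi (f2 ω)) / ε0⌋, ⌊(l ω).s (vi (f2 ω)) / ε0⌋, ⌊rc (ph C p2) H (l ω)⌋)) Y ≤
      P.ex fun ω => Real.log (343 * ((50 * C ^ 4) ^ 3 * (2000 * C ^ 4) ^ 2 *
        (2 ^ lvG q (f1 ω) (f2 ω) * 2 ^ lvG' q (f1 ω) (f2 ω) p2 H * max 1 (p2 ^ 2 / H)))) := by
  set c : Ω → ℕ := fun ω => cs C p2 ε0 q (f1 ω) (f2 ω) (lvG' q (f1 ω) (f2 ω) p2 H) with hc
  set x : Ω → ℝ := fun ω => (l ω).y (vi (f2 ω)) / ε0 with hx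
  set s : Ω → ℝ := fun ω => (l ω).s (vi (f2 ω)) / ε0 with hs
  set r : Ω → ℝ := fun ω => rc (ph C p2) H (l ω) with hr
  have key := hc_three P (fun ω => v1 (c ω) (x ω) (s ω) (r ω)) (fun ω => v2 (c ω) (x ω) (s ω) (r ω))
    (fun ω => v3 (c ω) (x ω) (s ω) (r ω)) Y (fun ω => b1 C (max 1 (p2 ^ 2 / H)) q (c ω))
    (fun ω => b2 C q (c ω) (lvG q (f1 ω) (f2 ω)))
    (fun ω => b3 C (max 1 (p2 ^ 2 / H)) q (c ω) (lvG q (f1 ω) (f2 ω)) (lvG' q (f1 ω) (f2 ω) p2 H))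
    (fun ω => (50 * C ^ 4) ^ 3 * (2000 * C ^ 4) ^ 2 *
        (2 ^ lvG q (f1 ω) (f2 ω) * 2 ^ lvG' q (f1 ω) (f2 ω) p2 H * max 1 (p2 ^ 2 / H)))
    (fun ω hω => (bprod (hN ω hω) rfl).1) (fun ω hω => (bprod (hN ω hω) rfl).2.1)
    (fun ω hω => (bprod (hN ω hω) rfl).2.2.1) (fun ω hω => (bprod (hN ω hω) rfl).2.2.2)
    (fun ω ω' p p' e => by
      obtain ⟨g1, g2, g3⟩ := hL ω ω' p p' e
      have g3' : c ω' = c ω := g3.symm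
      have := stage1 (hN ω p) g1 (c ω)
      simp only [g3', hx, hs, hr, ← g2]
      exact this)
    (fun ω ω' p p' e e1 => by
      obtain ⟨g1, g2, g3⟩ := hL ω ω' p p' e
      have g3' : c ω' = c ω := g3.symm
      simp only [g3', hx, hs, hr, ← g2] at e1 ⊢
      exact stage2 (hN ω p) g1 rfl e1)
    (fun ω ω' p p' e e1 e2 => by
      obtain ⟨g1, g2, g3⟩ := hL ω ω' p p' e
      have g3' : c ω' = c ω := g3.symm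
      simp only [g3', hx, hs, hr, ← g2] at e1 e2 ⊢
      exact stage3 (hN ω p) g1 rfl e1 e2)
  refine le_trans (Stk.hc_mono_left P fun ω ω' p p' e => ?_) key
  simp only [Prod.mk.injEq] at e ⊢
  obtain ⟨⟨e3, e2, e1⟩, eY⟩ := e
  obtain ⟨g1, g2, g3⟩ := hL ω ω' p p' eY
  have g3' : c ω' = c ω := g3.symm
  rw [g3'] at e1 e2 e3
  exact v_all e1 e2 e3

/-- the piece is determined by its digits up to `2^(4 (m - m'))` values -/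
theorem fin_last {β : Type*} {C p2 H : ℝ} {q m m' : ℕ} (hm : m' ≤ m) (X : Ω → Nd) (f1 f2 : Ω → Fr) (Y : Ω → β)
    (hN : ∀ ω, 0 < P.w ω → Nb C q p2 ((1 / 2 : ℝ) ^ m') H (f1 ω) (f2 ω))
    (hT : ∀ ω ω', 0 < P.w ω → 0 < P.w ω' → Y ω = Y ω' → (X ω).T = (X ω').T)
    (hL : ∀ ω ω', 0 < P.w ω → 0 < P.w ω' → Y ω = Y ω' →
      Loc C p2 ((1 / 2 : ℝ) ^ m') H (f1 ω) (f2 ω) (ray m H (X ω)) (ray m H (X ω')) ∧ vi (f2 ω) = vi (f2 ω')) (hC : 1 ≤ C) :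
    Stk.hc P X (fun ω => ((⌊(ray m H (X ω)).y (vi (f2 ω)) / (1 / 2 : ℝ) ^ m'⌋, ⌊(ray m H (X ω)).s (vi (f2 ω)) / (1 / 2 : ℝ) ^ m'⌋,
      ⌊rc (ph C p2) H (ray m H (X ω))⌋), Y ω)) ≤ 4 * (((m : ℝ) - m') * Real.log 2 + Real.log (20 * C ^ 2 + 5)) := by
  set Z : Ω → (ℤ × ℤ × ℤ) × β := fun ω => ((⌊(ray m H (X ω)).y (vi (f2 ω)) / (1 / 2 : ℝ) ^ m'⌋,
    ⌊(ray m H (X ω)).s (vi (f2 ω)) / (1 / 2 : ℝ) ^ m'⌋, ⌊rc (ph C p2) H (ray m H (X ω))⌋), Y ω) with hZ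
  set V : Ω → (Fin 2 ⊕ Fin 2) → ℝ := fun ω => Sum.elim (fun k => ((X ω).o k : ℝ)) (fun k => ((X ω).τ k : ℝ)) with hV
  have two : (0:ℝ) < 2 ^ m := by positivity
  have loc : ∀ ω ω', 0 < P.w ω → 0 < P.w ω' → Z ω = Z ω' →
      Loc C p2 ((1 / 2 : ℝ) ^ m') H (f1 ω) (f2 ω) (ray m H (X ω)) (ray m H (X ω')) ∧
      ⌊(ray m H (X ω)).y (vi (f2 ω)) / (1 / 2 : ℝ) ^ m'⌋ = ⌊(ray m H (X ω')).y (vi (f2 ω)) / (1 / 2 : ℝ) ^ m'⌋ ∧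
      ⌊(ray m H (X ω)).s (vi (f2 ω)) / (1 / 2 : ℝ) ^ m'⌋ = ⌊(ray m H (X ω')).s (vi (f2 ω)) / (1 / 2 : ℝ) ^ m'⌋ ∧
      ⌊rc (ph C p2) H (ray m H (X ω))⌋ = ⌊rc (ph C p2) H (ray m H (X ω'))⌋ ∧ Y ω = Y ω' := by
    intro ω ω' p p' e
    simp only [hZ, Prod.mk.injEq] at e
    obtain ⟨⟨e1, e2, e3⟩, e4⟩ := e
    obtain ⟨g1, g2⟩ := hL ω ω' p p' e4
    rw [← g2] at e1 e2
    exact ⟨g1, e1, e2, e3, e4⟩
  have h1 := Apx.hc_fl_apx P (ι := Fin 2 ⊕ Fin 2) 0 ⌈10 * C ^ 2 * 2 ^ (m - m')⌉₊ V Z (by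
    intro ω ω' p p' e i
    obtain ⟨g1, e1, e2, e3, e4⟩ := loc ω ω' p p' e
    have hb := Loc.fin g1 (close_C (hN ω p) e2) (close_C (hN ω p) e1) (floor_close e3)
    have key : ∀ a b : ℤ, |(b : ℝ) / 2 ^ m - (a : ℝ) / 2 ^ m| ≤ 10 * (C ^ 2 * (1 / 2) ^ m') →
        |(a : ℝ) - b| ≤ (⌈10 * C ^ 2 * 2 ^ (m - m')⌉₊ : ℝ) * (1 / 2) ^ 0 := by
      intro a b hab
      rw [pow_zero, mul_one]
      refine le_trans ?_ (Nat.le_ceil _)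
      rw [← sub_div, abs_div, abs_of_pos two, div_le_iff₀ two] at hab
      rw [abs_sub_comm]
      refine hab.trans (le_of_eq ?_)
      have e5 : (2:ℝ) ^ m = 2 ^ (m - m') * 2 ^ m' := by rw [← pow_add, Nat.sub_add_cancel hm]
      have e6 : (1 / 2 : ℝ) ^ m' * 2 ^ m' = 1 := by rw [← mul_pow]; norm_num
      calc 10 * (C ^ 2 * (1 / 2 : ℝ) ^ m') * 2 ^ m = 10 * C ^ 2 * 2 ^ (m - m') * ((1 / 2 : ℝ) ^ m' * 2 ^ m') := by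
            rw [e5]; ring
        _ = _ := by rw [e6, mul_one]
    rcases i with k | k
    · exact key _ _ (hb k).1
    · exact key _ _ (hb k).2)
  have h2 : Stk.hc P X (fun ω => (fl 0 (V ω), Z ω)) = 0 := by
    refine Stk.hc_zero P fun ω ω' p p' e => ?_
    simp only [Prod.mk.injEq] at e
    obtain ⟨eV, eZ⟩ := e
    obtain ⟨g1, e1, e2, e3, e4⟩ := loc ω ω' p p' eZ
    have ho : ∀ k, (X ω).o k = (X ω').o k := by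
      intro k
      have := congrFun eV (Sum.inl k)
      simpa [fl, hV] using this
    have hτ : ∀ k, (X ω).τ k = (X ω').τ k := by
      intro k
      have := congrFun eV (Sum.inr k)
      simpa [fl, hV] using this
    have hTT := hT ω ω' p p' e4
    have hH := (hN ω p).H0
    have hw : (X ω).w = (X ω').w := by
      have e5 := Int.abs_sub_lt_one_of_floor_eq_floor e3
      have e6 : rc (ph C p2) H (ray m H (X ω)) - rc (ph C p2) H (ray m H (X ω')) = ((X ω).w : ℝ) - (X ω').w := by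
        simp only [rc, rs, ray, ho, hτ, hTT]
        field_simp
        ring
      rw [e6] at e5
      have e7 : |(X ω).w - (X ω').w| < 1 := by exact_mod_cast e5
      have := Int.abs_lt_one_iff.1 e7
      omega
    exact Nd.ext (funext hτ) (funext ho) hTT hw
  have h3 := Apx.hc_via P X (fun ω => fl 0 (V ω)) Z
  rw [h2, zero_add] at h3
  refine h3.trans (h1.trans ?_)
  have e0 : ((Fintype.card (Fin 2 ⊕ Fin 2) : ℕ) : ℝ) = 4 := by simp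
  rw [e0]
  refine mul_le_mul_of_nonneg_left ?_ (by norm_num)
  have e1 : ((m : ℝ) - m') * Real.log 2 + Real.log (20 * C ^ 2 + 5) = Real.log (2 ^ (m - m') * (20 * C ^ 2 + 5)) := by
    rw [Real.log_mul (by positivity) (by positivity), Real.log_pow, Nat.cast_sub hm]
  rw [e1]
  apply Real.log_le_log (by positivity)
  have h4 := (Nat.ceil_lt_add_one (by positivity : 0 ≤ 10 * C ^ 2 * (2:ℝ) ^ (m - m'))).le
  have h5 : (1:ℝ) ≤ 2 ^ (m - m') := one_le_pow₀ (by norm_num)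
  have h6 : 2 * (10 * C ^ 2 * 2 ^ (m - m') + 1) + 3 ≤ 2 ^ (m - m') * (20 * C ^ 2 + 5) := by linarith
  linarith

end finite

end Vale.Agent.P106.R.E8.H912
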