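import Vale.Agent.P106.R.E8.Defs

/-! # P106 / R / E8 : exact identities for rays and frames (helper912) -/

set_option autoImplicit false

namespace Vale.Agent.P106.R.E8

open Finset

@[simp] theorem tr_n (f : Fr) (l l' : Ry) (k : Fin 2) :
    (f.tr l l').n k = f.n k + f.κ * (l'.s k - l.s k) - 2 * f.α * (l'.y k - l.y k) := rfl

@[simp] theorem tr_κ (f : Fr) (l l' : Ry) : (f.tr l l').κ = f.κ := rfl

@[simp] theorem tr_α (f : Fr) (l l' : Ry) : (f.tr l l').α = f.α := rfl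

@[ext] theorem Fr.ext' {f g : Fr} (h0 : f.n 0 = g.n 0) (h1 : f.n 1 = g.n 1) (h2 : f.κ = g.κ) (h3 : f.α = g.α) : f = g := by
  obtain ⟨a, b, c⟩ := f
  obtain ⟨a', b', c'⟩ := g
  simp only at h0 h1 h2 h3
  have : a = a' := by
    funext k
    fin_cases k
    · exact h0
    · exact h1
  rw [this, h2, h3]

theorem tr_self (f : Fr) (l : Ry) : f.tr l l = f := by
  apply Fr.ext' <;> simp

/-- transport is transitive -/
theorem tr_tr (f : Fr) (l l' l'' : Ry) : (f.tr l l').tr l' l'' = f.tr l l'' := by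
  apply Fr.ext' <;> simp <;> ring

theorem dc_self (l : Ry) : dc l l = 0 := by simp [dc]

/-- the adapted coordinate is almost additive -/
theorem dc_add (l l' l'' : Ry) :
    dc l l'' = dc l l' + dc l' l'' + ∑ k, (l'.s k - l.s k) * (l''.y k - l'.y k) := by
  simp only [dc, Fin.sum_univ_two]
  ring

theorem GA_self (f : Fr) (l : Ry) : GA f l l = 0 := by simp [GA, dc_self]

theorem GB_self (f : Fr) (l : Ry) : GB f l l = 0 := by simp [GB, dc_self]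

/-- cocycle -/
theorem GA_add (f : Fr) (l l' l'' : Ry) : GA f l l'' = GA f l l' + GA (f.tr l l') l' l'' := by
  simp only [GA, dc, Fin.sum_univ_two, tr_n, tr_κ, tr_α]
  ring

theorem GB_add (f : Fr) (l l' l'' : Ry) : GB f l l'' = GB f l l' + GB (f.tr l l') l' l'' := by
  simp only [GB, dc, Fin.sum_univ_two, tr_n, tr_κ, tr_α]
  ring

/-- invariance of the norm -/
theorem tr_sq (f : Fr) (l l' : Ry) : (f.tr l l').n 0 ^ 2 + (f.tr l l').n 1 ^ 2 =
    f.n 0 ^ 2 + f.n 1 ^ 2 + 2 * (f.κ * GB f l l' - 2 * f.α * GA f l l') := by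
  simp only [GA, GB, dc, Fin.sum_univ_two, tr_n]
  ring

/-- invariance of the scalar product -/
theorem tr_dot (f g : Fr) (l l' : Ry) : (f.tr l l').n 0 * (g.tr l l').n 0 + (f.tr l l').n 1 * (g.tr l l').n 1 =
    f.n 0 * g.n 0 + f.n 1 * g.n 1 + (f.κ * GB g l l' + g.κ * GB f l l' - 2 * f.α * GA g l l' - 2 * g.α * GA f l l') := by
  simp only [GA, GB, dc, Fin.sum_univ_two, tr_n]
  ring

/-- scaling of a frame -/
noncomputable def Fr.sm (t : ℝ) (f : Fr) : Fr := ⟨fun k => t * f.n k, t * f.κ, t * f.α⟩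

/-- `f + t g` -/
noncomputable def Fr.ad (f g : Fr) (t : ℝ) : Fr := ⟨fun k => f.n k + t * g.n k, f.κ + t * g.κ, f.α + t * g.α⟩

@[simp] theorem sm_n (t : ℝ) (f : Fr) (k : Fin 2) : (f.sm t).n k = t * f.n k := rfl
@[simp] theorem sm_κ (t : ℝ) (f : Fr) : (f.sm t).κ = t * f.κ := rfl
@[simp] theorem sm_α (t : ℝ) (f : Fr) : (f.sm t).α = t * f.α := rfl
@[simp] theorem ad_n (f g : Fr) (t : ℝ) (k : Fin 2) : (f.ad g t).n k = f.n k + t * g.n k := rfl
@[simp] theorem ad_κ (f g : Fr) (t : ℝ) : (f.ad g t).κ = f.κ + t * g.κ := rfl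
@[simp] theorem ad_α (f g : Fr) (t : ℝ) : (f.ad g t).α = f.α + t * g.α := rfl

theorem GA_sm (t : ℝ) (f : Fr) (l l' : Ry) : GA (f.sm t) l l' = t * GA f l l' := by
  simp only [GA, Fin.sum_univ_two, sm_n, sm_κ, sm_α]
  ring

theorem GB_sm (t : ℝ) (f : Fr) (l l' : Ry) : GB (f.sm t) l l' = t * GB f l l' := by
  simp only [GB, Fin.sum_univ_two, sm_n, sm_κ, sm_α]
  ring

theorem GA_ad (f g : Fr) (t : ℝ) (l l' : Ry) : GA (f.ad g t) l l' = GA f l l' + t * GA g l l' := by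
  simp only [GA, Fin.sum_univ_two, ad_n, ad_κ, ad_α]
  ring

theorem GB_ad (f g : Fr) (t : ℝ) (l l' : Ry) : GB (f.ad g t) l l' = GB f l l' + t * GB g l l' := by
  simp only [GB, Fin.sum_univ_two, ad_n, ad_κ, ad_α]
  ring

theorem tr_sm (t : ℝ) (f : Fr) (l l' : Ry) : (f.sm t).tr l l' = (f.tr l l').sm t := by
  apply Fr.ext' <;> simp <;> ring

theorem tr_ad (f g : Fr) (t : ℝ) (l l' : Ry) : (f.ad g t).tr l l' = (f.tr l l').ad (g.tr l l') t := by
  apply Fr.ext' <;> simp <;> ring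

/-! ### real boxes -/

/-- the condition `In` of a real box is the pair condition with the central ray -/
theorem in_iff (B : Vale.Agent.P106.W.Cbx) (H : ℝ) (y s : Fin 2 → ℝ) (z : ℝ) :
    B.In H y s z ↔ (∀ k, |y k - (cray B).y k| ≤ B.u2) ∧ (∀ k, |s k - (cray B).s k| ≤ B.u2) ∧
      |dc (cray B) ⟨y, s, z + ∑ k, y k * s k⟩| ≤ max (B.u2 ^ 2) H ∧
      |GA (cfr B) (cray B) ⟨y, s, z + ∑ k, y k * s k⟩| ≤ B.u1 ∧
      |GB (cfr B) (cray B) ⟨y, s, z + ∑ k, y k * s k⟩| ≤ B.u1 := by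
  have e1 : dc (cray B) ⟨y, s, z + ∑ k, y k * s k⟩ = z + ∑ k, y k * (s k - B.v k) - B.ω := by
    simp only [dc, cray, Fin.sum_univ_two]
    ring
  have e2 : GA (cfr B) (cray B) ⟨y, s, z + ∑ k, y k * s k⟩ = Vale.Agent.P122.C2.fn B.θ (y - B.p) +
      B.κ * (z + ∑ k, y k * (s k - B.v k) - B.ω) - B.α * ∑ k, (y k - B.p k) ^ 2 := by
    simp only [GA, e1]
    simp only [cray, cfr, Fin.sum_univ_two, Vale.Agent.P122.C2.fn, Matrix.cons_val_zero, Matrix.cons_val_one, Pi.sub_apply]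
  have e3 : GB (cfr B) (cray B) ⟨y, s, z + ∑ k, y k * s k⟩ = Vale.Agent.P122.C2.fn B.θ (s - B.v) +
      B.κ * (∑ k, (s k - B.v k) ^ 2) / 2 + 2 * B.α * (z + ∑ k, B.p k * (s k - B.v k) - B.ω) := by
    simp only [GB, e1]
    simp only [cray, cfr, Fin.sum_univ_two, Vale.Agent.P122.C2.fn, Matrix.cons_val_zero, Matrix.cons_val_one, Pi.sub_apply]
    ring
  rw [e1, e2, e3]
  rfl

/-- change of level: values of `G` -/
theorem dn_dc {q : ℝ} (ρ : ℝ) (l l' : Ry) :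
    dc (l.dn q ρ) (l'.dn q ρ) = q * dc l l' + ρ * (∑ k, (l'.s k - l.s k) ^ 2) / 2 := by
  simp only [dc, Ry.dn, Fin.sum_univ_two]
  ring

theorem dn_GA {q : ℝ} (hq : q ≠ 0) (ρ : ℝ) (f : Fr) (l l' : Ry) :
    GA (f.dn q ρ) (l.dn q ρ) (l'.dn q ρ) = q * GA f l l' + ρ * GB f l l' := by
  simp only [GA, GB, dc, Ry.dn, Fr.dn, Fin.sum_univ_two]
  field_simp
  ring

theorem dn_GB {q : ℝ} (hq : q ≠ 0) (ρ : ℝ) (f : Fr) (l l' : Ry) :
    GB (f.dn q ρ) (l.dn q ρ) (l'.dn q ρ) = GB f l l' := by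
  simp only [GB, dc, Ry.dn, Fr.dn, Fin.sum_univ_two]
  field_simp
  ring

theorem dn_tr {q : ℝ} (hq : q ≠ 0) (ρ : ℝ) (f : Fr) (l l' : Ry) :
    (f.dn q ρ).tr (l.dn q ρ) (l'.dn q ρ) = (f.tr l l').dn q ρ := by
  apply Fr.ext'
  · simp only [Ry.dn, Fr.dn, tr_n]
    field_simp
    ring
  · simp only [Ry.dn, Fr.dn, tr_n]
    field_simp
    ring
  · simp [Fr.dn]
  · simp [Fr.dn]

end Vale.Agent.P106.R.E8
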