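import Vale.Agent.P106.R.E8.Ray
import Vale.Agent.P106.W.Geo

/-!
# P106 / R / E8 : algebra of rays and frames, rays of a plank, of its piece and of a plank of a higher level (helper84)

* `dc_symm`, `GA_symm`, `GB_symm`, `crs_tr` : change of the centre.
* `In_iff`, `InP_iff` : the real boxes in terms of `Near`.
* `Cl C r H l l'` : rays close up to `r`, `H`; `sig_ray` : the rays `nray F c`, `pray F c d`, `(nray F c').dn` are close.
-/

set_option autoImplicit false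

namespace Vale.Agent.P106.R.E8

open Filter Topology Finset Vale.Agent.P127 Vale.Agent.P127.Stk Vale.Agent.P127.U Vale.Agent.P127.U.Sys Vale.Agent.P106.R.C2
  Vale.Agent.P106.R.E
open Vale.Agent.P106.W (Cbx)

/-! ### change of the centre -/

theorem dc_symm (l l' : Ry) : dc l' l = -dc l l' + ∑ k, (l'.s k - l.s k) * (l'.y k - l.y k) := by
  simp only [dc, Fin.sum_univ_two]
  ring

theorem GA_symm (f : Fr) (l l' : Ry) : GA (f.tr l l') l' l = -GA f l l' := by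
  have h := GA_add f l l' l
  rw [GA_self] at h
  linarith

theorem GB_symm (f : Fr) (l l' : Ry) : GB (f.tr l l') l' l = -GB f l l' := by
  have h := GB_add f l l' l
  rw [GB_self] at h
  linarith

/-- exact change of the cross product of two normals -/
theorem crs_tr (f g : Fr) (l l' : Ry) : crs (f.tr l l').n (g.tr l l').n = crs f.n g.n +
    ((f.n 0 * g.κ - g.n 0 * f.κ) * (l'.s 1 - l.s 1) - (f.n 1 * g.κ - g.n 1 * f.κ) * (l'.s 0 - l.s 0) -
      2 * ((f.n 0 * g.α - g.n 0 * f.α) * (l'.y 1 - l.y 1) - (f.n 1 * g.α - g.n 1 * f.α) * (l'.y 0 - l.y 0)) -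
      2 * (f.κ * g.α - g.κ * f.α) * ((l'.s 0 - l.s 0) * (l'.y 1 - l.y 1) - (l'.s 1 - l.s 1) * (l'.y 0 - l.y 0))) := by
  simp only [crs, Fr.tr]
  ring

/-! ### real boxes -/

theorem In_iff (B : Cbx) (H : ℝ) (y s : Fin 2 → ℝ) (z : ℝ) :
    B.In H y s z ↔ Near 1 (cfr B) B.u1 B.u2 H (cray B) ⟨y, s, z + ∑ k, y k * s k⟩ := by
  rw [in_iff]
  unfold Near
  simp only [one_mul]

variable {K : ℕ}

theorem InP_iff (F : Flg K) (c i : ℕ) (ω : F.S.Ω i) (B : Cbx) :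
    InP (F.s i) (F.n i) c B (F.N c i ω) ↔ Near 1 (cfr B) B.u1 B.u2 (Hc F c i) (cray B) (nray F c i ω) := by
  unfold InP
  rw [In_iff, F.hs i]
  rfl

/-! ### close rays -/

/-- the rays are close: positions and slopes up to `r`, adapted coordinate up to `H` -/
def Cl (C r H : ℝ) (l l' : Ry) : Prop :=
  (∀ k, |l'.y k - l.y k| ≤ C * r) ∧ (∀ k, |l'.s k - l.s k| ≤ C * r) ∧ |dc l l'| ≤ C * H

theorem sum_mul_le {a b : Fin 2 → ℝ} {A B : ℝ} (ha : ∀ k, |a k| ≤ A) (hb : ∀ k, |b k| ≤ B) :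
    |∑ k, a k * b k| ≤ 2 * (A * B) := by
  have hA : 0 ≤ A := (abs_nonneg _).trans (ha 0)
  rw [Fin.sum_univ_two]
  have h : ∀ k, |a k * b k| ≤ A * B := fun k => by
    rw [abs_mul]
    exact mul_le_mul (ha k) (hb k) (abs_nonneg _) hA
  have := abs_add_le (a 0 * b 0) (a 1 * b 1)
  have h0 := h 0
  have h1 := h 1
  linarith

theorem Cl.mono {C C' r H : ℝ} {l l' : Ry} (h : Cl C r H l l') (hr : 0 ≤ r) (hH : 0 ≤ H) (hC : C ≤ C') : Cl C' r H l l' :=
  ⟨fun k => (h.1 k).trans (mul_le_mul_of_nonneg_right hC hr), fun k => (h.2.1 k).trans (mul_le_mul_of_nonneg_right hC hr),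
    h.2.2.trans (mul_le_mul_of_nonneg_right hC hH)⟩

theorem Cl.symm {C r H : ℝ} {l l' : Ry} (h : Cl C r H l l') (hr : r ^ 2 ≤ H) (hr0 : 0 ≤ r) :
    Cl (C + 2 * C ^ 2) r H l' l := by
  have hH : 0 ≤ H := (sq_nonneg r).trans hr
  have hCC : C ≤ C + 2 * C ^ 2 := by nlinarith [sq_nonneg C]
  refine ⟨fun k => ?_, fun k => ?_, ?_⟩
  · rw [abs_sub_comm]
    exact (h.1 k).trans (mul_le_mul_of_nonneg_right hCC hr0)
  · rw [abs_sub_comm]
    exact (h.2.1 k).trans (mul_le_mul_of_nonneg_right hCC hr0)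
  · rw [dc_symm l l']
    have h1 := sum_mul_le (a := fun k => l'.s k - l.s k) (b := fun k => l'.y k - l.y k) h.2.1 h.1
    have h2 := abs_add_le (-dc l l') (∑ k, (l'.s k - l.s k) * (l'.y k - l.y k))
    rw [abs_neg] at h2
    have h3 := h.2.2
    have h4 : 2 * (C * r * (C * r)) ≤ 2 * C ^ 2 * H := by
      have : 2 * (C * r * (C * r)) = 2 * C ^ 2 * r ^ 2 := by ring
      rw [this]
      exact mul_le_mul_of_nonneg_left hr (by positivity)
    calc _ ≤ C * H + 2 * C ^ 2 * H := by linarith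
      _ = _ := by ring

theorem Cl.trans {C C' r H : ℝ} {l l' l'' : Ry} (h : Cl C r H l l') (h' : Cl C' r H l' l'') (hC : 0 ≤ C) (hC' : 0 ≤ C')
    (hr : r ^ 2 ≤ H) (hr0 : 0 ≤ r) : Cl (C + C' + 2 * (C * C')) r H l l'' := by
  have hH : 0 ≤ H := (sq_nonneg r).trans hr
  have hcc : 0 ≤ 2 * (C * C') := by positivity
  refine ⟨fun k => ?_, fun k => ?_, ?_⟩
  · have h1 := abs_sub_le (l''.y k) (l'.y k) (l.y k)
    have h2 := h.1 k
    have h3 := h'.1 k
    nlinarith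
  · have h1 := abs_sub_le (l''.s k) (l'.s k) (l.s k)
    have h2 := h.2.1 k
    have h3 := h'.2.1 k
    nlinarith
  · rw [dc_add l l' l'']
    have h1 := sum_mul_le (a := fun k => l'.s k - l.s k) (b := fun k => l''.y k - l'.y k) h.2.1 h'.1
    have h2 := abs_add_le (dc l l' + dc l' l'') (∑ k, (l'.s k - l.s k) * (l''.y k - l'.y k))
    have h3 := abs_add_le (dc l l') (dc l' l'')
    have h4 : 2 * (C * r * (C' * r)) ≤ 2 * (C * C') * H := by
      have : 2 * (C * r * (C' * r)) = 2 * (C * C') * r ^ 2 := by ring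
      rw [this]
      exact mul_le_mul_of_nonneg_left hr (by positivity)
    have h5 := h.2.2
    have h6 := h'.2.2
    calc _ ≤ C * H + C' * H + 2 * (C * C') * H := by linarith
      _ = _ := by ring

/-! ### the rays of a flag -/

theorem Hc_pos (F : Flg K) (c i : ℕ) : 0 < Hc F c i := by
  unfold Hc W.hh
  positivity

theorem mm_half (F : Flg K) (c d i : ℕ) (h : d ≤ 2 * c) :
    (1 / 2 : ℝ) ^ mm F c d i = 2 ^ (d * F.n i) / 2 ^ (2 * c * F.n i) := by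
  unfold mm
  rw [one_div, inv_pow, eq_div_iff (by positivity), inv_mul_eq_iff_eq_mul₀ (by positivity), ← pow_add]
  congr 1
  rw [← add_mul]
  congr 1
  omega

theorem mm_sq (F : Flg K) (c d i : ℕ) (hcd : c ≤ d) (h : d ≤ 2 * c) (hh : 2 * (d - c) ≤ F.h) :
    ((1 / 2 : ℝ) ^ mm F c d i) ^ 2 ≤ Hc F c i := by
  rw [mm_half F c d i h, Hc, W.hh, div_pow, div_le_div_iff₀ (by positivity) (by positivity), ← pow_mul, ← pow_mul, ← pow_add,
    ← pow_add]
  apply pow_le_pow_right₀ (by norm_num)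
  have : d * F.n i * 2 + 2 * c * F.n i = (2 * d + 2 * c) * F.n i := by ring
  have : F.h * F.n i + 2 * c * F.n i * 2 = (F.h + 4 * c) * F.n i := by ring
  nlinarith [Nat.mul_le_mul_right (F.n i) (show 2 * d + 2 * c ≤ F.h + 4 * c by omega)]

/-- the plank and its piece -/
theorem nray_pray (F : Flg K) (c d i : ℕ) (ω : F.S.Ω i) (hcd : c ≤ d) (h : d ≤ 2 * c) :
    Cl 1 ((1 / 2 : ℝ) ^ mm F c d i) (Hc F c i) (nray F c i ω) (pray F c d i ω) := by
  have hP : (0 : ℝ) < 2 ^ (c * F.n i) := by positivity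
  have hQ : (0 : ℝ) < 2 ^ ((d - c) * F.n i) := by positivity
  have hM : (0 : ℝ) < 2 ^ mm F c d i := by positivity
  have e0 : (2 : ℝ) ^ (c * F.n i) = 2 ^ ((d - c) * F.n i) * 2 ^ mm F c d i := by
    unfold mm
    rw [← pow_add, ← add_mul]
    congr 2
    omega
  -- one coordinate
  have hk : ∀ x : ℤ, |((x / 2 ^ ((d - c) * F.n i) : ℤ) : ℝ) / 2 ^ mm F c d i - (x : ℝ) / 2 ^ (c * F.n i)| ≤
      1 * (1 / 2 : ℝ) ^ mm F c d i := by
    intro x
    have h1 := WGeo.geo_mod x ((d - c) * F.n i)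
    have h2 : (0 : ℝ) ≤ ((x % 2 ^ ((d - c) * F.n i) : ℤ) : ℝ) := by
      exact_mod_cast Int.emod_nonneg _ (by positivity)
    have h3 : ((x % 2 ^ ((d - c) * F.n i) : ℤ) : ℝ) ≤ 2 ^ ((d - c) * F.n i) := by
      exact_mod_cast (Int.emod_lt_of_pos x (by positivity : (0 : ℤ) < 2 ^ ((d - c) * F.n i))).le
    have e1 : ((x / 2 ^ ((d - c) * F.n i) : ℤ) : ℝ) / 2 ^ mm F c d i - (x : ℝ) / 2 ^ (c * F.n i) =
        -(((x % 2 ^ ((d - c) * F.n i) : ℤ) : ℝ) / 2 ^ ((d - c) * F.n i)) / 2 ^ mm F c d i := by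
      rw [h1, e0]
      field_simp
      ring
    rw [e1, abs_div, abs_neg, abs_of_pos hM, abs_of_nonneg (div_nonneg h2 hQ.le), one_mul, one_div, inv_pow,
      ← one_div]
    exact div_le_div_of_nonneg_right ((div_le_one hQ).2 h3) hM.le
  refine ⟨fun k => hk ((F.N c i ω).o k), fun k => ?_, ?_⟩
  · show |_ - F.s i c (F.N c i ω).τ k| ≤ _
    rw [WGeo.slp_eq]
    exact hk ((F.N c i ω).τ k)
  · have hn : (nray F c i ω) = ⟨fun k => ((F.N c i ω).o k : ℝ) / 2 ^ (c * F.n i), fun k => ((F.N c i ω).τ k : ℝ) / 2 ^ (c * F.n i),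
        ((F.N c i ω).w : ℝ) * Hc F c i - ((F.N c i ω).T : ℝ) * (∑ k, (((F.N c i ω).τ k : ℝ) / 2 ^ (c * F.n i)) ^ 2) / 2 +
        ∑ k, ((F.N c i ω).o k : ℝ) / 2 ^ (c * F.n i) * (((F.N c i ω).τ k : ℝ) / 2 ^ (c * F.n i))⟩ := by
      have es : F.s i c (F.N c i ω).τ = fun k => ((F.N c i ω).τ k : ℝ) / 2 ^ (c * F.n i) := by
        funext k
        exact WGeo.slp_eq F i c _ k
      unfold nray py pz Hc W.hh
      rw [es, F.hs i]
      simp only [Ry.mk.injEq, true_and]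
      ring
    have e2 : (2 : ℝ) ^ (2 * c * F.n i) = 2 ^ (d * F.n i) * 2 ^ mm F c d i := by
      unfold mm
      rw [← pow_add, ← add_mul]
      congr 2
      omega
    have hH : (0 : ℝ) < 2 ^ (F.h * F.n i) := by positivity
    have hd0 : (0 : ℝ) < 2 ^ (d * F.n i) := by positivity
    set τ' : Z2 := fun k => (F.N c i ω).τ k / 2 ^ ((d - c) * F.n i) with hτ'
    set o' : Z2 := fun k => (F.N c i ω).o k / 2 ^ ((d - c) * F.n i) with ho'
    set X : ℝ := (∑ k, (-((2:ℝ) ^ (d * F.n i) * ((o' k : ℤ) : ℝ)) *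
      (W.s0 (F.n i) (2 * c - d) τ' k - W.s0 (F.n i) c (F.N c i ω).τ k) +
    ((F.N c i ω).T : ℝ) * 2 ^ (2 * c * F.n i) *
      (W.s0 (F.n i) (2 * c - d) τ' k ^ 2 - W.s0 (F.n i) c (F.N c i ω).τ k ^ 2) / 2)) / 2 ^ (F.h * F.n i) with hX
    have hw : (F.sig c d i ω).w = (F.N c i ω).w + ⌊X⌋ := rfl
    have hp : pray F c d i ω = ⟨fun k => (o' k : ℝ) / 2 ^ mm F c d i, fun k => (τ' k : ℝ) / 2 ^ mm F c d i,
        (((F.N c i ω).w + ⌊X⌋ : ℤ) : ℝ) * Hc F c i - ((F.N c i ω).T : ℝ) * (∑ k, ((τ' k : ℝ) / 2 ^ mm F c d i) ^ 2) / 2 +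
        ∑ k, (o' k : ℝ) / 2 ^ mm F c d i * ((τ' k : ℝ) / 2 ^ mm F c d i)⟩ := rfl
    have hXH : X * Hc F c i = ∑ k, (-((o' k : ℝ) / 2 ^ mm F c d i) * ((τ' k : ℝ) / 2 ^ mm F c d i -
        ((F.N c i ω).τ k : ℝ) / 2 ^ (c * F.n i)) + ((F.N c i ω).T : ℝ) * (((τ' k : ℝ) / 2 ^ mm F c d i) ^ 2 -
        (((F.N c i ω).τ k : ℝ) / 2 ^ (c * F.n i)) ^ 2) / 2) := by
      rw [hX]
      unfold Hc W.hh W.s0
      rw [show (2 * c - d) * F.n i = mm F c d i from rfl, div_mul_div_cancel₀ hH.ne', Finset.sum_div]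
      refine Finset.sum_congr rfl fun k _ => ?_
      rw [e2]
      field_simp
    have hdc : dc (nray F c i ω) (pray F c d i ω) = ((⌊X⌋ : ℝ) - X) * Hc F c i := by
      rw [sub_mul, hXH, hn, hp]
      simp only [dc, Fin.sum_univ_two]
      push_cast
      ring
    rw [hdc, abs_mul, abs_of_pos (Hc_pos F c i)]
    refine mul_le_mul_of_nonneg_right ?_ (Hc_pos F c i).le
    have f1 := Int.floor_le X
    have f2 := Int.lt_floor_add_one X
    rw [abs_le]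
    constructor <;> linarith

theorem qq_pos (F : Flg K) (c c' i : ℕ) : 0 < qq F c c' i := by
  unfold qq
  positivity

theorem rr_eq (F : Flg K) {c c' i : ℕ} (ω : F.S.Ω i) (hcc : c ≤ c') :
    rr F c c' i ω = (WGeo.gt F i ω c - WGeo.gt F i ω c') / 2 ^ (2 * c * F.n i) := by
  have e : (2 : ℝ) ^ (2 * c' * F.n i) = qq F c c' i * 2 ^ (2 * c * F.n i) := by
    unfold qq
    rw [← pow_add, ← add_mul]
    congr 2
    omega
  unfold rr WGeo.gt Flg.T
  rw [e]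
  field_simp

theorem rr_nonneg (F : Flg K) {c c' i : ℕ} {ω : F.S.Ω i} (hω : 0 < (F.S.P i).w ω) (hcc : c ≤ c') (hc : c' ≤ K) :
    0 ≤ rr F c c' i ω := by
  rw [rr_eq F ω hcc]
  exact div_nonneg (WGeo.geo_t F hω hcc hc).1 (by positivity)

theorem rr_le (F : Flg K) {c c' i : ℕ} {ω : F.S.Ω i} (hω : 0 < (F.S.P i).w ω) (hcc : c ≤ c') (hc : c' ≤ K) :
    rr F c c' i ω ≤ qq F c c' i := by
  rw [rr_eq F ω hcc, div_le_iff₀ (by positivity)]
  refine (WGeo.geo_t F hω hcc hc).2.trans (le_of_eq ?_)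
  unfold qq
  rw [← pow_add, ← add_mul]
  congr 2
  omega

/-- the plank of level `c` and the plank of level `c'` through it -/
theorem nray_dn (F : Flg K) : ∃ C : ℝ, 1 ≤ C ∧ ∀ c c' i, c ≤ c' → c' ≤ K → 2 * (c' - c) ≤ F.h → ∀ ω : F.S.Ω i, 0 < (F.S.P i).w ω →
    (∀ k, |((nray F c' i ω).dn (qq F c c' i) (rr F c c' i ω)).y k - (nray F c i ω).y k| ≤
      C * (2 ^ (c' * F.n i) / 2 ^ (2 * c * F.n i))) ∧
    (∀ k, |((nray F c' i ω).dn (qq F c c' i) (rr F c c' i ω)).s k - (nray F c i ω).s k| ≤ C / 2 ^ (c * F.n i)) ∧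
    |dc (nray F c i ω) ((nray F c' i ω).dn (qq F c c' i) (rr F c c' i ω))| ≤ C * Hc F c i := by
  obtain ⟨C, hC, hG⟩ := WGeo.e5Geo F
  refine ⟨C + 2 * C ^ 2, by nlinarith, fun c c' i hcc hc' hh ω hω => ?_⟩
  obtain ⟨-, -, -, h1, h2, -, -, h3⟩ := hG i ω hω c c' hcc hc'
  have hCC : C ≤ C + 2 * C ^ 2 := by nlinarith [sq_nonneg C]
  have hc0 : (0 : ℝ) < 2 ^ (2 * c * F.n i) := by positivity
  have hc1 : (0 : ℝ) < 2 ^ (c * F.n i) := by positivity
  have ec : (2 : ℝ) ^ (2 * c * F.n i) = 2 ^ (c * F.n i) * 2 ^ (c * F.n i) := by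
    rw [← pow_add]; congr 1; ring
  have ec' : (2 : ℝ) ^ (2 * c' * F.n i) = 2 ^ (c' * F.n i) * 2 ^ (c' * F.n i) := by
    rw [← pow_add]; congr 1; ring
  have hc'0 : (0 : ℝ) < 2 ^ (c' * F.n i) := by positivity
  have eq : qq F c c' i * 2 ^ (2 * c * F.n i) = 2 ^ (2 * c' * F.n i) := by
    unfold qq
    rw [← pow_add, ← add_mul]
    congr 2
    omega
  have er := rr_eq F ω hcc (i := i)
  rw [eq_div_iff hc0.ne'] at er
  -- positions
  have hy : ∀ k, ((nray F c' i ω).dn (qq F c c' i) (rr F c c' i ω)).y k - (nray F c i ω).y k =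
      -(2 ^ (c * F.n i) * ((F.N c i ω).o k : ℝ) - (2 ^ (c' * F.n i) * ((F.N c' i ω).o k : ℝ) +
      (((F.N c i ω).T : ℝ) * 2 ^ (2 * c * F.n i) - ((F.N c' i ω).T : ℝ) * 2 ^ (2 * c' * F.n i)) *
        F.s i c' (F.N c' i ω).τ k)) / 2 ^ (2 * c * F.n i) := by
    intro k
    show qq F c c' i * (((F.N c' i ω).o k : ℝ) / 2 ^ (c' * F.n i)) + rr F c c' i ω * F.s i c' (F.N c' i ω).τ k -
      ((F.N c i ω).o k : ℝ) / 2 ^ (c * F.n i) = _
    rw [eq_div_iff hc0.ne']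
    have a1 : qq F c c' i * (((F.N c' i ω).o k : ℝ) / 2 ^ (c' * F.n i)) * 2 ^ (2 * c * F.n i) =
        2 ^ (c' * F.n i) * ((F.N c' i ω).o k : ℝ) := by
      calc _ = (qq F c c' i * 2 ^ (2 * c * F.n i)) * (((F.N c' i ω).o k : ℝ) / 2 ^ (c' * F.n i)) := by ring
        _ = _ := by rw [eq, ec']; field_simp
    have a2 : ((F.N c i ω).o k : ℝ) / 2 ^ (c * F.n i) * 2 ^ (2 * c * F.n i) = 2 ^ (c * F.n i) * ((F.N c i ω).o k : ℝ) := by
      rw [ec]; field_simp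
    have a3 : rr F c c' i ω * 2 ^ (2 * c * F.n i) =
        ((F.N c i ω).T : ℝ) * 2 ^ (2 * c * F.n i) - ((F.N c' i ω).T : ℝ) * 2 ^ (2 * c' * F.n i) := er
    rw [sub_mul, add_mul, a1, a2, ← a3]
    ring
  have b1 : ∀ k, |((nray F c' i ω).dn (qq F c c' i) (rr F c c' i ω)).y k - (nray F c i ω).y k| ≤
      C * (2 ^ (c' * F.n i) / 2 ^ (2 * c * F.n i)) := by
    intro k
    rw [hy, abs_div, abs_neg, abs_of_pos hc0, mul_div_assoc']
    exact div_le_div_of_nonneg_right (h2 k) hc0.le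
  have b2 : ∀ k, |((nray F c' i ω).dn (qq F c c' i) (rr F c c' i ω)).s k - (nray F c i ω).s k| ≤ C / 2 ^ (c * F.n i) :=
    fun k => h1 k
  refine ⟨fun k => (b1 k).trans (mul_le_mul_of_nonneg_right hCC (by positivity)),
    fun k => (b2 k).trans (div_le_div_of_nonneg_right hCC hc1.le), ?_⟩
  -- the adapted coordinate
  have hHc : Hc F c i * 2 ^ (2 * c * F.n i) = 2 ^ (F.h * F.n i) := by
    unfold Hc W.hh
    field_simp
  have hHc' : Hc F c' i * 2 ^ (2 * c' * F.n i) = 2 ^ (F.h * F.n i) := by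
    unfold Hc W.hh
    field_simp
  have hdc : dc (nray F c i ω) ((nray F c' i ω).dn (qq F c c' i) (rr F c c' i ω)) =
      (2 ^ (F.h * F.n i) * ((F.N c' i ω).w : ℝ) - (2 ^ (F.h * F.n i) * ((F.N c i ω).w : ℝ) +
      ∑ k, (-(2 ^ (c * F.n i) * ((F.N c i ω).o k : ℝ)) * (F.s i c' (F.N c' i ω).τ k - F.s i c (F.N c i ω).τ k) +
        ((F.N c i ω).T : ℝ) * 2 ^ (2 * c * F.n i) *
          (F.s i c' (F.N c' i ω).τ k ^ 2 - F.s i c (F.N c i ω).τ k ^ 2) / 2))) / 2 ^ (2 * c * F.n i) +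
      ∑ k, (((nray F c' i ω).dn (qq F c c' i) (rr F c c' i ω)).y k - (nray F c i ω).y k) *
        (((nray F c' i ω).dn (qq F c c' i) (rr F c c' i ω)).s k - (nray F c i ω).s k) := by
    have r1 : rr F c c' i ω = ((F.N c i ω).T : ℝ) - ((F.N c' i ω).T : ℝ) * qq F c c' i := rfl
    have p1 : (2 : ℝ) ^ (F.h * F.n i) / 2 ^ (2 * c * F.n i) = Hc F c i := rfl
    have p2 : Hc F c i = qq F c c' i * Hc F c' i := by
      have : Hc F c i * 2 ^ (2 * c * F.n i) = qq F c c' i * Hc F c' i * 2 ^ (2 * c * F.n i) := by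
        rw [hHc, ← hHc', ← eq]; ring
      exact mul_right_cancel₀ hc0.ne' this
    have p3 : (2 : ℝ) ^ (c * F.n i) * ((F.N c i ω).o 0 : ℝ) / 2 ^ (2 * c * F.n i) = ((F.N c i ω).o 0 : ℝ) / 2 ^ (c * F.n i) := by
      rw [ec]; field_simp
    have p4 : (2 : ℝ) ^ (c * F.n i) * ((F.N c i ω).o 1 : ℝ) / 2 ^ (2 * c * F.n i) = ((F.N c i ω).o 1 : ℝ) / 2 ^ (c * F.n i) := by
      rw [ec]; field_simp
    have z1 : (nray F c i ω).U = ((F.N c i ω).w : ℝ) * Hc F c i - ((F.N c i ω).T : ℝ) *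
        (F.s i c (F.N c i ω).τ 0 ^ 2 + F.s i c (F.N c i ω).τ 1 ^ 2) / 2 +
        (((F.N c i ω).o 0 : ℝ) / 2 ^ (c * F.n i) * F.s i c (F.N c i ω).τ 0 +
          ((F.N c i ω).o 1 : ℝ) / 2 ^ (c * F.n i) * F.s i c (F.N c i ω).τ 1) := by
      unfold nray py pz
      rw [F.hs i, mul_div_assoc, p1]
      simp only [Fin.sum_univ_two]
    have z2 : (nray F c' i ω).U = ((F.N c' i ω).w : ℝ) * Hc F c' i - ((F.N c' i ω).T : ℝ) *
        (F.s i c' (F.N c' i ω).τ 0 ^ 2 + F.s i c' (F.N c' i ω).τ 1 ^ 2) / 2 +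
        (((F.N c' i ω).o 0 : ℝ) / 2 ^ (c' * F.n i) * F.s i c' (F.N c' i ω).τ 0 +
          ((F.N c' i ω).o 1 : ℝ) / 2 ^ (c' * F.n i) * F.s i c' (F.N c' i ω).τ 1) := by
      have p5 : (2 : ℝ) ^ (F.h * F.n i) / 2 ^ (2 * c' * F.n i) = Hc F c' i := rfl
      unfold nray py pz
      rw [F.hs i, mul_div_assoc, p5]
      simp only [Fin.sum_univ_two]
    have lhs : (2 ^ (F.h * F.n i) * ((F.N c' i ω).w : ℝ) - (2 ^ (F.h * F.n i) * ((F.N c i ω).w : ℝ) +
      ∑ k, (-(2 ^ (c * F.n i) * ((F.N c i ω).o k : ℝ)) * (F.s i c' (F.N c' i ω).τ k - F.s i c (F.N c i ω).τ k) +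
        ((F.N c i ω).T : ℝ) * 2 ^ (2 * c * F.n i) *
          (F.s i c' (F.N c' i ω).τ k ^ 2 - F.s i c (F.N c i ω).τ k ^ 2) / 2))) / 2 ^ (2 * c * F.n i) =
        Hc F c i * ((F.N c' i ω).w : ℝ) - (Hc F c i * ((F.N c i ω).w : ℝ) +
      ∑ k, (-(((F.N c i ω).o k : ℝ) / 2 ^ (c * F.n i)) * (F.s i c' (F.N c' i ω).τ k - F.s i c (F.N c i ω).τ k) +
        ((F.N c i ω).T : ℝ) * (F.s i c' (F.N c' i ω).τ k ^ 2 - F.s i c (F.N c i ω).τ k ^ 2) / 2)) := by
      simp only [Fin.sum_univ_two]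
      rw [← p1, ← p3, ← p4]
      field_simp
    rw [lhs, p2]
    simp only [dc, Fin.sum_univ_two]
    have u1 : ((nray F c' i ω).dn (qq F c c' i) (rr F c c' i ω)).U = qq F c c' i * (nray F c' i ω).U +
        rr F c c' i ω * (F.s i c' (F.N c' i ω).τ 0 ^ 2 + F.s i c' (F.N c' i ω).τ 1 ^ 2) / 2 := by
      unfold Ry.dn
      simp only [Fin.sum_univ_two]
      rfl
    have y1 : ∀ k, ((nray F c' i ω).dn (qq F c c' i) (rr F c c' i ω)).y k =
        qq F c c' i * (((F.N c' i ω).o k : ℝ) / 2 ^ (c' * F.n i)) + rr F c c' i ω * F.s i c' (F.N c' i ω).τ k := fun k => rfl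
    have y2 : ∀ k, (nray F c i ω).y k = ((F.N c i ω).o k : ℝ) / 2 ^ (c * F.n i) := fun k => rfl
    have s1 : ∀ k, ((nray F c' i ω).dn (qq F c c' i) (rr F c c' i ω)).s k = F.s i c' (F.N c' i ω).τ k := fun k => rfl
    have s2 : ∀ k, (nray F c i ω).s k = F.s i c (F.N c i ω).τ k := fun k => rfl
    rw [u1, z1, z2, p2]
    simp only [y1, y2, s1, s2]
    rw [r1]
    ring
  rw [hdc]
  have g1 : |(2 ^ (F.h * F.n i) * ((F.N c' i ω).w : ℝ) - (2 ^ (F.h * F.n i) * ((F.N c i ω).w : ℝ) +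
      ∑ k, (-(2 ^ (c * F.n i) * ((F.N c i ω).o k : ℝ)) * (F.s i c' (F.N c' i ω).τ k - F.s i c (F.N c i ω).τ k) +
        ((F.N c i ω).T : ℝ) * 2 ^ (2 * c * F.n i) *
          (F.s i c' (F.N c' i ω).τ k ^ 2 - F.s i c (F.N c i ω).τ k ^ 2) / 2))) / 2 ^ (2 * c * F.n i)| ≤ C * Hc F c i := by
    rw [abs_div, abs_of_pos hc0, div_le_iff₀ hc0]
    refine h3.trans (le_of_eq ?_)
    rw [← hHc]
    ring
  have g2 := sum_mul_le b1 b2
  have g3 : 2 * (C * (2 ^ (c' * F.n i) / 2 ^ (2 * c * F.n i)) * (C / 2 ^ (c * F.n i))) ≤ 2 * C ^ 2 * Hc F c i := by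
    have : 2 * (C * (2 ^ (c' * F.n i) / 2 ^ (2 * c * F.n i)) * (C / 2 ^ (c * F.n i))) =
        2 * C ^ 2 * ((2 ^ (c' * F.n i) / 2 ^ (c * F.n i)) / 2 ^ (2 * c * F.n i)) := by
      field_simp
    rw [this]
    refine mul_le_mul_of_nonneg_left ?_ (by positivity)
    unfold Hc W.hh
    refine div_le_div_of_nonneg_right ?_ hc0.le
    rw [div_le_iff₀ hc1, ← pow_add, ← add_mul]
    exact pow_le_pow_right₀ (by norm_num) (Nat.mul_le_mul_right _ (by omega))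
  calc _ ≤ _ := abs_add_le _ _
    _ ≤ C * Hc F c i + 2 * C ^ 2 * Hc F c i := by linarith
    _ = _ := by ring

/-- **the rays of the plank of level `c`, of the piece `sig c d` and of the plank of level `c'`, in the coordinates of the level
`c`** -/
theorem sig_ray (F : Flg K) : ∃ C : ℝ, 1 ≤ C ∧ ∀ c c' d i, c ≤ c' → c' ≤ d → d ≤ 2 * c → d ≤ K → 2 * (d - c) ≤ F.h →
    ∀ ω : F.S.Ω i, 0 < (F.S.P i).w ω →
    ∀ l ∈ ({nray F c i ω, pray F c d i ω, (nray F c' i ω).dn (qq F c c' i) (rr F c c' i ω)} : Set Ry),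
    ∀ l' ∈ ({nray F c i ω, pray F c d i ω, (nray F c' i ω).dn (qq F c c' i) (rr F c c' i ω)} : Set Ry),
      Cl C ((1 / 2 : ℝ) ^ mm F c d i) (Hc F c i) l l' := by
  obtain ⟨C, hC, h⟩ := nray_dn F
  refine ⟨C + 3 + 2 * ((C + 2 * C ^ 2) * (C + 3)) + (C + 2 * C ^ 2), by nlinarith [mul_nonneg (by linarith : 0 ≤ C) (by linarith : 0 ≤ C)], ?_⟩
  intro c c' d i hcc hcd hd hdK hh ω hω l hl l' hl'
  have hr0 : (0 : ℝ) ≤ (1 / 2 : ℝ) ^ mm F c d i := by positivity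
  have hr := mm_sq F c d i (hcc.trans hcd) hd hh
  have hH := (Hc_pos F c i).le
  have hC0 : 0 ≤ C := by linarith
  set r := (1 / 2 : ℝ) ^ mm F c d i with hrd
  set H := Hc F c i with hHd
  set a := nray F c i ω with ha
  set b := pray F c d i ω with hb
  set e := (nray F c' i ω).dn (qq F c c' i) (rr F c c' i ω) with he
  have hself : ∀ x : Ry, Cl 0 r H x x := fun x => ⟨fun k => by simp, fun k => by simp, by rw [dc_self]; simp⟩
  have hab : Cl 1 r H a b := nray_pray F c d i ω (hcc.trans hcd) hd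
  have hba : Cl 3 r H b a := by
    have := hab.symm hr hr0
    norm_num at this
    exact this
  have hae : Cl C r H a e := by
    obtain ⟨h1, h2, h3⟩ := h c c' i hcc (hcd.trans hdK) (by omega) ω hω
    refine ⟨fun k => (h1 k).trans ?_, fun k => (h2 k).trans ?_, h3⟩
    · refine mul_le_mul_of_nonneg_left ?_ hC0
      rw [hrd, mm_half F c d i hd]
      refine div_le_div_of_nonneg_right ?_ (by positivity)
      exact pow_le_pow_right₀ (by norm_num) (Nat.mul_le_mul_right _ hcd)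
    · rw [div_eq_mul_one_div, ← one_div_pow]
      refine mul_le_mul_of_nonneg_left ?_ hC0
      refine pow_le_pow_of_le_one (by norm_num) (by norm_num) ?_
      unfold mm
      exact Nat.mul_le_mul_right _ (by omega)
  have hea : Cl (C + 2 * C ^ 2) r H e a := hae.symm hr hr0
  have hbe := hba.trans hae (by norm_num) hC0 hr hr0
  have heb := hea.trans hab (by positivity) (by norm_num) hr hr0
  have q1 : 0 ≤ (C + 2 * C ^ 2) * (C + 3) := by positivity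
  have q2 : 0 ≤ C + 2 * C ^ 2 := by positivity
  simp only [Set.mem_insert_iff, Set.mem_singleton_iff] at hl hl'
  rcases hl with rfl | rfl | rfl <;> rcases hl' with rfl | rfl | rfl
  · exact (hself _).mono hr0 hH (by linarith)
  · exact hab.mono hr0 hH (by linarith)
  · exact hae.mono hr0 hH (by linarith)
  · exact hba.mono hr0 hH (by linarith)
  · exact (hself _).mono hr0 hH (by linarith)
  · exact hbe.mono hr0 hH (by nlinarith)
  · exact hea.mono hr0 hH (by linarith)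
  · exact heb.mono hr0 hH (by nlinarith)
  · exact (hself _).mono hr0 hH (by linarith)

end Vale.Agent.P106.R.E8
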