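import Vale.Agent.P106.R.E8.Defs

/-!
# P106 / R / E8 : the weakest forms of the blocks that the final count uses (helper117)

* `StFRMw` : the box variables are tame on all dense laws (679).
* `StCUT1w`, `StCUT2w` : the domain is `m' - kk c' → ∞` (823).
-/

set_option autoImplicit false

namespace Vale.Agent.P106.R.E8

open Filter Topology Finset Vale.Agent.P127 Vale.Agent.P127.Stk Vale.Agent.P127.U Vale.Agent.P127.U.Sys Vale.Agent.P106.R.C2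
  Vale.Agent.P106.R.E
open Vale.Agent.P106.W (Cbx)

/-- **[FRM]**, the box variables are tame on all dense laws -/
def StFRMw : Prop := ∀ {K : ℕ} (F : Flg K) (c d : ℕ), 1 ≤ K → 1 ≤ c → c ≤ d → d ≤ 2 * c → d ≤ K → 2 * (d - c) ≤ F.h →
  ∀ (T₁ T₂ : Type) (Z₁ : F.S.RV T₁) (Z₂ : F.S.RV T₂) (f₁ f₂ : F.S.RV Fr) (C : ℝ) (m' k₁ k₂ : ℕ → ℕ) (v₁ v₂ x g g' : ℝ),
    (∀ᶠ i in (uf : Filter ℕ), k₁ i ≤ m' i ∧ k₂ i ≤ m' i ∧ m' i ≤ mm F c d i) →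
    Sys.Fn (F.ball c) Z₁ → Sys.Fn (F.ball c) Z₂ →
    (∀ (S' : Sys) (dd : Dns S' F.S) (_ : ∀ i ω, 0 < (S'.P i).w ω → 0 < (F.S.P i).w (dd.π i ω)), Tame (dd.pull Z₁)) →
    (∀ (S' : Sys) (dd : Dns S' F.S) (_ : ∀ i ω, 0 < (S'.P i).w ω → 0 < (F.S.P i).w (dd.π i ω)), Tame (dd.pull Z₂)) →
    PB C (Hc F c) (fun i => (1 / 2 : ℝ) ^ mm F c d i) (pray F c d) Z₁ f₁ (fun i _ => (1 / 2 : ℝ) ^ m' i)
      (fun i _ => (1 / 2 : ℝ) ^ k₁ i) →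
    PB C (Hc F c) (fun i => (1 / 2 : ℝ) ^ mm F c d i) (pray F c d) Z₂ f₂ (fun i _ => (1 / 2 : ℝ) ^ m' i)
      (fun i _ => (1 / 2 : ℝ) ^ k₂ i) →
    0 < g' → g' < g → g < v₁ + v₂ - x - 4 * (F.S.nu (mm F c d) - F.S.nu m') →
    (∀ (S' : Sys) (dd : Dns S' F.S) (hs : ∀ i ω, 0 < (S'.P i).w ω → 0 < (F.S.P i).w (dd.π i ω)),
      v₁ ≤ pval (F.res dd hs) c d (dd.pull Z₁) m' k₁) →
    (∀ (S' : Sys) (dd : Dns S' F.S) (hs : ∀ i ω, 0 < (S'.P i).w ω → 0 < (F.S.P i).w (dd.π i ω)),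
      v₂ ≤ pval (F.res dd hs) c d (dd.pull Z₂) m' k₂) →
    (∀ (S' : Sys) (dd : Dns S' F.S) (hs : ∀ i ω, 0 < (S'.P i).w ω → 0 < (F.S.P i).w (dd.π i ω)),
      (F.res dd hs).exc c ≤ x) →
    ∃ ψ : ℕ → Nd → ℝ,
      Rare F.S (fun i ω => (2 : ℝ) ^ (-(g' * F.S.L i)) < |Real.sin (ang (f₁ i ω).n - ψ i (F.sig c d i ω))|) ∧
      Rare F.S (fun i ω => (2 : ℝ) ^ (-(g' * F.S.L i)) < |Real.sin (ang (f₂ i ω).n - ψ i (F.sig c d i ω))|)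

/-- **[CUT1]** on the domain `m' - kk c' → ∞` -/
def StCUT1w : Prop := AllA fun {K} F _ _ _ _ W kk jj => ∀ (c c' d : ℕ) (m' : ℕ → ℕ), 1 ≤ c → c ≤ c' → c' ≤ d → d ≤ 2 * c → d ≤ K →
  2 * (d - c) ≤ F.h → (∀ᶠ i in (uf : Filter ℕ), m' i ≤ mm F c d i ∧ m' i + 2 * (c' - c) * F.n i ≤ jj c' i) →
  (∀ A : ℕ, ∀ᶠ i in (uf : Filter ℕ), kk c' i + A ≤ m' i) →
  Tame (zz F W kk m' c c' d) ∧
  ∃ C : ℝ, PB C (Hc F c) (fun i => (1 / 2 : ℝ) ^ mm F c d i) (pray F c d) (zz F W kk m' c c' d) (wfr F W c c' d)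
      (fun i _ => (1 / 2 : ℝ) ^ m' i) (fun i _ => (1 / 2 : ℝ) ^ kk c' i) ∧
    ∀ᶠ i in (uf : Filter ℕ), ∀ ω, 0 < (F.S.P i).w ω →
      |Real.sin (F.wd c' (W c') i ω - ang (wfr F W c c' d i ω).n)| ≤ C * 2 ^ kk c' i * (1 / 2) ^ m' i

/-- **[CUT2]** on the domain `m' - kk c' → ∞` -/
def StCUT2w (A : ℝ) : Prop := AllA fun {K} F _ _ _ e W kk jj => ∀ (c c' d : ℕ) (m' : ℕ → ℕ), 1 ≤ c → c ≤ c' → c' ≤ d → d ≤ 2 * c →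
  d ≤ K → 2 * (d - c) ≤ F.h → (∀ᶠ i in (uf : Filter ℕ), m' i ≤ mm F c d i ∧ m' i + 2 * (c' - c) * F.n i ≤ jj c' i) →
  (∀ A : ℕ, ∀ᶠ i in (uf : Filter ℕ), kk c' i + A ≤ m' i) →
  e c' - A / K - A * (((d:ℝ) - c) / K) - A * (F.S.nu (mm F c d) - F.S.nu m') ≤ pval F c d (zz F W kk m' c c' d) m' (kk c')

theorem StCUT1.w (h : StCUT1) : StCUT1w := by
  intro K F J θ H e W kk jj hK hR c c' d m' h1 h2 h3 h4 h5 h6 h7 h8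
  refine h F J θ H e W kk jj hK hR c c' d m' h1 h2 h3 h4 h5 h6 ?_
  filter_upwards [h7, h8 0] with i a1 a2
  exact ⟨a1.1, a1.2, by simpa using a2⟩

theorem StCUT2.w {A : ℝ} (h : StCUT2 A) : StCUT2w A := by
  intro K F J θ H e W kk jj hK hR c c' d m' h1 h2 h3 h4 h5 h6 h7 h8
  refine h F J θ H e W kk jj hK hR c c' d m' h1 h2 h3 h4 h5 h6 ?_
  filter_upwards [h7, h8 0] with i a1 a2
  exact ⟨a1.1, a1.2, by simpa using a2⟩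

end Vale.Agent.P106.R.E8
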